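import Mathlib
import Vale.Agent.P150.Fast.DomStmt
import Vale.Agent.P150.Fast.Cavity.PartsConc

/-!
Exchange of path expectations with an auxiliary average, and the path law without side field (P150, core of M4).
-/

open MeasureTheory Real Finset
open scoped Matrix

namespace Vale.Agent.P150.Fast.Core

variable {n : ℕ} {R : Step n → Kern n}

/-- A path of `r` steps. -/
abbrev Om (n r : ℕ) : Type := Fin r → (Fin n → ℝ) × Conf n

theorem meas_cons {r : ℕ} (y : Fin n → ℝ) (z : Conf n) :
    Measurable fun ω : Om n r => (Fin.cons (y, z) ω : Om n (r + 1)) := by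
  refine measurable_pi_lambda _ fun i => ?_
  refine Fin.cases ?_ (fun j => ?_) i
  · simp only [Fin.cons_zero]; exact measurable_const
  · simp only [Fin.cons_succ]; exact measurable_pi_apply j

/-- Path expectations commute with averaging over an auxiliary variable. -/
theorem pathE_swap {P : Type} [MeasurableSpace P] (μ : Measure P) [IsProbabilityMeasure μ] :
    ∀ {r : ℕ} (σ : Fin r → Step n), (∀ t, OkStep R (σ t)) → ∀ (F : P → Om n r → ℝ),
      Measurable (Function.uncurry F) → ∀ M : ℝ, (∀ p ω, |F p ω| ≤ M) → ∀ x,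
      pathE R σ x (fun ω => ∫ p, F p ω ∂μ) = ∫ p, pathE R σ x (F p) ∂μ
  | 0, _, _, _, _, _, _, _ => rfl
  | r + 1, σ, hσ, F, hF, M, hM, x => by
    have hc : ∀ z, Measurable fun q : (P × (Fin n → ℝ)) × Om n r =>
        (q.1.1, (Fin.cons (q.1.2, z) q.2 : Om n (r + 1))) := fun z => by
      refine (measurable_fst.comp measurable_fst).prodMk (measurable_pi_lambda _ fun i => ?_)
      refine Fin.cases ?_ (fun j => ?_) i
      · simp only [Fin.cons_zero]
        exact (measurable_snd.comp measurable_fst).prodMk measurable_const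
      · simp only [Fin.cons_succ]
        exact (measurable_pi_apply j).comp measurable_snd
    have ih : ∀ y z, pathE R (Fin.tail σ) z (fun ω => ∫ p, F p (Fin.cons (y, z) ω) ∂μ)
        = ∫ p, pathE R (Fin.tail σ) z (fun ω => F p (Fin.cons (y, z) ω)) ∂μ := fun y z =>
      pathE_swap μ (Fin.tail σ) (fun t => hσ t.succ) (fun p ω => F p (Fin.cons (y, z) ω))
        (hF.comp (measurable_fst.prodMk ((meas_cons y z).comp measurable_snd))) M (fun p ω => hM _ _) z
    have im := fun z => pathE_meas (Fin.tail σ) (fun t => hσ t.succ) (P × (Fin n → ℝ))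
      (fun q ω => F q.1 (Fin.cons (q.2, z) ω)) (hF.comp (hc z)) M (fun q ω => hM _ _) z
    set I : P × (Fin n → ℝ) → ℝ := fun q =>
      ∑ z, R (σ 0) x q.2 z * pathE R (Fin.tail σ) z (fun ω => F q.1 (Fin.cons (q.2, z) ω)) with hI
    have hIm : Measurable I := Finset.measurable_sum _ fun z _ =>
      (((hσ 0).meas x z).comp measurable_snd).mul (im z).1
    have hIb : ∀ q, |I q| ≤ M := fun q =>
      avg_bound ((hσ 0).nn x q.2) ((hσ 0).sum x q.2) fun z => (im z).2 q
    have hint : Integrable (Function.uncurry fun (y : Fin n → ℝ) (p : P) =>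
        chan (σ 0).A x y * I (p, y)) ((volume : Measure (Fin n → ℝ)).prod μ) := by
      refine (((chanV_integrable (hσ 0).pd ((σ 0).A *ᵥ vec x)).mul_prod (integrable_const M)).mono'
        (Measurable.aestronglyMeasurable ?_) (ae_of_all _ fun q => ?_))
      · exact ((continuous_chanV _ _).measurable.comp measurable_fst).mul
          (hIm.comp measurable_swap)
      · rw [Function.uncurry, Real.norm_eq_abs, abs_mul, chan_eq,
          abs_of_pos (chanV_pos (hσ 0).pd _ _)]
        exact mul_le_mul_of_nonneg_left (hIb _) (chanV_pos (hσ 0).pd _ _).le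
    simp only [pathE, ih]
    refine Eq.trans ?_ (integral_integral_swap hint)
    refine integral_congr_ae (ae_of_all _ fun y => ?_)
    simp only [integral_const_mul]
    congr 1
    rw [integral_finsetSum _ fun z _ => ?_]
    · exact sum_congr rfl fun z _ => (integral_const_mul _ _).symm
    · exact (Integrable.of_bound ((im z).1.comp (measurable_id.prodMk measurable_const)).aestronglyMeasurable
        M (.of_forall fun p => (im z).2 _)).const_mul _

theorem priorAt_zero' (A : Matrix (Fin n) (Fin n) ℝ) {ν : Conf n → ℝ} (h1 : ∑ x, ν x = 1) :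
    priorAt A 0 ν 0 = ν := by
  funext x
  simp [priorAt, lin, h1]

theorem sideField_zero (x : Conf n) (g : Fin n → ℝ) : sideField 0 x g = 0 := by simp [sideField]

/-- The steps without side field. -/
def step0 (A : Matrix (Fin n) (Fin n) ℝ) (S : Finset (Fin n)) : Step n := ⟨A, 0, S⟩

theorem stepsOf_zero (A : Matrix (Fin n) (Fin n) ℝ) (S : Finset (Fin n)) (r : ℕ) :
    (stepsOf A 0 0 S : Fin r → Step n) = fun _ => step0 A S := by
  funext t; simp [stepsOf, step0]

/-- Without side field the path law is the stationary law averaged over the auxiliary noise. -/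
theorem trajE_zero {A : Matrix (Fin n) (Fin n) ℝ} (hA : A.PosDef) {ν : Conf n → ℝ}
    (hν : ∀ x, 0 < ν x) (h1 : ∑ x, ν x = 1) (S : Finset (Fin n)) {r : ℕ} {F : Traj n r → ℝ}
    (hF : Measurable F) {M : ℝ} (hM : ∀ P, |F P| ≤ M) :
    trajE A 0 ν S F
      = lawE (pR ν) ν (fun _ : Fin r => step0 A S) fun x ω => ∫ g, F (x, g, ω) ∂gp (Fin n) := by
  simp only [trajE, lawE, sideField_zero, priorAt_zero' A h1, stepsOf_zero]
  refine sum_congr rfl fun x _ => congrArg _ ?_
  exact (pathE_swap (gp (Fin n)) _ (fun _ => ok_pR hν hA) (fun g ω => F (x, g, ω))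
    (hF.comp (measurable_const.prodMk (measurable_fst.prodMk measurable_snd))) M
    (fun g ω => hM _) x).symm

theorem lawE_mono {ν : Conf n → ℝ} (hν : ∀ x, 0 ≤ ν x) {r : ℕ} (σ : Fin r → Step n)
    (hσ : ∀ t, OkStep R (σ t)) {F G : Conf n → Om n r → ℝ} (hF : ∀ x, Measurable (F x))
    (hG : ∀ x, Measurable (G x)) {M : ℝ} (hMF : ∀ x ω, |F x ω| ≤ M) (hMG : ∀ x ω, |G x ω| ≤ M)
    (h : ∀ x ω, F x ω ≤ G x ω) : lawE R ν σ F ≤ lawE R ν σ G :=
  sum_le_sum fun x _ => mul_le_mul_of_nonneg_left
    (pathE_mono σ hσ _ _ (hF x) (hG x) M (hMF x) (hMG x) (h x) x) (hν x)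

theorem lawE_add {ν : Conf n → ℝ} {r : ℕ} (σ : Fin r → Step n) (hσ : ∀ t, OkStep R (σ t))
    {F G : Conf n → Om n r → ℝ} (hF : ∀ x, Measurable (F x)) (hG : ∀ x, Measurable (G x)) {M : ℝ}
    (hMF : ∀ x ω, |F x ω| ≤ M) (hMG : ∀ x ω, |G x ω| ≤ M) :
    lawE R ν σ (fun x ω => F x ω + G x ω) = lawE R ν σ F + lawE R ν σ G := by
  simp only [lawE, ← sum_add_distrib, ← mul_add]
  exact sum_congr rfl fun x _ => by
    rw [pathE_add σ hσ _ _ (hF x) (hG x) M (hMF x) (hMG x) x]

theorem lawE_affine {ν : Conf n → ℝ} (h1 : ∑ x, ν x = 1) {r : ℕ} (σ : Fin r → Step n)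
    (hσ : ∀ t, OkStep R (σ t)) {F : Conf n → Om n r → ℝ} (hF : ∀ x, Measurable (F x)) {M : ℝ}
    (hMF : ∀ x ω, |F x ω| ≤ M) (a b : ℝ) :
    lawE R ν σ (fun x ω => a * F x ω + b) = a * lawE R ν σ F + b := by
  simp only [lawE, fun x => pathE_affine σ hσ (F x) (hF x) M (hMF x) a b x, mul_add, sum_add_distrib,
    ← sum_mul, h1, one_mul, mul_sum]
  congr 1
  exact sum_congr rfl fun x _ => by ring

end Vale.Agent.P150.Fast.Core
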