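import Mathlib
import Vale.Agent.P150.Fast.Cavity.Core.Tools
import Vale.Agent.P150.Fast.Cavity.CoreStmt
import Vale.Agent.P150.Fast.Cavity.CoreParts

/-!
The slice weight, the sliced kernel without side field, the weights of windows along a path and
their error (P150, core of M4).
-/

open MeasureTheory Real Finset
open scoped Matrix

namespace Vale.Agent.P150.Fast.Core

variable {n : ℕ}

/-- The weight of the noise coordinate of width `κ`. -/
noncomputable def slG (κ u : ℝ) : ℝ := bumpC (u / κ)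

/-- The cut of the field at height `R`. -/
noncomputable def chiR (R v : ℝ) : ℝ := bumpC (v / R)

/-- The sliced kernel of a site at scale zero. -/
noncomputable def slK (A : Matrix (Fin n) (Fin n) ℝ) (ν : Conf n → ℝ) (S : Finset (Fin n))
    (g : ℝ → ℝ) (i : Fin n) (b : Bool) : Conf n → Conf n → ℝ :=
  sliceKer ν ((step0 A S).freeze i) (onVal i b) (fun y => g (sliceU A i b y)) (nE 0 (A⁻¹ i i) g)

/-- The window value of a function of the state, blind to the site. -/
noncomputable def slW (A : Matrix (Fin n) (Fin n) ℝ) (ν : Conf n → ℝ) (S : Finset (Fin n))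
    (g : ℝ → ℝ) (i : Fin n) (b : Bool) (H : ℕ) (F : Conf n → ℝ) (x : Conf n) : ℝ :=
  powOp (slK A ν S g i b) H F (Function.update x i b)

/-- The weight of a window along a path, with normaliser `m₁` and cut `R`. -/
noncomputable def wgt (A : Matrix (Fin n) (Fin n) ℝ) (S : Finset (Fin n)) (g : ℝ → ℝ) (m₁ R : ℝ)
    (i : Fin n) (b : Bool) {m : ℕ} (x : Conf n) (ω : Om n m) : ℝ :=
  winP (step0 A S) i b (fun u => g u / m₁) (chiR R) x ω

/-- The error between window weights and the sliced kernel at a site. -/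
noncomputable def wErr (A : Matrix (Fin n) (Fin n) ℝ) (ν : Conf n → ℝ) (S : Finset (Fin n))
    (g : ℝ → ℝ) (m₁ R C : ℝ) (m : ℕ) (i : Fin n) (b : Bool) : ℝ :=
  m * (1 / nE 0 (A⁻¹ i i) g * clipTail ν (step0 A S) (chiR R) i)
    + C * (sigErr ν (step0 A S) i b + |nE 0 (A⁻¹ i i) g / m₁ - 1|)

/-- The average over free sites and both values. -/
noncomputable def avgIB (S : Finset (Fin n)) (f : Fin n → Bool → ℝ) : ℝ :=
  (n : ℝ)⁻¹ * ∑ i ∈ Sᶜ, ∑ b : Bool, f i b

theorem qFrz_eq (β : ℝ) (d : Dis n) (κ : ℝ) {ν : Conf n → ℝ} (h1 : ∑ x, ν x = 1)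
    (S : Finset (Fin n)) (i : Fin n) (b : Bool) :
    qFrz β d 0 κ ν 0 S i b = slK (aop n β d) ν S (slG κ) i b := by
  have e : sliceFun 0 κ = slG κ := funext fun u => by simp [sliceFun, slG]
  simp [qFrz, slK, priorAt_zero' _ h1, e, step0]

theorem winW_eq (β : ℝ) (d : Dis n) (κ : ℝ) {ν : Conf n → ℝ} (h1 : ∑ x, ν x = 1)
    (S : Finset (Fin n)) (i : Fin n) (b : Bool) (Φ : ℝ → ℝ → ℝ) (H : ℕ) (x : Conf n) :
    winW β d 0 κ ν 0 S i b Φ H x
      = slW (aop n β d) ν S (slG κ) i b H (fun z => Φ (zField β d z i) 0) x := by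
  rw [winW, qFrz_eq β d κ h1, slW]
  rfl

end Vale.Agent.P150.Fast.Core
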