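import Mathlib
import Vale.Agent.P150.Fast.Cavity.Core.Wgt
import Vale.Agent.P150.Fast.Cavity.Smooth

/-!
The factor of one step of a window, after dividing by the heat-bath probability: bounded, Lipschitz
and smooth enough for the concentration of windows (P150, core of M4).
-/

open MeasureTheory Real Finset

namespace Vale.Agent.P150.Fast.Core

/-- The cut divided by the heat-bath probability. -/
noncomputable def cutW (R : ℝ) (b : Bool) (y : ℝ) : ℝ := chiR R y * (sig b y)⁻¹

/-- Its derivative. -/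
noncomputable def cutW' (R : ℝ) (b : Bool) (y : ℝ) : ℝ :=
  -4 * (y / R) * max 0 (1 - (y / R) ^ 2) * R⁻¹ * (1 + exp (-2 * spin b * y))
    + chiR R y * (exp (-2 * spin b * y) * (-2 * spin b))

/-- The bound of the factor. -/
noncomputable def cutB (R : ℝ) : ℝ := 1 + exp (2 * R)

/-- The Lipschitz constant of the factor. -/
noncomputable def cutL (R : ℝ) : ℝ := (4 / R + 2) * cutB R

theorem sig_inv (b : Bool) (y : ℝ) : (sig b y)⁻¹ = 1 + exp (-2 * spin b * y) := by
  rw [sig, inv_div, div_eq_iff (exp_pos _).ne', add_mul, one_mul, ← exp_add]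
  cases b <;> simp [spin] <;> ring_nf

theorem cutW_eq (R : ℝ) (b : Bool) (y : ℝ) :
    cutW R b y = chiR R y * (1 + exp (-2 * spin b * y)) := by rw [cutW, sig_inv]

theorem chiR_mem (R v : ℝ) : 0 ≤ chiR R v ∧ chiR R v ≤ 1 := bumpC_mem _

theorem cut_supp {R v : ℝ} (hR : 0 < R) (h : R < |v|) : chiR R v = 0 := by
  by_contra hne
  have := bumpC_supp hne
  rw [abs_div, abs_of_pos hR, div_le_one hR] at this
  linarith

theorem exp_cut_le {R y : ℝ} (b : Bool) (h : |y| ≤ R) : exp (-2 * spin b * y) ≤ exp (2 * R) := by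
  refine exp_le_exp.2 ?_
  obtain ⟨h1, h2⟩ := abs_le.1 h
  cases b <;> simp [spin] <;> linarith

theorem cutW_mem {R : ℝ} (hR : 0 < R) (b : Bool) (y : ℝ) : 0 ≤ cutW R b y ∧ cutW R b y ≤ cutB R := by
  rw [cutW_eq]
  refine ⟨mul_nonneg (chiR_mem _ _).1 (by positivity), ?_⟩
  rcases le_or_gt |y| R with h | h
  · refine (mul_le_of_le_one_left (by positivity) (chiR_mem _ _).2).trans ?_
    unfold cutB; linarith [exp_cut_le b h]
  · rw [cut_supp hR h, zero_mul]; unfold cutB; positivity

theorem cutW_hasDeriv (R : ℝ) (b : Bool) (y : ℝ) : HasDerivAt (cutW R b) (cutW' R b y) y := by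
  have h1 : HasDerivAt (chiR R) (-4 * (y / R) * max 0 (1 - (y / R) ^ 2) * R⁻¹) y := by
    have := (bumpC_deriv (y / R)).comp y ((hasDerivAt_id y).div_const R)
    refine (this.congr_deriv ?_).congr_of_eventuallyEq (Filter.Eventually.of_forall fun x => ?_)
    · simp
    · simp [chiR]
  have h2 : HasDerivAt (fun t => 1 + exp (-2 * spin b * t))
      (exp (-2 * spin b * y) * (-2 * spin b)) y := by
    simpa using (((hasDerivAt_id y).const_mul (-2 * spin b)).exp).const_add 1
  rw [show cutW R b = fun t => chiR R t * (1 + exp (-2 * spin b * t)) from funext (cutW_eq R b)]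
  exact h1.mul h2

theorem cutW'_bdd {R : ℝ} (hR : 0 < R) (b : Bool) (y : ℝ) : |cutW' R b y| ≤ cutL R := by
  have hB : 0 ≤ cutB R := by unfold cutB; positivity
  rcases le_or_gt |y| R with h | h
  · have he := exp_cut_le b h
    have ep := exp_pos (-2 * spin b * y)
    refine (abs_add_le _ _).trans ?_
    rw [cutL, add_mul, div_eq_mul_inv]
    refine add_le_add ?_ ?_
    · rw [abs_mul, abs_mul, abs_of_pos (inv_pos.2 hR), abs_of_pos (by positivity : 0 < 1 + exp (-2 * spin b * y))]
      exact mul_le_mul (mul_le_mul_of_nonneg_right (bumpC_deriv_bdd _) (inv_pos.2 hR).le)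
        (by unfold cutB; linarith) (by positivity) (by positivity)
    · rw [abs_mul, abs_mul, abs_of_nonneg (chiR_mem _ _).1, abs_of_pos ep,
        show |(-2 : ℝ) * spin b| = 2 by cases b <;> norm_num [spin]]
      refine (mul_le_of_le_one_left (by positivity) (chiR_mem _ _).2).trans ?_
      unfold cutB; linarith
  · have h0 : max 0 (1 - (y / R) ^ 2) = 0 := max_eq_left (by
      have : 1 ≤ |y / R| := by rw [abs_div, abs_of_pos hR, one_le_div hR]; exact h.le
      nlinarith [(one_le_sq_iff_one_le_abs (y / R)).2 this])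
    simp only [cutW', h0, cut_supp hR h, mul_zero, zero_mul, add_zero, abs_zero]
    unfold cutL; positivity

theorem cutW_lip {R : ℝ} (hR : 0 < R) (b : Bool) (u v : ℝ) :
    |cutW R b u - cutW R b v| ≤ cutL R * |u - v| := by
  have h := Convex.norm_image_sub_le_of_norm_hasDerivWithin_le (C := cutL R) (s := Set.univ)
    (f := cutW R b) (fun x _ => (cutW_hasDeriv R b x).hasDerivWithinAt)
    (fun x _ => cutW'_bdd hR b x) convex_univ (Set.mem_univ v) (Set.mem_univ u)
  simpa [Real.norm_eq_abs] using h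

@[fun_prop]
theorem continuous_cutW (R : ℝ) (b : Bool) : Continuous (cutW R b) :=
  continuous_iff_continuousAt.2 fun y => (cutW_hasDeriv R b y).continuousAt

@[fun_prop]
theorem continuous_slG (κ : ℝ) : Continuous (slG κ) := by unfold slG; fun_prop

@[fun_prop]
theorem continuous_chiR' (R : ℝ) : Continuous (chiR R) := by unfold chiR; fun_prop

theorem slG_mem (κ u : ℝ) : 0 ≤ slG κ u ∧ slG κ u ≤ 1 := bumpC_mem _

/-- The factor of a step in the concentration statement. -/
noncomputable def wFac (κ R m₁ : ℝ) (b : Bool) (u v : ℝ) (s : Bool) : ℝ :=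
  (if s = b then 1 else 0) * (slG κ (u - spin b) / m₁ * cutW R b v)

theorem wFac_smooth {κ R m₀ m₁ : ℝ} (hκ : 0 < κ) (hR : 0 < R) (hm : 0 < m₀) (hm₁ : m₀ ≤ m₁)
    (b : Bool) : SmoothBd2 ((1 + 4 / κ) / m₀ * (cutB R + cutL R)) (wFac κ R m₁ b) := by
  have hm1 : 0 < m₁ := hm.trans_le hm₁
  have hB : 0 ≤ cutB R := by unfold cutB; positivity
  have hL : 0 ≤ cutL R := by unfold cutL; positivity
  refine ⟨fun u v s => (if s = b then 1 else 0) * (-4 * ((u - spin b) / κ)
      * max 0 (1 - ((u - spin b) / κ) ^ 2) * κ⁻¹ / m₁ * cutW R b v),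
    fun u v s => (if s = b then 1 else 0) * (slG κ (u - spin b) / m₁ * cutW' R b v),
    fun s => by fun_prop, fun s => ?_, fun u v s => ⟨?_, ?_, ?_, ?_, ?_⟩⟩
  · have : Continuous (cutW' R b) := by unfold cutW'; fun_prop
    fun_prop
  · have h := (bumpC_deriv ((u - spin b) / κ)).comp u (((hasDerivAt_id u).sub_const (spin b)).div_const κ)
    have h' := ((h.div_const m₁).mul_const (cutW R b v)).const_mul (if s = b then (1 : ℝ) else 0)
    simpa [wFac, slG, Function.comp_def] using h'
  · simpa [wFac] using ((cutW_hasDeriv R b v).const_mul (slG κ (u - spin b) / m₁)).const_mul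
      (if s = b then (1 : ℝ) else 0)
  all_goals
    rw [show ((1 : ℝ) + 4 / κ) / m₀ * (cutB R + cutL R)
      = 1 * ((1 + 4 / κ) / m₀ * (cutB R + cutL R)) from (one_mul _).symm]
    try simp only [wFac]
    rw [abs_mul, abs_mul, abs_div, abs_of_pos hm1]
    refine mul_le_mul (by split <;> simp) ?_ (by positivity) zero_le_one
    refine mul_le_mul (div_le_div₀ (by positivity) ?_ hm hm₁) ?_ (abs_nonneg _) (by positivity)
  · rw [abs_of_nonneg (slG_mem _ _).1]; linarith [(slG_mem κ (u - spin b)).2, div_nonneg (by norm_num : (0:ℝ) ≤ 4) hκ.le]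
  · rw [abs_of_nonneg (cutW_mem hR b v).1]; linarith [(cutW_mem hR b v).2]
  · rw [abs_mul, abs_of_pos (inv_pos.2 hκ), div_eq_mul_inv (4 : ℝ)]
    have := mul_le_mul_of_nonneg_right (bumpC_deriv_bdd ((u - spin b) / κ)) (inv_pos.2 hκ).le
    linarith
  · rw [abs_of_nonneg (cutW_mem hR b v).1]; linarith [(cutW_mem hR b v).2]
  · rw [abs_of_nonneg (slG_mem _ _).1]; linarith [(slG_mem κ (u - spin b)).2, div_nonneg (by norm_num : (0:ℝ) ≤ 4) hκ.le]
  · linarith [cutW'_bdd hR b v]

end Vale.Agent.P150.Fast.Core
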