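import Mathlib
import Vale.Agent.P150.Fast.Cavity.Core.Tools
import Vale.Agent.P150.Fast.Cavity.Model

/-!
Expectation over a stationary path and the auxiliary noises, and the windows of a path
(P150, core of M4).
-/

open MeasureTheory Real Finset
open scoped Matrix

namespace Vale.Agent.P150.Fast.Core

variable {n r : ℕ}

/-- A path with the auxiliary noises of the innovations. -/
abbrev Sam (n r : ℕ) : Type := Traj n r × (Fin (ncol r) × Fin n → ℝ)

/-- Expectation over a path without side field and the auxiliary noises. -/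
noncomputable def samE (A : Matrix (Fin n) (Fin n) ℝ) (ν : Conf n → ℝ) (S : Finset (Fin n))
    (F : Sam n r → ℝ) : ℝ :=
  trajE A 0 ν S fun P => ∫ q, F (P, q) ∂gp (Fin (ncol r) × Fin n)

/-- The state after `s` steps. -/
def stAt (x : Conf n) (ω : Om n r) (s : ℕ) : Conf n :=
  (Fin.cons x fun t => (ω t).2 : Fin (r + 1) → Conf n) ⟨min s r, Nat.lt_succ_of_le (min_le_right s r)⟩

/-- The window of `m` steps from time `s`. -/
def winAt {s m : ℕ} (h : s + m ≤ r) (ω : Om n r) : Om n m :=
  fun t => ω ⟨s + t.1, by have := t.2; omega⟩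

theorem stateAt_eq (x : Conf n) (g : Fin n → ℝ) (ω : Om n r) (b : Fin (r + 1)) :
    stateAt (x, g, ω) b = stAt x ω b.1 := by
  simp only [stAt, stateAt]
  congr 1
  exact Fin.ext (by simp [Nat.le_of_lt_succ b.2])

theorem measurable_stAt (x : Conf n) (s : ℕ) : Measurable fun ω : Om n r => stAt x ω s := by
  unfold stAt
  refine (measurable_pi_apply _).comp (measurable_pi_lambda _ fun i => ?_)
  refine Fin.cases ?_ (fun j => ?_) i
  · exact measurable_const
  · exact (measurable_pi_apply j).snd

theorem measurable_winAt {s m : ℕ} (h : s + m ≤ r) : Measurable (winAt (n := n) h) :=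
  measurable_pi_lambda _ fun _ => measurable_pi_apply _

variable {A : Matrix (Fin n) (Fin n) ℝ} {ν : Conf n → ℝ} {S : Finset (Fin n)} {F G : Sam n r → ℝ}

/-- A positive law with a positive definite covariance. -/
structure Law (A : Matrix (Fin n) (Fin n) ℝ) (ν : Conf n → ℝ) : Prop where
  pd : A.PosDef
  pos : ∀ x, 0 < ν x
  one : ∑ x, ν x = 1

theorem Law.ok (h : Law A ν) (S : Finset (Fin n)) {m : ℕ} :
    ∀ _t : Fin m, OkStep (pR ν) (step0 A S) := fun _ => ok_pR h.pos h.pd

theorem bm_aux (hF : BM F) :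
    BM fun P : Traj n r => ∫ q, F (P, q) ∂gp (Fin (ncol r) × Fin n) := by
  obtain ⟨B, hB⟩ := hF.2
  refine ⟨hF.1.stronglyMeasurable.integral_prod_right'.measurable, B, fun P => ?_⟩
  have := norm_integral_le_of_norm_le (μ := gp (Fin (ncol r) × Fin n)) (integrable_const B)
    (f := fun q => F (P, q)) (.of_forall fun q => hB (P, q))
  simpa [Real.norm_eq_abs] using this

theorem bm_trajInner {F : Traj n r → ℝ} (hF : BM F) (x : Conf n) :
    BM fun ω : Om n r => ∫ g, F (x, g, ω) ∂gp (Fin n) := by
  obtain ⟨B, hB⟩ := hF.2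
  refine ⟨?_, B, fun ω => ?_⟩
  · exact (StronglyMeasurable.integral_prod_right' (f := fun p : Om n r × (Fin n → ℝ) =>
      F (x, p.2, p.1)) (hF.1.comp (measurable_const.prodMk
        (measurable_snd.prodMk measurable_fst))).stronglyMeasurable).measurable
  · have := norm_integral_le_of_norm_le (μ := gp (Fin n)) (integrable_const B)
      (f := fun g => F (x, g, ω)) (.of_forall fun g => hB (x, g, ω))
    simpa [Real.norm_eq_abs] using this

/-- The expectation as a stationary path law. -/
theorem samE_eq (h : Law A ν) (hF : BM F) : samE A ν S F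
    = lawE (pR ν) ν (fun _ : Fin r => step0 A S)
        fun x ω => ∫ g, ∫ q, F ((x, g, ω), q) ∂gp (Fin (ncol r) × Fin n) ∂gp (Fin n) := by
  obtain ⟨B, hB⟩ := (bm_aux hF).2
  exact trajE_zero h.pd h.pos h.one S (bm_aux hF).1 hB

theorem bm_both (hF : BM F) (x : Conf n) :
    BM fun ω : Om n r => ∫ g, ∫ q, F ((x, g, ω), q) ∂gp (Fin (ncol r) × Fin n) ∂gp (Fin n) :=
  bm_trajInner (bm_aux hF) x

theorem exists_bd_both (hF : BM F) : ∃ B, ∀ x (ω : Om n r),
    |∫ g, ∫ q, F ((x, g, ω), q) ∂gp (Fin (ncol r) × Fin n) ∂gp (Fin n)| ≤ B := by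
  obtain ⟨B, hB⟩ := (bm_aux hF).2
  exact ⟨B, fun x ω => by
    have := norm_integral_le_of_norm_le (μ := gp (Fin n)) (integrable_const B)
      (f := fun g => ∫ q, F ((x, g, ω), q) ∂gp (Fin (ncol r) × Fin n))
      (.of_forall fun g => hB (x, g, ω))
    simpa [Real.norm_eq_abs] using this⟩

theorem samE_add (h : Law A ν) (hF : BM F) (hG : BM G) :
    samE A ν S (fun P => F P + G P) = samE A ν S F + samE A ν S G := by
  obtain ⟨B, hB⟩ := exists_bd_both hF
  obtain ⟨C, hC⟩ := exists_bd_both hG
  rw [show (fun P => F P + G P) = F + G from rfl, samE_eq h (hF.add hG), samE_eq h hF, samE_eq h hG,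
    ← lawE_add _ (h.ok S) (fun x => (bm_both hF x).1) (fun x => (bm_both hG x).1)
      (M := max B C) (fun x ω => (hB x ω).trans (le_max_left _ _))
      (fun x ω => (hC x ω).trans (le_max_right _ _))]
  congr 1
  funext x ω
  simp only [Pi.add_apply]
  have hi : ∀ {F : Sam n r → ℝ}, BM F →
      Integrable (fun g => ∫ q, F ((x, g, ω), q) ∂gp (Fin (ncol r) × Fin n)) (gp (Fin n)) :=
    fun hF => ((bm_aux hF).comp (f := fun g => (x, g, ω))
      (measurable_const.prodMk (measurable_id.prodMk measurable_const))).integrable _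
  rw [← integral_add (hi hF) (hi hG)]
  refine integral_congr_ae (ae_of_all _ fun g => ?_)
  exact integral_add ((hF.comp (f := fun q => ((x, g, ω), q)) (by fun_prop)).integrable _)
    ((hG.comp (f := fun q => ((x, g, ω), q)) (by fun_prop)).integrable _)

theorem samE_mono (h : Law A ν) (hF : BM F) (hG : BM G) (hle : ∀ P, F P ≤ G P) :
    samE A ν S F ≤ samE A ν S G := by
  obtain ⟨B, hB⟩ := exists_bd_both hF
  obtain ⟨C, hC⟩ := exists_bd_both hG
  rw [samE_eq h hF, samE_eq h hG]
  refine lawE_mono (fun x => (h.pos x).le) _ (h.ok S) (fun x => (bm_both hF x).1)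
    (fun x => (bm_both hG x).1) (M := max B C) (fun x ω => (hB x ω).trans (le_max_left _ _))
    (fun x ω => (hC x ω).trans (le_max_right _ _)) fun x ω => ?_
  have hi : ∀ {F : Sam n r → ℝ}, BM F →
      Integrable (fun g => ∫ q, F ((x, g, ω), q) ∂gp (Fin (ncol r) × Fin n)) (gp (Fin n)) :=
    fun hF => ((bm_aux hF).comp (f := fun g => (x, g, ω))
      (measurable_const.prodMk (measurable_id.prodMk measurable_const))).integrable _
  refine integral_mono (hi hF) (hi hG) fun g => ?_
  exact integral_mono ((hF.comp (f := fun q => ((x, g, ω), q)) (by fun_prop)).integrable _)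
    ((hG.comp (f := fun q => ((x, g, ω), q)) (by fun_prop)).integrable _) fun q => hle _

theorem samE_smul (h : Law A ν) (hF : BM F) (a : ℝ) :
    samE A ν S (fun P => a * F P) = a * samE A ν S F := by
  obtain ⟨B, hB⟩ := exists_bd_both hF
  rw [show (fun P => a * F P) = (fun _ => a) * F from rfl, samE_eq h ((BM.const a).mul hF), samE_eq h hF]
  have e := lawE_affine h.one _ (h.ok S) (fun x => (bm_both hF x).1) hB a 0
  simp only [add_zero] at e
  simpa [integral_const_mul, Pi.mul_apply] using e

/-- A function of the path alone. -/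
theorem samE_path (h : Law A ν) {G : Conf n → Om n r → ℝ} (hG : ∀ x, Measurable (G x)) {B : ℝ}
    (hB : ∀ x ω, |G x ω| ≤ B) :
    samE A ν S (fun P => G P.1.1 P.1.2.2) = lawE (pR ν) ν (fun _ : Fin r => step0 A S) G := by
  have hGm : Measurable fun P : Sam n r => G P.1.1 P.1.2.2 :=
    (measurable_from_prod_countable_right (f := fun p : Conf n × Om n r => G p.1 p.2) hG).comp
      ((measurable_fst.comp measurable_fst).prodMk
        (measurable_snd.comp (measurable_snd.comp measurable_fst)))
  rw [samE_eq h ⟨hGm, B, fun P => hB _ _⟩]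
  simp

theorem samE_const (h : Law A ν) (c : ℝ) : samE A ν S (fun _ : Sam n r => c) = c := by
  rw [samE_path h (G := fun _ _ => c) (fun _ => measurable_const) (B := |c|) fun _ _ => le_rfl]
  simp [lawE, pathE_const _ (h.ok S), ← sum_mul, h.one]

theorem bm_cmul {α : Type*} [MeasurableSpace α] {F : α → ℝ} (hF : BM F) (c : ℝ) :
    BM fun a => c * F a := (BM.const c).mul hF

theorem bm_add' {α : Type*} [MeasurableSpace α] {F G : α → ℝ} (hF : BM F) (hG : BM G) :
    BM fun a => F a + G a := hF.add hG

theorem bm_sub' {α : Type*} [MeasurableSpace α] {F G : α → ℝ} (hF : BM F) (hG : BM G) :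
    BM fun a => F a - G a := hF.sub hG

theorem bm_mul' {α : Type*} [MeasurableSpace α] {F G : α → ℝ} (hF : BM F) (hG : BM G) :
    BM fun a => F a * G a := hF.mul hG

theorem bm_abs {α : Type*} [MeasurableSpace α] {F : α → ℝ} (hF : BM F) : BM fun a => |F a| :=
  ⟨continuous_abs.measurable.comp hF.1, hF.2.choose, fun a => by
    rw [abs_abs]; exact hF.2.choose_spec a⟩

theorem samE_sub (h : Law A ν) (hF : BM F) (hG : BM G) :
    samE A ν S (fun P => F P - G P) = samE A ν S F - samE A ν S G := by
  have e : samE A ν S (fun P => F P - G P) = samE A ν S (fun P => F P + (-1) * G P) :=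
    congrArg _ (funext fun P => by ring)
  rw [e, samE_add h hF (bm_cmul hG (-1)), samE_smul h hG]
  ring

theorem samE_abs_le (h : Law A ν) (hF : BM F) (hG : BM G) (hle : ∀ P, |F P| ≤ G P) :
    |samE A ν S F| ≤ samE A ν S G := by
  refine abs_le.2 ⟨?_, samE_mono h hF hG fun P => (abs_le.1 (hle P)).2⟩
  have := samE_mono h (S := S) (bm_cmul hG (-1)) hF fun P => by
    simpa using (abs_le.1 (hle P)).1
  rw [samE_smul h hG] at this
  linarith

theorem samE_sum (h : Law A ν) {ι : Type*} (s : Finset ι) {f : ι → Sam n r → ℝ}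
    (hf : ∀ i ∈ s, BM (f i)) :
    samE A ν S (fun P => ∑ i ∈ s, f i P) = ∑ i ∈ s, samE A ν S (f i) := by
  classical
  induction s using Finset.induction_on with
  | empty => simpa using samE_const h 0
  | insert a s ha ih =>
    simp only [sum_insert ha]
    rw [samE_add h (hf a (mem_insert_self a s)) (BM.sum s fun i hi => hf i (mem_insert_of_mem hi)),
      ih fun i hi => hf i (mem_insert_of_mem hi)]

/-- A bound at all auxiliary noises bounds the expectation. -/
theorem samE_le_of_aux (h : Law A ν) (hF : BM F) {c : ℝ}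
    (hc : ∀ g q, lawE (pR ν) ν (fun _ : Fin r => step0 A S) (fun x ω => F ((x, g, ω), q)) ≤ c) :
    samE A ν S F ≤ c := by
  obtain ⟨B, hB⟩ := hF.2
  set Q := gp (Fin (ncol r) × Fin n)
  set G : Conf n → (Fin n → ℝ) × (Fin (ncol r) × Fin n → ℝ) → Om n r → ℝ :=
    fun x p ω => F ((x, p.1, ω), p.2) with hG
  have hm : ∀ x, Measurable (Function.uncurry (G x)) := fun x => hF.1.comp (Measurable.prodMk
    (measurable_const.prodMk ((measurable_fst.comp measurable_fst).prodMk measurable_snd))
    (measurable_snd.comp measurable_fst))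
  rw [samE_eq h hF]
  have e : ∀ x (ω : Om n r), ∫ g, ∫ q, F ((x, g, ω), q) ∂Q ∂gp (Fin n)
      = ∫ p, G x p ω ∂(gp (Fin n)).prod Q := fun x ω =>
    integral_integral (f := fun g q => F ((x, g, ω), q))
      ((hF.comp (f := fun p : (Fin n → ℝ) × (Fin (ncol r) × Fin n → ℝ) => ((x, p.1, ω), p.2))
        (by fun_prop)).integrable _)
  have es : ∀ x, pathE (pR ν) (fun _ : Fin r => step0 A S) x
      (fun ω => ∫ p, G x p ω ∂(gp (Fin n)).prod Q)
      = ∫ p, pathE (pR ν) (fun _ : Fin r => step0 A S) x (G x p) ∂(gp (Fin n)).prod Q := fun x =>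
    pathE_swap _ _ (h.ok S) (G x) (hm x) B (fun p ω => hB _) x
  have hb : ∀ x, BM fun p => pathE (pR ν) (fun _ : Fin r => step0 A S) x (G x p) := fun x => by
    obtain ⟨h1, h2⟩ := pathE_meas _ (h.ok S) _ (G x) (hm x) B (fun p ω => hB _) x
    exact ⟨h1, B, h2⟩
  have e' : ∀ x, pathE (pR ν) (fun _ : Fin r => step0 A S) x
      (fun ω => ∫ g, ∫ q, F ((x, g, ω), q) ∂Q ∂gp (Fin n))
      = ∫ p, pathE (pR ν) (fun _ : Fin r => step0 A S) x (G x p) ∂(gp (Fin n)).prod Q := fun x =>
    (congrArg _ (funext (e x))).trans (es x)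
  simp only [lawE, Q, e'] at *
  simp only [← integral_const_mul]
  rw [← integral_finsetSum _ fun x _ => ((hb x).integrable _).const_mul _]
  refine (integral_mono (integrable_finsetSum _ fun x _ => ((hb x).integrable _).const_mul _)
    (integrable_const c) fun p => ?_).trans_eq (by simp)
  exact hc p.1 p.2

end Vale.Agent.P150.Fast.Core
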