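import Mathlib
import Vale.Agent.P150.Fast.Cavity.Core.Env
import Vale.Agent.P150.Fast.Cavity.Core.Cut
import Vale.Agent.P150.Fast.Cavity.ModelWin

/-!
The data of a site read from a path: window weights and coupling fields of the model against the
exact ones, up to the reconstruction error (P150, core of M4).
-/

open MeasureTheory Real Finset
open scoped Matrix

namespace Vale.Agent.P150.Fast.Core

variable {n r : ℕ} {β : ℝ} {d : Dis n} {ro : Readout n r} {S : Finset (Fin n)}

/-- The coefficients of a sample. -/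
noncomputable def cellAt (ro : Readout n r) (d : Dis n) (P : Sam n r) : Coef (ncol r) :=
  ro.cell d P.1

/-- The data of a site in a sample. -/
noncomputable def sDat (β : ℝ) (ro : Readout n r) (d : Dis n) (P : Sam n r) (i : Fin n) : Site r :=
  siteData ro (aop n β d) d P.1 P.2 i

/-- The reconstruction error at a site, summed over the columns. -/
noncomputable def zErr (β : ℝ) (ro : Readout n r) (d : Dis n) (P : Sam n r) (i : Fin n) : ℝ :=
  ∑ k, |zSite (cellAt ro d P) (sDat β ro d P i) k - (kmat n β d *ᵥ colVec (aop n β d) P.1 k) i|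

theorem colVec_xcol (A : Matrix (Fin n) (Fin n) ℝ) (P : Traj n r) (b : Fin (r + 1)) :
    colVec A P (xcol b) = vec (stateAt P b) := by
  funext i
  have h2 : (⟨(2 * b.1 + 1) / 2, by omega⟩ : Fin (r + 1)) = b := Fin.ext (by simp; omega)
  simp [colVec, colOf, xcol, vec, h2]

theorem colVec_ecol (A : Matrix (Fin n) (Fin n) ℝ) (P : Traj n r) (b : Fin (r + 1)) :
    colVec A P (ecol b) = noiseAt A P b := by
  funext i
  simp [colVec, colOf, ecol]

theorem colOf_sDat (P : Sam n r) (i : Fin n) (k : Fin (ncol r)) :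
    colOf (fun b => spin ((sDat β ro d P i).1 b)) (sDat β ro d P i).2.1 k
      = colVec (aop n β d) P.1 k i := rfl

theorem z_err (P : Sam n r) (i : Fin n) (b : Fin (r + 1)) :
    |zSite (cellAt ro d P) (sDat β ro d P i) (xcol b) - zField β d (stateAt P.1 b) i|
      ≤ zErr β ro d P i := by
  rw [zField, ← colVec_xcol (aop n β d) P.1 b]
  exact single_le_sum (f := fun k => |zSite (cellAt ro d P) (sDat β ro d P i) k
    - (kmat n β d *ᵥ colVec (aop n β d) P.1 k) i|) (fun _ _ => abs_nonneg _) (mem_univ _)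

/-- The field of a step from the state and the noise. -/
theorem field_eq (hA : (aop n β d).PosDef) (P : Traj n r) (t : Fin r) :
    (P.2.2 t).1 = aop n β d *ᵥ (vec (stateAt P t.castSucc) + noiseAt (aop n β d) P t.succ) := by
  simp only [noiseAt, Fin.cons_succ, add_sub_cancel, Matrix.mulVec_mulVec,
    Matrix.mul_nonsing_inv _ (Ne.isUnit hA.det_pos.ne'), Matrix.one_mulVec]

theorem y_err (hA : (aop n β d).PosDef) (P : Sam n r) (i : Fin n) (t : Fin r) :
    |ySite (shift β) 0 (cellAt ro d P) (sDat β ro d P i) t - (P.1.2.2 t).1 i|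
      ≤ zErr β ro d P i := by
  set θ := cellAt ro d P
  set e := fun k => zSite θ (sDat β ro d P i) k - (kmat n β d *ᵥ colVec (aop n β d) P.1 k) i
  have h : ySite (shift β) 0 θ (sDat β ro d P i) t - (P.1.2.2 t).1 i
      = e (xcol t.castSucc) + e (ecol t.succ) := by
    simp only [ySite, aSite, hSite, sqrt_zero, zero_mul, add_zero, colOf_sDat, e,
      field_eq hA P.1 t, colVec_xcol, colVec_ecol]
    simp only [aop, Matrix.add_mulVec, Matrix.mulVec_add, Matrix.smul_mulVec, Matrix.one_mulVec,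
      Pi.add_apply, Pi.smul_apply, smul_eq_mul]
    ring
  have hne : xcol t.castSucc ≠ ecol t.succ := fun h => by
    have := congrArg Fin.val h
    simp [xcol, ecol] at this
    omega
  rw [h]
  refine (abs_add_le _ _).trans ?_
  have := sum_le_sum_of_subset_of_nonneg (f := fun k => |e k|) (s := {xcol t.castSucc, ecol t.succ})
    (subset_univ _) fun _ _ _ => abs_nonneg _
  rw [Finset.sum_pair hne] at this
  exact this

/-- The indicator of the spin at a time. -/
noncomputable def atB (d : Site r) (s : ℕ) (b : Bool) : ℝ :=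
  if d.1 ⟨min s r, Nat.lt_succ_of_le (min_le_right s r)⟩ = b then 1 else 0

/-- The weight of a window of the model, with its start. -/
noncomputable def mWin (β : ℝ) (θ : Coef (ncol r)) (g : ℝ → ℝ) (m₁ R : ℝ) (b : Bool) (s m : ℕ)
    (d : Site r) : ℝ :=
  atB d s b * winWt (shift β) 0 θ b (fun u => g u / m₁) (chiR R) s (s + m) d

theorem atB_eq (P : Sam n r) (i : Fin n) (s : ℕ) (b : Bool) :
    atB (sDat β ro d P i) s b = onVal i b (stAt P.1.1 P.1.2.2 s) := by
  simp only [atB, sDat, siteData, stateAt, onVal, stAt]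
  congr

theorem winWt_range {θ : Coef (ncol r)} {κ : ℝ} {ψ χ : ℝ → ℝ} {b : Bool} {s m : ℕ}
    (hs : s + m ≤ r) (d : Site r) :
    winWt κ 0 θ b ψ χ s (s + m) d
      = ∏ t : Fin m, winF κ 0 θ b ψ χ ⟨s + t.1, by have := t.2; omega⟩ d := by
  refine (prod_nbij (s := (univ : Finset (Fin m))) (fun t => (⟨s + t.1, by
    have := t.2; omega⟩ : Fin r)) (fun t _ => mem_filter.2 ⟨mem_univ _, by simp⟩)
    (fun a _ c _ h => Fin.ext (by simpa using congrArg Fin.val h))
    (fun u hu => ⟨⟨u.1 - s, by have := (mem_filter.1 hu).2; omega⟩, mem_univ _,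
      Fin.ext (by have := (mem_filter.1 hu).2; simp; omega)⟩) fun t _ => rfl).symm

theorem prod_diff_le {ι : Type*} [DecidableEq ι] (s : Finset ι) (u v : ι → ℝ) {B : ℝ} (hB : 1 ≤ B)
    (hu : ∀ t, |u t| ≤ B) (hv : ∀ t, |v t| ≤ B) :
    |∏ t ∈ s, u t - ∏ t ∈ s, v t| ≤ B ^ s.card * ∑ t ∈ s, |u t - v t| := by
  induction s using Finset.induction_on with
  | empty => simp
  | insert a s ha ih =>
    rw [prod_insert ha, prod_insert ha, sum_insert ha, card_insert_of_notMem ha]
    rw [show u a * ∏ t ∈ s, u t - v a * ∏ t ∈ s, v t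
      = (u a - v a) * ∏ t ∈ s, u t + v a * (∏ t ∈ s, u t - ∏ t ∈ s, v t) by ring]
    refine (abs_add_le _ _).trans ?_
    rw [abs_mul, abs_mul, mul_add]
    have hp : |∏ t ∈ s, u t| ≤ B ^ (s.card + 1) := by
      rw [abs_prod]
      refine (prod_le_prod (fun t _ => abs_nonneg _) fun t _ => hu t).trans ?_
      rw [prod_const]
      exact pow_le_pow_right₀ hB (Nat.le_succ _)
    refine add_le_add ?_ ?_
    · rw [mul_comm (B ^ _)]; exact mul_le_mul_of_nonneg_left hp (abs_nonneg _)
    · refine (mul_le_mul (hv a) ih (abs_nonneg _) (by linarith)).trans_eq ?_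
      ring

/-- The bound of one factor. -/
noncomputable def facB (R m₀ : ℝ) : ℝ := max 1 (cutB R / m₀)

/-- The Lipschitz constant of a window weight in the reconstruction error. -/
noncomputable def winLip (R m₀ : ℝ) (m : ℕ) : ℝ := facB R m₀ ^ m * (m * (cutL R / m₀))

variable {g : ℝ → ℝ} {R m₀ m₁ : ℝ}

theorem mWin_form (θ : Coef (ncol r)) (b : Bool) {s m : ℕ} (hs : s + m ≤ r) (d : Site r) :
    mWin β θ g m₁ R b s m d = atB d s b * ∏ t : Fin m,
      ((if d.1 ⟨s + t.1 + 1, by omega⟩ = b then 1 else 0) * (g (d.2.1 ⟨s + t.1 + 1, by omega⟩) / m₁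
        * cutW R b (ySite (shift β) 0 θ d ⟨s + t.1, by omega⟩))) := by
  rw [mWin, winWt_range hs]
  congr 1
  refine prod_congr rfl fun t _ => ?_
  simp only [winF, cutW, Fin.succ_mk]
  split <;> ring

theorem wgt_form (P : Sam n r) (i : Fin n) (b : Bool) {s m : ℕ} (hs : s + m ≤ r) :
    wgt (aop n β d) S g m₁ R i b (stAt P.1.1 P.1.2.2 s) (winAt hs P.1.2.2)
      = atB (sDat β ro d P i) s b * ∏ t : Fin m,
      ((if (sDat β ro d P i).1 ⟨s + t.1 + 1, by omega⟩ = b then 1 else 0)
        * (g ((sDat β ro d P i).2.1 ⟨s + t.1 + 1, by omega⟩) / m₁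
          * cutW R b ((P.1.2.2 ⟨s + t.1, by omega⟩).1 i))) := by
  rw [atB_eq]
  set f : ℕ → Bool := fun k => stAt P.1.1 P.1.2.2 k i with hf
  have hst : ∀ (k : ℕ) (hk : k < r), stAt P.1.1 P.1.2.2 (k + 1) = (P.1.2.2 ⟨k, hk⟩).2 := fun k hk => by
    simp only [stAt, min_eq_left (Nat.succ_le_of_lt hk)]
    exact Fin.cons_succ (α := fun _ : Fin (r + 1) => Conf n) P.1.1 (fun t => (P.1.2.2 t).2) ⟨k, hk⟩
  have hd : ∀ k (hk : k < r + 1), (sDat β ro d P i).1 ⟨k, hk⟩ = f k := fun k hk => by
    simp [sDat, siteData, stateAt_eq P.1.1 P.1.2.1 P.1.2.2, hf]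
  simp only [wgt, winP, hd]
  rcases em (∀ k, s ≤ k → k ≤ s + m → f k = b) with hall | hne
  · congr 1
    refine prod_congr rfl fun t _ => ?_
    have ht := t.2
    have e1 : onVal i b (winAt hs P.1.2.2 t).2 = 1 := by
      simp [onVal, winAt, ← hst _ (by omega : s + t.1 < r), ← hall (s + t.1 + 1) (by omega) (by omega), hf]
    have e2 : sliceU (aop n β d) i b (winAt hs P.1.2.2 t).1
        = (sDat β ro d P i).2.1 ⟨s + t.1 + 1, by omega⟩ := by
      simp only [sDat, siteData, sliceU, winAt, ← hall (s + t.1) (by omega) (by omega), hf,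
        show (⟨s + t.1 + 1, by omega⟩ : Fin (r + 1)) = (⟨s + t.1, by omega⟩ : Fin r).succ from rfl,
        noiseAt, Fin.cons_succ, Pi.sub_apply, vec, stateAt_eq P.1.1 P.1.2.1 P.1.2.2,
        Fin.val_castSucc]
    rw [e1, hall (s + t.1 + 1) (by omega) (by omega), if_pos rfl, show (step0 (aop n β d) S).A
      = aop n β d from rfl, e2, show (step0 (aop n β d) S).h i = 0 from rfl, add_zero, cutW]
    simp only [winAt]
    ring
  · push Not at hne
    obtain ⟨k, hk1, hk2, hk3⟩ := hne
    rcases eq_or_lt_of_le hk1 with rfl | hlt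
    · simp [onVal, hf ▸ hk3]
    · have hkm : k - s - 1 < m := by omega
      rw [prod_eq_zero (mem_univ (⟨k - s - 1, hkm⟩ : Fin m)), prod_eq_zero (mem_univ (⟨k - s - 1, hkm⟩ : Fin m))]
      · rw [if_neg (by simpa [show s + (k - s - 1) + 1 = k by omega] using hk3), zero_mul]
      · have : onVal i b (winAt hs P.1.2.2 ⟨k - s - 1, hkm⟩).2 = 0 := by
          simp only [onVal, winAt, ← hst _ (show s + (k - s - 1) < r by omega),
            show s + (k - s - 1) + 1 = k by omega]
          exact if_neg hk3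
        rw [this, zero_mul, zero_mul]

theorem mWin_err (hA : (aop n β d).PosDef) (hg : ∀ u, 0 ≤ g u ∧ g u ≤ 1) (hR : 0 < R) (hm : 0 < m₀)
    (hm₁ : m₀ ≤ m₁) (P : Sam n r) (i : Fin n) (b : Bool) {s m : ℕ} (hs : s + m ≤ r) :
    |mWin β (cellAt ro d P) g m₁ R b s m (sDat β ro d P i)
      - wgt (aop n β d) S g m₁ R i b (stAt P.1.1 P.1.2.2 s) (winAt hs P.1.2.2)|
      ≤ winLip R m₀ m * zErr β ro d P i := by
  rw [mWin_form _ b hs, wgt_form (ro := ro) P i b hs, ← mul_sub, abs_mul]
  have hm1 : 0 < m₁ := hm.trans_le hm₁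
  have ha : |atB (sDat β ro d P i) s b| ≤ 1 := by unfold atB; split <;> simp
  have hbd : ∀ (c u y : ℝ), |c| ≤ 1 → |c * (g u / m₁ * cutW R b y)| ≤ facB R m₀ := fun c u y hc => by
    rw [abs_mul]
    refine (mul_le_of_le_one_left (abs_nonneg _) hc).trans (le_max_of_le_right ?_)
    rw [abs_mul, abs_div, abs_of_pos hm1, abs_of_nonneg (hg u).1, abs_of_nonneg (cutW_mem hR b y).1,
      div_mul_eq_mul_div]
    exact div_le_div₀ (by unfold cutB; positivity) ((mul_le_of_le_one_left (cutW_mem hR b y).1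
      (hg u).2).trans (cutW_mem hR b y).2) hm hm₁
  refine (mul_le_of_le_one_left (abs_nonneg _) ha).trans ?_
  refine (prod_diff_le univ _ _ (le_max_left _ _) (fun t => hbd _ _ _ (by split <;> simp))
    fun t => hbd _ _ _ (by split <;> simp)).trans ?_
  rw [card_univ, Fintype.card_fin, winLip, mul_assoc]
  refine mul_le_mul_of_nonneg_left ?_ (pow_nonneg (zero_le_one.trans (le_max_left _ _)) _)
  refine (sum_le_sum (g := fun _ : Fin m => cutL R / m₀ * zErr β ro d P i) fun t _ => ?_).trans_eq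
    (by simp; ring)
  rw [← mul_sub, ← mul_sub, abs_mul, abs_mul]
  refine (mul_le_of_le_one_left (by positivity) (by split <;> simp)).trans ?_
  rw [abs_div, abs_of_pos hm1, abs_of_nonneg (hg _).1, div_mul_eq_mul_div, div_mul_eq_mul_div]
  refine div_le_div₀ (mul_nonneg (by unfold cutL cutB; positivity) (sum_nonneg fun _ _ => abs_nonneg _))
    ((mul_le_of_le_one_left (abs_nonneg _) (hg _).2).trans ((cutW_lip hR b _ _).trans ?_)) hm hm₁
  exact mul_le_mul_of_nonneg_left (y_err hA P i _) (by unfold cutL cutB; positivity)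

end Vale.Agent.P150.Fast.Core
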