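import Mathlib
import Vale.Agent.P150.Fast.Cavity.Core.Bridge

/-!
Measurability of what is read from a sample, and the price of replacing exact quantities by those
of the model (P150, core of M4).
-/

open MeasureTheory Real Finset
open scoped Matrix

namespace Vale.Agent.P150.Fast.Core

variable {n r : ℕ} {β : ℝ} {d : Dis n} {ro : Readout n r} {S : Finset (Fin n)}
  {net : Finset (Coef (ncol r))}

theorem measurable_stateAt' : Measurable fun P : Traj n r => stateAt P :=
  measurable_pi_lambda _ fun b => by
    cases b using Fin.cases <;> simp only [stateAt, Fin.cons_zero, Fin.cons_succ] <;> fun_prop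

theorem measurable_noiseAt' (A : Matrix (Fin n) (Fin n) ℝ) :
    Measurable fun P : Traj n r => noiseAt A P := by
  refine measurable_pi_lambda _ fun b => ?_
  cases b using Fin.cases with
  | zero => simp only [noiseAt, Fin.cons_zero]; fun_prop
  | succ t =>
    simp only [noiseAt, Fin.cons_succ]
    refine Measurable.sub ?_ ?_
    · exact (continuous_const.matrix_mulVec continuous_id).measurable.comp (by fun_prop)
    · exact (measurable_of_finite fun x : Conf n => vec x).comp
        ((measurable_pi_apply t.castSucc).comp measurable_stateAt')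

theorem measurable_sDat (hro : ReadOK β ro) (i : Fin n) :
    Measurable fun P : Sam n r => sDat β ro d P i := by
  refine Measurable.prodMk ?_ (Measurable.prodMk ?_ ?_)
  · exact measurable_pi_lambda _ fun b => (measurable_pi_apply i).comp
      ((measurable_pi_apply b).comp (measurable_stateAt'.comp measurable_fst))
  · exact measurable_pi_lambda _ fun b => (measurable_pi_apply i).comp
      ((measurable_pi_apply b).comp ((measurable_noiseAt' _).comp measurable_fst))
  · exact measurable_pi_lambda _ fun l => hro.2.1 d i l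

theorem measurable_colVec (A : Matrix (Fin n) (Fin n) ℝ) (k : Fin (ncol r)) (i : Fin n) :
    Measurable fun P : Traj n r => colVec A P k i := by
  unfold colVec colOf
  split
  · exact (measurable_pi_apply i).comp ((measurable_pi_apply _).comp (measurable_noiseAt' A))
  · exact (measurable_of_finite fun c : Bool => spin c).comp
      ((measurable_pi_apply i).comp ((measurable_pi_apply _).comp measurable_stateAt'))

/-- A function that switches with the cell is measurable and bounded. -/
theorem bm_cell (hnet : ∀ P, ro.cell d P ∈ net) (hro : ReadOK β ro)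
    {F : Coef (ncol r) → Sam n r → ℝ} (hF : ∀ θ ∈ net, BM (F θ)) :
    BM fun P => F (cellAt ro d P) P := by
  classical
  have e : (fun P => F (cellAt ro d P) P)
      = fun P => ∑ θ ∈ net, (if ro.cell d P.1 = θ then (1 : ℝ) else 0) * F θ P := by
    funext P
    rw [sum_eq_single (ro.cell d P.1) (fun θ _ h => by simp [Ne.symm h])
      (fun h => absurd (hnet _) h)]
    simp [cellAt]
  rw [e]
  refine BM.sum _ fun θ hθ => bm_mul' ⟨?_, 1, fun P => by dsimp only; split <;> simp⟩ (hF θ hθ)
  exact Measurable.ite (measurable_fst (hro.1 d θ)) measurable_const measurable_const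

theorem measurable_zErr (hnet : ∀ P, ro.cell d P ∈ net) (hro : ReadOK β ro) (i : Fin n) :
    Measurable fun P : Sam n r => zErr β ro d P i := by
  classical
  have e : (fun P : Sam n r => zErr β ro d P i) = fun P => ∑ θ ∈ net,
      (if ro.cell d P.1 = θ then (1 : ℝ) else 0) * ∑ k, |zSite θ (sDat β ro d P i) k
        - (kmat n β d *ᵥ colVec (aop n β d) P.1 k) i| := by
    funext P
    rw [sum_eq_single (ro.cell d P.1) (fun θ _ h => by simp [Ne.symm h])
      (fun h => absurd (hnet _) h)]
    simp [zErr, cellAt]
  rw [e]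
  refine Finset.measurable_fun_sum _ fun θ _ =>
    (Measurable.ite (measurable_fst (hro.1 d θ)) measurable_const measurable_const).mul
      (Finset.measurable_fun_sum _ fun k _ => continuous_abs.measurable.comp ?_)
  refine ((measurable_zSite θ k).comp (measurable_sDat hro i)).sub ?_
  simp only [Matrix.mulVec, dotProduct]
  exact Finset.measurable_fun_sum _ fun j _ =>
    ((measurable_colVec _ k j).comp measurable_fst).const_mul _

theorem bm_err (hnet : ∀ P, ro.cell d P ∈ net) (hro : ReadOK β ro) (i : Fin n) {Cb Cl : ℝ}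
    (hb : 0 ≤ Cb) (hl : 0 ≤ Cl) :
    BM fun P : Sam n r => min Cb (Cl * zErr β ro d P i) :=
  ⟨measurable_const.min ((measurable_zErr hnet hro i).const_mul _), Cb, fun P => by
    show |min Cb (Cl * ∑ k, |_|)| ≤ Cb
    rw [abs_of_nonneg (le_min hb (mul_nonneg hl (sum_nonneg fun _ _ => abs_nonneg _)))]
    exact min_le_left _ _⟩

theorem reproErr_nonneg (P : Traj n r) : 0 ≤ reproErr β ro d P :=
  mul_nonneg (inv_nonneg.2 n.cast_nonneg)
    (integral_nonneg fun _ => sum_nonneg fun _ _ => sum_nonneg fun _ _ => sq_nonneg _)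

theorem bm_repro (hnet : ∀ P, ro.cell d P ∈ net) (hro : ReadOK β ro) :
    BM fun P : Traj n r => min 1 (reproErr β ro d P) := by
  refine ⟨measurable_const.min ?_, 1, fun P => ?_⟩
  · classical
    have : Measurable fun z : Sam n r => ∑ k, ∑ i, (zSite (ro.cell d z.1) (sDat β ro d z i) k
        - (kmat n β d *ᵥ colVec (aop n β d) z.1 k) i) ^ 2 := by
      refine Finset.measurable_fun_sum _ fun k _ => Finset.measurable_fun_sum _ fun i _ => ?_
      have hk : Measurable fun z : Sam n r => (kmat n β d *ᵥ colVec (aop n β d) z.1 k) i := by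
        simp only [Matrix.mulVec, dotProduct]
        exact Finset.measurable_fun_sum _ fun j _ =>
          ((measurable_colVec _ k j).comp measurable_fst).const_mul _
      have e : (fun z : Sam n r => zSite (ro.cell d z.1) (sDat β ro d z i) k)
          = fun z => ∑ θ ∈ net, (if ro.cell d z.1 = θ then (1 : ℝ) else 0)
            * zSite θ (sDat β ro d z i) k := by
        funext z
        rw [sum_eq_single (ro.cell d z.1) (fun θ _ h => by simp [Ne.symm h])
          (fun h => absurd (hnet _) h)]
        simp
      refine (Measurable.sub ?_ hk).pow_const 2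
      rw [e]
      exact Finset.measurable_fun_sum _ fun θ _ =>
        (Measurable.ite (measurable_fst (hro.1 d θ)) measurable_const measurable_const).mul
          ((measurable_zSite θ k).comp (measurable_sDat hro i))
    exact (this.stronglyMeasurable.integral_prod_right'
      (ν := gp (Fin (ncol r) × Fin n))).measurable.const_mul _
  · rw [abs_of_nonneg (le_min zero_le_one (reproErr_nonneg P))]
    exact min_le_left _ _

theorem repro_integrable (hro : ReadOK β ro)
    (hint : ∀ (P : Traj n r) i l, Integrable (fun q => ro.innov d P q i l ^ 2)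
      (gp (Fin (ncol r) × Fin n))) (P : Traj n r) :
    Integrable (fun q => ∑ k, ∑ i, (zSite (ro.cell d P) (sDat β ro d (P, q) i) k
      - (kmat n β d *ᵥ colVec (aop n β d) P k) i) ^ 2) (gp (Fin (ncol r) × Fin n)) := by
  refine integrable_finsetSum _ fun k _ => integrable_finsetSum _ fun i _ => ?_
  have h2 : ∀ l, MemLp (fun q => ro.innov d P q i l) 2 (gp (Fin (ncol r) × Fin n)) := fun l =>
    (memLp_two_iff_integrable_sq (((hro.2.1 d i l).comp
      (measurable_const.prodMk measurable_id)).aestronglyMeasurable)).2 (hint P i l)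
  set θ := ro.cell d P with hθ
  set c : Fin (ncol r) → ℝ := fun l => ∑ c, θ.G l c * ∑ j, θ.R c j
    * colVec (aop n β d) P j i with hc
  have e : (fun q => zSite θ (sDat β ro d (P, q) i) k)
      = fun q => ∑ l, θ.al k l * (ro.innov d P q i l + c l) := by
    funext q
    simp only [zSite, colOf_sDat, hc]
    rfl
  have h3 : MemLp (fun q => zSite θ (sDat β ro d (P, q) i) k) 2 (gp (Fin (ncol r) × Fin n)) := by
    rw [e]
    exact memLp_finsetSum _ fun l _ => ((h2 l).add (memLp_const (c l))).const_mul (θ.al k l)
  exact (h3.sub (memLp_const ((kmat n β d *ᵥ colVec (aop n β d) P k) i))).integrable_sq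

/-- The clipped error at one sample. -/
theorem err_pointwise {Cb Cl l : ℝ} (hl : 0 ≤ Cl) (hlp : 0 < l) (P : Sam n r) :
    (n : ℝ)⁻¹ * ∑ i ∈ Sᶜ, min Cb (Cl * zErr β ro d P i)
      ≤ Cl * ncol r * l / 2 + Cl / (2 * l) * ((n : ℝ)⁻¹ * ∑ k, ∑ i,
          (zSite (ro.cell d P.1) (sDat β ro d P i) k
            - (kmat n β d *ᵥ colVec (aop n β d) P.1 k) i) ^ 2) := by
  set D := fun k i => zSite (ro.cell d P.1) (sDat β ro d P i) k
    - (kmat n β d *ᵥ colVec (aop n β d) P.1 k) i
  have h1 : ∀ i, min Cb (Cl * zErr β ro d P i)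
      ≤ Cl * ncol r * l / 2 + Cl / (2 * l) * ∑ k, D k i ^ 2 := fun i => by
    refine (min_le_right _ _).trans ((mul_le_mul_of_nonneg_left (sum_le_sum
      (g := fun k => l / 2 + D k i ^ 2 / (2 * l)) fun k _ => ?_) hl).trans_eq ?_)
    · show |D k i| ≤ _
      rw [← sq_abs (D k i), div_add_div _ _ two_ne_zero (by positivity),
        le_div_iff₀ (by positivity)]
      nlinarith [sq_nonneg (|D k i| - l)]
    · rw [sum_add_distrib, sum_const, card_univ, Fintype.card_fin, nsmul_eq_mul, ← sum_div]
      ring
  have hc : (0 : ℝ) ≤ Cl * ncol r * l / 2 := by positivity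
  rcases Nat.eq_zero_or_pos n with rfl | hn
  · simpa using hc
  refine (mul_le_mul_of_nonneg_left ((sum_le_sum fun i _ => h1 i).trans
    (sum_le_sum_of_subset_of_nonneg (subset_univ _) fun i _ _ => add_nonneg hc
      (mul_nonneg (by positivity) (sum_nonneg fun _ _ => sq_nonneg _))))
    (inv_nonneg.2 n.cast_nonneg)).trans_eq ?_
  simp only [sum_add_distrib, sum_const, card_univ, Fintype.card_fin, nsmul_eq_mul, ← mul_sum]
  rw [sum_comm]
  field_simp
  rfl

/-- The mean clipped reconstruction error over the free sites is small. -/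
theorem bridge_mean {ν : Conf n → ℝ} (h : Law (aop n β d) ν) (hn : 1 ≤ n)
    (hnet : ∀ P, ro.cell d P ∈ net) (hro : ReadOK β ro)
    (hint : ∀ (P : Traj n r) i l, Integrable (fun q => ro.innov d P q i l ^ 2)
      (gp (Fin (ncol r) × Fin n)))
    {Cb Cl l : ℝ} (hb : 0 ≤ Cb) (hl : 0 ≤ Cl) (hlp : 0 < l) :
    samE (aop n β d) ν S (fun P => (n : ℝ)⁻¹ * ∑ i ∈ Sᶜ, min Cb (Cl * zErr β ro d P i))
      ≤ Cl * ncol r * l / 2
        + (Cl / (2 * l) + Cb) * trajE (aop n β d) 0 ν S (fun P => min 1 (reproErr β ro d P)) := by
  set A := aop n β d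
  set μ := gp (Fin (ncol r) × Fin n)
  have hn0 : (0 : ℝ) < n := by exact_mod_cast hn
  set X : Sam n r → ℝ := fun P => (n : ℝ)⁻¹ * ∑ i ∈ Sᶜ, min Cb (Cl * zErr β ro d P i) with hXd
  set c₁ := Cl * ncol r * l / 2
  set c₂ := Cl / (2 * l) + Cb
  set G : Traj n r → ℝ := fun P => min 1 (reproErr β ro d P)
  have hX : BM X := bm_cmul (BM.sum _ fun i _ => bm_err hnet hro i hb hl) _
  have hGm : BM G := bm_repro hnet hro
  have hc0 : 0 ≤ c₁ := by positivity
  have hc2 : 0 ≤ Cl / (2 * l) := by positivity
  have hpt : ∀ P : Traj n r, ∫ q, X (P, q) ∂μ ≤ c₁ + c₂ * G P := by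
    intro P
    have hr0 := reproErr_nonneg (β := β) (ro := ro) (d := d) P
    have hi := (hX.comp (f := fun q => (P, q)) (by fun_prop)).integrable μ
    rcases le_total 1 (reproErr β ro d P) with h1 | h1
    · refine (integral_mono hi (integrable_const Cb) fun q => ?_).trans ?_
      · simp only [hXd]
        rw [inv_mul_le_iff₀ hn0]
        refine (sum_le_sum (g := fun _ => Cb) fun i _ => min_le_left _ _).trans ?_
        rw [sum_const, nsmul_eq_mul]
        exact mul_le_mul_of_nonneg_right
          (by exact_mod_cast (card_le_univ _).trans_eq (Fintype.card_fin n)) hb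
      · simp only [integral_const, smul_eq_mul, probReal_univ, one_mul, G, min_eq_left h1, mul_one, c₂]
        linarith
    · have hE := (((repro_integrable hro hint P).const_mul (n : ℝ)⁻¹).const_mul (Cl / (2 * l)))
      refine (integral_mono hi ((integrable_const c₁).add hE)
        fun q => err_pointwise hl hlp (P, q)).trans ?_
      rw [integral_add' (integrable_const c₁) hE, integral_const_mul, integral_const_mul,
        integral_const, probReal_univ, one_smul]
      simp only [G, min_eq_right h1]
      exact add_le_add le_rfl (mul_le_mul_of_nonneg_right (le_add_of_nonneg_right hb) hr0)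
  have hpath : ∀ F : Traj n r → ℝ, samE A ν S (fun P => F P.1) = trajE A 0 ν S F := fun F => by
    simp [samE]
  calc samE A ν S X = samE A ν S fun P : Sam n r => ∫ q, X (P.1, q) ∂μ :=
        (hpath fun P => ∫ q, X (P, q) ∂μ).symm
    _ ≤ samE A ν S fun P : Sam n r => c₁ + c₂ * G P.1 :=
        samE_mono h ((bm_aux hX).comp measurable_fst)
          (bm_add' (BM.const c₁) (bm_cmul (hGm.comp measurable_fst) c₂)) fun P => hpt P.1
    _ = c₁ + c₂ * trajE A 0 ν S G := by
        rw [samE_add h (BM.const c₁) (bm_cmul (hGm.comp measurable_fst) c₂), samE_const h,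
          samE_smul h (F := fun P : Sam n r => G P.1) (hGm.comp measurable_fst), hpath G]

end Vale.Agent.P150.Fast.Core
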