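import Mathlib
import Vale.Agent.P150.Fast.Cavity.Core.Sample
import Vale.Agent.P150.Fast.Cavity.ModelValue

/-!
What is read from a path up to a time depends only on the path up to that time (P150, core of M4).
-/

open MeasureTheory Real Finset
open scoped Matrix

namespace Vale.Agent.P150.Fast.Core

variable {n r a : ℕ} {β : ℝ} {d : Dis n} {ro : Readout n r} {x : Conf n} {g : Fin n → ℝ}
  {ω ω' : Om n r} {q : Fin (ncol r) × Fin n → ℝ}

/-- A time, cut at the horizon. -/
def tm (r k : ℕ) : Fin (r + 1) := ⟨min k r, Nat.lt_succ_of_le (min_le_right k r)⟩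

theorem tm_val {r k : ℕ} (h : k ≤ r) : (tm r k).1 = k := min_eq_left h

theorem stateAt_tm (P : Traj n r) (k : ℕ) : stateAt P (tm r k) = stAt P.1 P.2.2 k := rfl

theorem win_step (ha : 0 + a ≤ r) (hw : winAt ha ω = winAt ha ω') {t : Fin r} (ht : t.1 < a) :
    ω t = ω' t := by
  have := congrFun hw ⟨t.1, ht⟩
  simpa [winAt] using this

theorem state_past (ha : 0 + a ≤ r) (hw : winAt ha ω = winAt ha ω') {b : Fin (r + 1)}
    (hb : b.1 ≤ a) : stateAt (x, g, ω) b = stateAt (x, g, ω') b := by
  cases b using Fin.cases with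
  | zero => rfl
  | succ t =>
    simp only [stateAt, Fin.cons_succ]
    rw [win_step ha hw (by simp at hb; omega)]

theorem noise_past (A : Matrix (Fin n) (Fin n) ℝ) (ha : 0 + a ≤ r) (hw : winAt ha ω = winAt ha ω')
    {b : Fin (r + 1)} (hb : b.1 ≤ a) : noiseAt A (x, g, ω) b = noiseAt A (x, g, ω') b := by
  cases b using Fin.cases with
  | zero => rfl
  | succ t =>
    simp only [noiseAt, Fin.cons_succ]
    rw [win_step ha hw (by simp at hb; omega),
      state_past ha hw (b := t.castSucc) (by simp at hb ⊢; omega)]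

theorem col_past (A : Matrix (Fin n) (Fin n) ℝ) (ha : 0 + a ≤ r) (hw : winAt ha ω = winAt ha ω')
    {k : Fin (ncol r)} (hk : k.1 ≤ 2 * a + 1) :
    colVec A (x, g, ω) k = colVec A (x, g, ω') k := by
  funext i
  simp only [colVec, colOf]
  split
  · rw [noise_past A ha hw (by dsimp only; omega)]
  · rw [state_past ha hw (by dsimp only; omega)]

/-- The data cut at a time is read from the path up to that time. -/
theorem cut_past (hro : ReadOK β ro) (ha : 0 + a ≤ r) (hw : winAt ha ω = winAt ha ω') (σ : Bool)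
    (i : Fin n) :
    cutAt σ a (sDat β ro d ((x, g, ω), q) i) = cutAt σ a (sDat β ro d ((x, g, ω'), q) i) := by
  refine Prod.ext ?_ (Prod.ext ?_ ?_) <;> funext b <;> simp only [cutAt]
  all_goals split
  all_goals try rfl
  · simp only [sDat, siteData, state_past ha hw ‹_›]
  · simp only [sDat, siteData, noise_past (aop n β d) ha hw ‹_›]
  · exact hro.2.2.1 d _ _ q i b fun k hk => col_past _ ha hw ((Fin.le_def.1 hk).trans ‹_›)

/-- A function of the data up to a time. -/
theorem upto_past {F : Site r → ℝ} (hF : Upto a F) (hro : ReadOK β ro) (ha : 0 + a ≤ r)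
    (hw : winAt ha ω = winAt ha ω') (i : Fin n) :
    F (sDat β ro d ((x, g, ω), q) i) = F (sDat β ro d ((x, g, ω'), q) i) :=
  hF _ _ (fun b hb => by simp only [sDat, siteData, state_past ha hw hb])
    (fun b hb => by simp only [sDat, siteData, noise_past (aop n β d) ha hw hb])
    fun l hl => hro.2.2.1 d _ _ q i l fun _ hk => col_past _ ha hw ((Fin.le_def.1 hk).trans hl)

end Vale.Agent.P150.Fast.Core
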