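import Mathlib
import Vale.Agent.P150.Fast.Cavity.Core.Env
import Vale.Agent.P150.Fast.Cavity.Parts
import Vale.Agent.P150.Fast.Cavity.PartsPath
import Vale.Agent.P150.Fast.Entropy.Setup

/-!
Windows of a stationary path: splitting at a time, the law of a window and two-time correlations
(P150, core of M4).
-/

open MeasureTheory Real Finset
open scoped Matrix

namespace Vale.Agent.P150.Fast.Core

variable {n r : ℕ}

theorem stAt_apply (x : Conf n) (ω : Om n r) (s : ℕ) (hs : s ≤ r) :
    stAt x ω s = (Fin.cons x fun t => (ω t).2 : Fin (r + 1) → Conf n) ⟨s, Nat.lt_succ_of_le hs⟩ := by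
  simp only [stAt]
  congr 1
  exact Fin.ext (min_eq_left hs)

theorem stAt_zero (x : Conf n) (ω : Om n r) : stAt x ω 0 = x := by
  rw [stAt_apply x ω 0 (Nat.zero_le _)]; rfl

theorem stAt_succ (x : Conf n) (ω : Om n r) (s : ℕ) (hs : s < r) :
    stAt x ω (s + 1) = (ω ⟨s, hs⟩).2 := by
  rw [stAt_apply x ω (s + 1) hs]; rfl

theorem stAt_end (x : Conf n) (ω : Om n r) : stAt x ω r = endAt x ω := by
  rw [stAt_apply x ω r le_rfl]; rfl

theorem stAt_win (x : Conf n) (ω : Om n r) {s m k : ℕ} (h : s + m ≤ r) (hk : k ≤ m) :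
    stAt (stAt x ω s) (winAt h ω) k = stAt x ω (s + k) := by
  cases k with
  | zero => rw [stAt_zero]; rfl
  | succ k =>
    rw [← Nat.add_assoc, stAt_succ _ _ k (by omega), stAt_succ _ _ (s + k) (by omega)]; rfl

theorem endAt_win (x : Conf n) (ω : Om n r) {s m : ℕ} (h : s + m ≤ r) :
    endAt (stAt x ω s) (winAt h ω) = stAt x ω (s + m) := by
  rw [← stAt_end, stAt_win x ω h le_rfl]

/-- The first window ends at the state of its length. -/
theorem endAt_first (x : Conf n) (ω : Om n r) {s : ℕ} (h : 0 + s ≤ r) :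
    endAt x (winAt h ω) = stAt x ω s := by
  have := endAt_win x ω h
  rwa [stAt_zero, Nat.zero_add] at this

theorem winAt_self (h : 0 + r ≤ r) (ω : Om n r) : winAt h ω = ω := by
  funext t; simp [winAt]

theorem winAt_join_left {a b s m : ℕ} (e : a + b = r) (h : s + m ≤ r) (h' : s + m ≤ a)
    (w : Om n a) (v : Om n b) : winAt h (joinPath e w v) = winAt h' w := by
  funext t
  have ht : s + t.1 < a := by have := t.2; omega
  simp only [winAt, joinPath]
  rw [show Fin.cast e.symm ⟨s + t.1, _⟩ = Fin.castAdd b (⟨s + t.1, ht⟩ : Fin a) from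
    Fin.ext (by simp), Fin.append_left]

theorem winAt_join_right {a b s m : ℕ} (e : a + b = r) (h : a + s + m ≤ r) (h' : s + m ≤ b)
    (w : Om n a) (v : Om n b) : winAt h (joinPath e w v) = winAt h' v := by
  funext t
  have ht : s + t.1 < b := by have := t.2; omega
  simp only [winAt, joinPath]
  rw [show Fin.cast e.symm ⟨a + s + t.1, _⟩ = Fin.natAdd a (⟨s + t.1, ht⟩ : Fin b) from
    Fin.ext (by simp [Nat.add_assoc]), Fin.append_right]

theorem endAt_join {a b : ℕ} (e : a + b = r) (x : Conf n) (w : Om n a) (v : Om n b) :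
    endAt x (joinPath e w v) = endAt (endAt x w) v ∧ stAt x (joinPath e w v) a = endAt x w := by
  have h1 : stAt x (joinPath e w v) a = endAt x w := by
    rw [← endAt_first x (joinPath e w v) (s := a) (by omega),
      winAt_join_left e (by omega) (le_of_eq (Nat.zero_add a)) w v, winAt_self]
  refine ⟨?_, h1⟩
  have h := endAt_win x (joinPath e w v) (s := a) (m := b) (le_of_eq e)
  have h2 : winAt (le_of_eq e) (joinPath e w v) = v := by
    have := winAt_join_right (s := 0) e (by omega) (le_of_eq (Nat.zero_add b)) w v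
    rwa [winAt_self] at this
  rw [h1, h2] at h
  rw [h, ← stAt_end, e]

variable {A : Matrix (Fin n) (Fin n) ℝ} {ν : Conf n → ℝ} {S : Finset (Fin n)}

/-- A function of the first window. -/
theorem pathE_first (h : Law A ν) {m : ℕ} (hm : 0 + m ≤ r) (F : Om n m → ℝ) (x : Conf n) :
    pathE (pR ν) (fun _ : Fin r => step0 A S) x (fun ω => F (winAt hm ω))
      = pathE (pR ν) (fun _ : Fin m => step0 A S) x F := by
  rw [splitThm n r m (r - m) (by omega) (pR ν) (step0 A S) x]
  congr 1
  funext w
  have e : ∀ v : Om n (r - m), F (winAt hm (joinPath (by omega) w v)) = F w := fun v => by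
    rw [winAt_join_left (by omega) hm (le_of_eq (Nat.zero_add m)), winAt_self]
  simp only [e]
  exact pathE_const _ (h.ok S) _ _

/-- The first window and a later one. -/
theorem law_split (h : Law A ν) {s m : ℕ} (hr : s + m ≤ r) (hs : 0 + s ≤ r)
    (G : Conf n → Om n s → Om n m → ℝ) :
    lawE (pR ν) ν (fun _ : Fin r => step0 A S) (fun x ω => G x (winAt hs ω) (winAt hr ω))
      = lawE (pR ν) ν (fun _ : Fin s => step0 A S) fun x w =>
          pathE (pR ν) (fun _ : Fin m => step0 A S) (endAt x w) (G x w) := by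
  simp only [lawE]
  refine sum_congr rfl fun x _ => congrArg _ ?_
  rw [splitThm n r s (r - s) (by omega) (pR ν) (step0 A S) x]
  congr 1
  funext w
  have e : ∀ v : Om n (r - s), G x (winAt hs (joinPath (by omega) w v))
      (winAt hr (joinPath (by omega) w v))
      = G x w (winAt (show 0 + m ≤ r - s by omega) v) := fun v => by
    rw [winAt_join_left (by omega) hs (le_of_eq (Nat.zero_add s)), winAt_self,
      ← winAt_join_right (s := 0) (show s + (r - s) = r by omega) (by omega) (by omega) w v]
  simp only [e]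
  exact pathE_first h _ (G x w) _

/-- Every window has the law of the first one. -/
theorem law_win (h : Law A ν) {s m : ℕ} (hr : s + m ≤ r) (G : Conf n → Om n m → ℝ) :
    lawE (pR ν) ν (fun _ : Fin r => step0 A S) (fun x ω => G (stAt x ω s) (winAt hr ω))
      = lawE (pR ν) ν (fun _ : Fin m => step0 A S) G := by
  have e := law_split h (S := S) hr (by omega) fun x w v => G (endAt x w) v
  simp only [endAt_first] at e
  rw [e]
  exact margThm n s ν (step0 A S) h.pos h.one h.pd
    fun z => pathE (pR ν) (fun _ : Fin m => step0 A S) z (G z)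

/-- A function of the end of a window. -/
theorem pathE_pow (h : Law A ν) (m : ℕ) (f : Conf n → ℝ) (x : Conf n) :
    pathE (pR ν) (fun _ : Fin m => step0 A S) x (fun ω => f (endAt x ω))
      = powOp (kerOf (pR ν) (step0 A S)) m f x := by
  rw [pathEnd n m _ f x (pR ν), Entropy.chainOp_const (kerThm n ν (step0 A S) h.pos h.pd).2.2.1]

/-- Two-time correlations. -/
theorem law_two (h : Law A ν) {p q : ℕ} (hpq : p ≤ q) (hq : q ≤ r) (f c : Conf n → ℝ) :
    lawE (pR ν) ν (fun _ : Fin r => step0 A S) (fun x ω => f (stAt x ω p) * c (stAt x ω q))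
      = ip ν f (powOp (kerOf (pR ν) (step0 A S)) (q - p) c) := by
  have e : ∀ x (ω : Om n r), f (stAt x ω p) * c (stAt x ω q)
      = (fun z w => f z * c (endAt z w)) (stAt x ω p) (winAt (show p + (q - p) ≤ r by omega) ω) :=
    fun x ω => by simp only [endAt_win, Nat.add_sub_cancel' hpq]
  simp only [e]
  rw [law_win h (show p + (q - p) ≤ r by omega) fun z w => f z * c (endAt z w)]
  simp only [lawE, ip]
  refine sum_congr rfl fun z _ => ?_
  have ha := pathE_affine (fun _ : Fin (q - p) => step0 A S) (h.ok S)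
    (fun w => c (endAt z w)) ((measurable_of_finite c).comp (measurable_endAt z))
    (∑ u, |c u|) (fun w => abs_le_sum_abs c _) (f z) 0 z
  simp only [add_zero] at ha
  rw [ha, pathE_pow h, mul_assoc]

end Vale.Agent.P150.Fast.Core
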