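import Mathlib
import Vale.Agent.P150.Fast.Cavity.Core.Sample
import Vale.Agent.P150.Fast.Cavity.Core.Law
import Vale.Agent.P150.Fast.Cavity.PartsConc

/-!
Concentration of windows weighted by the past, for coefficients that may also depend on the cell
of the whole path: a union over the net (P150, core of M4).
-/

open MeasureTheory Real Finset
open scoped Matrix

namespace Vale.Agent.P150.Fast.Core

variable {n r : ℕ} {β : ℝ} {d : Dis n} {ro : Readout n r} {S : Finset (Fin n)}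
  {ν : Conf n → ℝ} {net : Finset (Coef (ncol r))}

/-- The error of the concentration of a window of `m` steps after `a`. -/
noncomputable def concErr (C l : ℝ) (a m : ℕ) (ν : Conf n → ℝ) (st : Step n) : ℝ :=
  2 * (((a + m) * freeD ν st / n + log 2 / n) / l + C * l)

/-- The constant `C` serves the concentration of windows of `m` steps. -/
def ConcAt (m : ℕ) (L lam B C : ℝ) : Prop :=
  ∀ (n a : ℕ) (μ : Conf n → ℝ) (st : Step n), 1 ≤ n → (∀ x, 0 < μ x) → ∑ x, μ x = 1 →
    st.Good L → (∀ v : Fin n → ℝ, lam * ∑ i, v i ^ 2 ≤ v ⬝ᵥ (st.A *ᵥ v)) →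
  ∀ (K : Matrix (Fin n) (Fin n) ℝ), K.transpose = K →
    (∀ v : Fin n → ℝ, |v ⬝ᵥ (K *ᵥ v)| ≤ L * ∑ i, v i ^ 2) →
  ∀ (ψ : Fin m → Fin n → ℝ → ℝ → Bool → ℝ) (F : Fin n → ℝ → ℝ),
    (∀ b i, SmoothBd2 B (ψ b i)) → (∀ i, SmoothBd B (F i)) →
  ∀ (cf : Conf n → (Fin a → (Fin n → ℝ) × Conf n) → Fin n → ℝ),
    (∀ x i, Measurable fun ω => cf x ω i) → (∀ x ω, ∑ i, cf x ω i ^ 2 ≤ n) →
  ∀ l : ℝ, 0 < l →
    lawE (pR μ) μ (fun _ : Fin a => st) (fun x ω₁ =>
      pathE (pR μ) (fun _ : Fin m => st) (endAt x ω₁) fun ω₂ =>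
        |siteTest K (fun _ : Fin m => st) ψ F (cf x ω₁) (endAt x ω₁) ω₂
          - pathE (pR μ) (fun _ : Fin m => st) (endAt x ω₁)
              (siteTest K (fun _ : Fin m => st) ψ F (cf x ω₁) (endAt x ω₁))|)
      ≤ concErr C l a m μ st

theorem exists_concAt (m : ℕ) (L lam B : ℝ) (hL : 0 ≤ L) (hlam : 0 < lam) (hB : 0 ≤ B) :
    ∃ C, 0 ≤ C ∧ ConcAt m L lam B C := concThm m L lam B hL hlam hB

/-- What the windows see of the norm event. -/
structure NormGood (β L lam : ℝ) (d : Dis n) : Prop where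
  upper : ∀ v : Fin n → ℝ, v ⬝ᵥ (aop n β d *ᵥ v) ≤ L * ∑ i, v i ^ 2
  lower : ∀ v : Fin n → ℝ, lam * ∑ i, v i ^ 2 ≤ v ⬝ᵥ (aop n β d *ᵥ v)
  form : ∀ v : Fin n → ℝ, |v ⬝ᵥ (kmat n β d *ᵥ v)| ≤ L * ∑ i, v i ^ 2

/-- The test of a window weighted by coefficients read from a sample. -/
noncomputable def pastTest {m : ℕ} (β : ℝ) (d : Dis n) (S : Finset (Fin n))
    (ψ : Fin m → Fin n → ℝ → ℝ → Bool → ℝ) (F : Fin n → ℝ → ℝ) (c : Fin n → ℝ)
    (z : Conf n) (w : Om n m) : ℝ :=
  siteTest (kmat n β d) (fun _ : Fin m => step0 (aop n β d) S) ψ F c z w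

/-- Its mean given the past. -/
noncomputable def pastMean {m : ℕ} (β : ℝ) (d : Dis n) (ν : Conf n → ℝ) (S : Finset (Fin n))
    (ψ : Fin m → Fin n → ℝ → ℝ → Bool → ℝ) (F : Fin n → ℝ → ℝ) (c : Fin n → ℝ) (z : Conf n) : ℝ :=
  pathE (pR ν) (fun _ : Fin m => step0 (aop n β d) S) z (pastTest β d S ψ F c z)

/-- A path that starts as a given window. -/
noncomputable def extPath {a : ℕ} (r : ℕ) (x : Conf n) (w : Om n a) : Om n r :=
  fun t => if h : t.1 < a then w ⟨t.1, h⟩ else (0, x)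

theorem measurable_extPath {a : ℕ} (x : Conf n) :
    Measurable fun w : Om n a => extPath r x w :=
  measurable_pi_lambda _ fun t => by
    unfold extPath
    split
    · exact measurable_pi_apply _
    · exact measurable_const

theorem winAt_ext {a : ℕ} (h : 0 + a ≤ r) (x : Conf n) (w : Om n a) :
    winAt h (extPath r x w) = w := by
  funext t
  simp [winAt, extPath]

/-- **Windows weighted by the past and by the cell concentrate.** -/
theorem conc_net {m a : ℕ} {L lam B C l : ℝ} (hC : ConcAt m L lam B C) (hl : 0 < l)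
    (h : Law (aop n β d) ν) (hn : 1 ≤ n) (hd : NormGood β L lam d)
    (hnet : ∀ P, ro.cell d P ∈ net) (hro : ReadOK β ro) (ha : a + m ≤ r) (hB : 0 ≤ B)
    {ψ : Fin m → Fin n → ℝ → ℝ → Bool → ℝ} {F : Fin n → ℝ → ℝ}
    (hψ : ∀ b i, SmoothBd2 B (ψ b i)) (hF : ∀ i, SmoothBd B (F i))
    (cf : Coef (ncol r) → Sam n r → Fin n → ℝ)
    (hcm : ∀ θ ∈ net, ∀ i, Measurable fun P => cf θ P i)
    (hc2 : ∀ θ ∈ net, ∀ P, ∑ i, cf θ P i ^ 2 ≤ n)
    (hpast : ∀ θ ∈ net, ∀ (x : Conf n) g (ω ω' : Om n r) q,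
      winAt (show 0 + a ≤ r by omega) ω = winAt (show 0 + a ≤ r by omega) ω' →
      cf θ ((x, g, ω), q) = cf θ ((x, g, ω'), q)) :
    samE (aop n β d) ν S (fun P : Sam n r =>
      |pastTest β d S ψ F (cf (cellAt ro d P) P) (stAt P.1.1 P.1.2.2 a) (winAt ha P.1.2.2)
        - pastMean β d ν S ψ F (cf (cellAt ro d P) P) (stAt P.1.1 P.1.2.2 a)|)
      ≤ net.card * concErr C l a m ν (step0 (aop n β d) S) := by
  set σ : Fin m → Step n := fun _ => step0 (aop n β d) S with hσd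
  have hσ : ∀ t, OkStep (pR ν) (σ t) := h.ok S
  set X : Coef (ncol r) → Sam n r → ℝ := fun θ P =>
    |pastTest β d S ψ F (cf θ P) (stAt P.1.1 P.1.2.2 a) (winAt ha P.1.2.2)
      - pastMean β d ν S ψ F (cf θ P) (stAt P.1.1 P.1.2.2 a)| with hX
  have hb : ∀ θ ∈ net, ∀ P z w, |pastTest β d S ψ F (cf θ P) z w| ≤ √n * (B ^ m * B) :=
    fun θ hθ P z w => abs_siteTest_le hB hn hψ hF (hc2 θ hθ P) z w
  have hM : ∀ θ ∈ net, ∀ z, Measurable (fun P : Sam n r => pastMean β d ν S ψ F (cf θ P) z) ∧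
      ∀ P, |pastMean β d ν S ψ F (cf θ P) z| ≤ √n * (B ^ m * B) := fun θ hθ z =>
    pathE_meas σ hσ (Sam n r) (fun P w => pastTest β d S ψ F (cf θ P) z w)
      (measurable_siteTest₂ hψ hF (fun i => hcm θ hθ i) z) _ (fun P w => hb θ hθ P z w) z
  have hXb : ∀ θ ∈ net, BM (X θ) := fun θ hθ => by
    have hz : Measurable fun P : Sam n r => stAt P.1.1 P.1.2.2 a :=
      (measurable_from_prod_countable_right (f := fun p : Conf n × Om n r => stAt p.1 p.2 a)
        fun x => measurable_stAt x a).comp ((measurable_fst.comp measurable_fst).prodMk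
          (measurable_snd.comp (measurable_snd.comp measurable_fst)))
    refine bm_abs (bm_sub' ⟨?_, _, fun P => hb θ hθ P _ _⟩ ⟨?_, _, fun P => (hM θ hθ _).2 P⟩)
    · refine (measurable_from_prod_countable_right (f := fun p : Conf n × Sam n r =>
        pastTest β d S ψ F (cf θ p.2) p.1 (winAt ha p.2.1.2.2)) fun z => ?_).comp
          (hz.prodMk measurable_id)
      exact (measurable_siteTest₂ hψ hF (fun i => hcm θ hθ i) z).comp
        (measurable_id.prodMk ((measurable_winAt ha).comp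
          (measurable_snd.comp (measurable_snd.comp measurable_fst))))
    · exact (measurable_from_prod_countable_right (f := fun p : Conf n × Sam n r =>
        pastMean β d ν S ψ F (cf θ p.2) p.1) fun z => (hM θ hθ z).1).comp (hz.prodMk measurable_id)
  have hle : ∀ P, X (cellAt ro d P) P ≤ ∑ θ ∈ net, X θ P := fun P =>
    single_le_sum (f := fun θ => X θ P) (fun θ _ => abs_nonneg _) (hnet P.1)
  refine (samE_mono h (bm_cell hnet hro hXb) (BM.sum _ hXb) hle).trans ?_
  rw [samE_sum h _ hXb, ← nsmul_eq_mul]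
  refine sum_le_card_nsmul _ _ _ fun θ hθ => samE_le_of_aux h (hXb θ hθ) fun g q => ?_
  set c' : Conf n → Om n a → Fin n → ℝ := fun x w => cf θ ((x, g, extPath r x w), q) with hc'
  have h0 : 0 + a ≤ r := by omega
  have e : (fun x (ω : Om n r) => X θ ((x, g, ω), q))
      = fun x ω => (fun x w v => |pastTest β d S ψ F (c' x w) (endAt x w) v
          - pastMean β d ν S ψ F (c' x w) (endAt x w)|) x (winAt h0 ω) (winAt ha ω) := by
    funext x ω
    simp only [hX, hc', endAt_first, hpast θ hθ x g ω (extPath r x (winAt h0 ω)) q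
      (winAt_ext h0 x _).symm]
  rw [e, law_split h ha h0 (fun x w v => |pastTest β d S ψ F (c' x w) (endAt x w) v
    - pastMean β d ν S ψ F (c' x w) (endAt x w)|)]
  exact hC n a ν (step0 (aop n β d) S) hn h.pos h.one ⟨h.pd, hd.upper⟩ hd.lower (kmat n β d)
    (kmat_isSymm β d) hd.form ψ F hψ hF c' (fun x i => (hcm θ hθ i).comp
      ((measurable_const.prodMk (measurable_const.prodMk (measurable_extPath x))).prodMk
        measurable_const)) (fun x w => hc2 θ hθ _) l hl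

end Vale.Agent.P150.Fast.Core
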