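import Mathlib
import Vale.Agent.P150.Fast.Cavity.Core.Law
import Vale.Agent.P150.Fast.Cavity.Core.Wgt
import Vale.Agent.P150.Fast.Cavity.PartsConv
import Vale.Agent.P150.Fast.Cavity.Transfer
import Vale.Agent.P150.Fast.Cavity.Smooth

/-!
Windows of the path against the sliced kernel of a site: one window, two times of a window, two
consecutive windows (P150, core of M4).
-/

open MeasureTheory Real Finset
open scoped Matrix

namespace Vale.Agent.P150.Fast.Core

variable {n : ℕ} {A : Matrix (Fin n) (Fin n) ℝ} {ν : Conf n → ℝ} {S : Finset (Fin n)}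
  {g : ℝ → ℝ} {m₀ m₁ R C : ℝ} {i : Fin n} {b : Bool} {m : ℕ}

/-- The hypotheses on a window at a site. -/
structure Win (A : Matrix (Fin n) (Fin n) ℝ) (ν : Conf n → ℝ) (S : Finset (Fin n)) (g : ℝ → ℝ)
    (m₀ m₁ R : ℝ) (i : Fin n) : Prop where
  law : Law A ν
  free : i ∉ S
  gc : Continuous g
  g01 : ∀ u, 0 ≤ g u ∧ g u ≤ 1
  mass : 0 < nE 0 (A⁻¹ i i) g
  m0 : 0 < m₀
  m1 : m₀ ≤ m₁
  hR : 0 < R

/-- A constant for the comparison of windows of one length with the sliced kernel. -/
def WinC (m : ℕ) (R m₀ C : ℝ) : Prop :=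
  0 ≤ C ∧ ∀ (n : ℕ) (A : Matrix (Fin n) (Fin n) ℝ) (ν : Conf n → ℝ) (S : Finset (Fin n))
    (g : ℝ → ℝ) (m₁ : ℝ) (i : Fin n), Win A ν S g m₀ m₁ R i →
    ∀ (b : Bool) (G : Fin (m + 1) → Conf n → ℝ), (∀ t x, |G t x| ≤ 1) →
      ∑ x, ν x * |pathE (pR ν) (fun _ : Fin m => step0 A S) x
          (fun ω => wgt A S g m₁ R i b x ω
            * ∏ t, G t ((Fin.cons x fun k => (ω k).2 : Fin (m + 1) → Conf n) t))
        - onVal i b x * insOp (slK A ν S g i b) G x|
      ≤ wErr A ν S g m₁ R C m i b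

theorem continuous_chiR (R : ℝ) : Continuous (chiR R) := by unfold chiR; fun_prop

theorem chiR_supp (hR : 0 < R) {v : ℝ} (hv : R < |v|) : chiR R v = 0 := by
  by_contra h
  have := bumpC_supp h
  rw [abs_div, abs_of_pos hR, div_le_one hR] at this
  linarith

theorem exists_winC (m : ℕ) (hR : 0 < R) (hm₀ : 0 < m₀) : ∃ C, WinC m R m₀ C := by
  obtain ⟨C, hC0, hC⟩ := convThm m R 1 m₀ hR.le zero_le_one hm₀
  exact ⟨C, hC0, fun n A ν S g m₁ i w b G hG => hC n ν (step0 A S) w.law.pos w.law.one w.law.pd i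
    w.free b g (chiR R) w.gc (continuous_chiR R) w.g01 (fun v => bumpC_mem _)
    (fun v hv => chiR_supp w.hR hv) w.mass m₁ w.m1 G hG⟩

theorem Win.hyp (w : Win A ν S g m₀ m₁ R i) (b : Bool) :
    ConvHyp ν (step0 A S) i b g (chiR R) R 1 m₁ :=
  ⟨w.law.pos, w.law.one, w.law.pd, w.hR.le, w.m0.trans_le w.m1, w.gc, continuous_chiR R, w.g01,
    fun _ => bumpC_mem _, fun _ hv => chiR_supp w.hR hv, w.mass⟩

theorem Win.psd (w : Win A ν S g m₀ m₁ R i) (b : Bool) :
    IsPsdKer (fun x => onVal i b x * ν x) (slK A ν S g i b) :=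
  sliceKer_isPsd w.law.pos w.law.pd (w.hyp b).sliceW (onVal_nonneg i b) (onVal_fib _ i b)

theorem wgt_eq (x : Conf n) (ω : Om n m) :
    wgt A S g m₁ R i b x ω
      = onVal i b x * ∏ t, onVal i b (ω t).2 * kWin (step0 A S) i b (fun u => g u / m₁) (chiR R) (ω t).1 := by
  simp only [wgt, winP, kWin, mul_assoc]

/-- The weight is nonnegative and bounded by a constant of the length. -/
theorem Win.wgt_mem (w : Win A ν S g m₀ m₁ R i) (b : Bool) (x : Conf n) (ω : Om n m) :
    0 ≤ wgt A S g m₁ R i b x ω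
      ∧ wgt A S g m₁ R i b x ω ≤ (1 / m₀ * (1 + exp (2 * R))) ^ m := by
  have H := w.hyp b
  have h0 : ∀ t : Fin m, 0 ≤ onVal i b (ω t).2
      * kWin (step0 A S) i b (fun u => g u / m₁) (chiR R) (ω t).1 := fun t =>
    mul_nonneg (onVal_nonneg _ _ _) (H.kWin_bound _).1
  rw [wgt_eq]
  refine ⟨mul_nonneg (onVal_nonneg _ _ _) (prod_nonneg fun t _ => h0 t), ?_⟩
  refine (mul_le_of_le_one_left (prod_nonneg fun t _ => h0 t) (onVal_le_one i b x)).trans ?_
  refine (prod_le_prod (g := fun _ => 1 / m₀ * (1 + exp (2 * R))) (fun t _ => h0 t)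
    fun t _ => ?_).trans_eq (by simp)
  refine ((mul_le_of_le_one_left (H.kWin_bound _).1 (onVal_le_one i b _)).trans
    (H.kWin_bound _).2).trans (mul_le_mul_of_nonneg_right ?_ (by positivity))
  exact one_div_le_one_div_of_le w.m0 w.m1

theorem Win.abs_wgt_le (w : Win A ν S g m₀ m₁ R i) (b : Bool) (x : Conf n) (ω : Om n m) :
    |wgt A S g m₁ R i b x ω| ≤ (1 / m₀ * (1 + exp (2 * R))) ^ m := by
  rw [abs_of_nonneg (w.wgt_mem b x ω).1]; exact (w.wgt_mem b x ω).2

theorem Win.measurable_wgt (w : Win A ν S g m₀ m₁ R i) (b : Bool) (x : Conf n) :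
    Measurable fun ω : Om n m => wgt A S g m₁ R i b x ω := by
  simp only [wgt_eq]
  refine (Finset.measurable_fun_prod _ fun t _ => ?_).const_mul _
  exact ((measurable_of_finite (onVal i b)).comp (measurable_pi_apply t).snd).mul
    ((w.hyp b).kWin_meas.comp (measurable_pi_apply t).fst)

theorem onVal_sq (i : Fin n) (b : Bool) (x : Conf n) : onVal i b x * onVal i b x = onVal i b x := by
  rcases onVal_cases i b x with h | h <;> simp [h]

/-- A positive weight holds the site at both ends of the window. -/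
theorem wgt_end (x : Conf n) (ω : Om n m) :
    wgt A S g m₁ R i b x ω * onVal i b (endAt x ω) = wgt A S g m₁ R i b x ω := by
  cases m with
  | zero =>
    have : endAt x ω = x := rfl
    rw [this, wgt_eq, mul_right_comm, onVal_sq]
  | succ k =>
    have : endAt x ω = (ω (Fin.last k)).2 := by simp [endAt, ← Fin.succ_last]
    rw [this, wgt_eq, Fin.prod_univ_castSucc]
    linear_combination (onVal i b x * (∏ t : Fin k, onVal i b (ω t.castSucc).2
      * kWin (step0 A S) i b (fun u => g u / m₁) (chiR R) (ω t.castSucc).1)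
      * kWin (step0 A S) i b (fun u => g u / m₁) (chiR R) (ω (Fin.last k)).1)
      * onVal_sq i b (ω (Fin.last k)).2

/-- The weight of two consecutive windows. -/
theorem wgt_join {r a c : ℕ} (e : a + c = r) (x : Conf n) (u : Om n a) (v : Om n c) :
    wgt A S g m₁ R i b x (joinPath e u v)
      = wgt A S g m₁ R i b x u * wgt A S g m₁ R i b (endAt x u) v := by
  subst e
  conv_rhs => rw [wgt_eq (endAt x u), ← mul_assoc, wgt_end]
  rw [wgt_eq, wgt_eq, Fin.prod_univ_add]
  simp only [joinPath, Fin.cast_eq_self, Fin.append_left, Fin.append_right]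
  ring

theorem insOp_ones {Q : Conf n → Conf n → ℝ} (hQ : ∀ x, ∑ z, Q x z = 1) :
    ∀ {m : ℕ}, insOp Q (fun (_ : Fin (m + 1)) (_ : Conf n) => (1 : ℝ)) = fun _ => 1
  | 0 => rfl
  | m + 1 => by
    funext x
    simp only [insOp, one_mul]
    rw [show (Fin.tail fun (_ : Fin (m + 1 + 1)) (_ : Conf n) => (1 : ℝ)) = fun _ _ => 1 from rfl,
      insOp_ones hQ]
    simp [hQ]

theorem insOp_one {Q : Conf n → Conf n → ℝ} (hQ : ∀ x, ∑ z, Q x z = 1) (c : Conf n → ℝ) :
    ∀ {m q : ℕ}, q ≤ m →
      insOp Q (fun (t : Fin (m + 1)) x => if t.1 = q then c x else 1) = powOp Q q c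
  | 0, q, hq => by
    obtain rfl : q = 0 := by omega
    funext x; simp [insOp, powOp]
  | m + 1, 0, _ => by
    funext x
    simp only [insOp, Fin.val_zero, if_true]
    rw [show (Fin.tail fun (t : Fin (m + 1 + 1)) (x : Conf n) => if t.1 = 0 then c x else (1 : ℝ))
      = fun (_ : Fin (m + 1)) (_ : Conf n) => (1 : ℝ) from by funext t; simp [Fin.tail],
      insOp_ones hQ]
    simp [hQ, powOp]
  | m + 1, q + 1, hq => by
    funext x
    simp only [insOp, Fin.val_zero, if_neg (show 0 ≠ q + 1 from (Nat.succ_ne_zero q).symm), one_mul]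
    rw [show (Fin.tail fun (t : Fin (m + 1 + 1)) (x : Conf n) => if t.1 = q + 1 then c x else (1 : ℝ))
      = fun (t : Fin (m + 1)) x => if t.1 = q then c x else 1 from by funext t; simp [Fin.tail],
      insOp_one hQ c (Nat.le_of_succ_le_succ hq), powOp_succ]
    simp [powOp]

theorem insOp_two {Q : Conf n → Conf n → ℝ} (hQ : ∀ x, ∑ z, Q x z = 1) (a c : Conf n → ℝ) :
    ∀ {m p q : ℕ}, p ≤ q → q ≤ m →
      insOp Q (fun (t : Fin (m + 1)) x =>
          (if t.1 = p then a x else 1) * (if t.1 = q then c x else 1))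
        = powOp Q p (fun z => a z * powOp Q (q - p) c z)
  | m, 0, 0, _, _ => by
    rw [show (fun (t : Fin (m + 1)) x => (if t.1 = 0 then a x else 1) * (if t.1 = 0 then c x else 1))
      = fun (t : Fin (m + 1)) x => if t.1 = 0 then a x * c x else 1 from by
        funext t x; split <;> simp, insOp_one hQ _ (Nat.zero_le m)]
    rfl
  | 0, _, q + 1, _, hq => by omega
  | _, p + 1, 0, hpq, _ => by omega
  | m + 1, 0, q + 1, _, hq => by
    funext x
    simp only [insOp, Fin.val_zero, if_true, if_neg (show 0 ≠ q + 1 from (Nat.succ_ne_zero q).symm), mul_one]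
    rw [show (Fin.tail fun (t : Fin (m + 1 + 1)) (x : Conf n) => (if t.1 = 0 then a x else (1 : ℝ))
        * (if t.1 = q + 1 then c x else 1))
      = fun (t : Fin (m + 1)) x => if t.1 = q then c x else 1 from by funext t; simp [Fin.tail],
      insOp_one hQ c (Nat.le_of_succ_le_succ hq), Nat.sub_zero, powOp_succ]
    simp [powOp]
  | m + 1, p + 1, q + 1, hpq, hq => by
    funext x
    simp only [insOp, Fin.val_zero, if_neg (show 0 ≠ p + 1 from (Nat.succ_ne_zero p).symm),
      if_neg (show 0 ≠ q + 1 from (Nat.succ_ne_zero q).symm), mul_one, one_mul]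
    rw [show (Fin.tail fun (t : Fin (m + 1 + 1)) (x : Conf n) =>
        (if t.1 = p + 1 then a x else (1 : ℝ)) * (if t.1 = q + 1 then c x else 1))
      = fun (t : Fin (m + 1)) x => (if t.1 = p then a x else 1) * (if t.1 = q then c x else 1)
        from by funext t; simp [Fin.tail],
      insOp_two hQ a c (Nat.le_of_succ_le_succ hpq) (Nat.le_of_succ_le_succ hq),
      powOp_succ Q p, Nat.add_sub_add_right]
    simp [powOp]

/-- The mass of a window weight. -/
theorem win_mass (hC : WinC m R m₀ C) (w : Win A ν S g m₀ m₁ R i) (b : Bool) :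
    ∑ x, ν x * |pathE (pR ν) (fun _ : Fin m => step0 A S) x (wgt A S g m₁ R i b x) - onVal i b x|
      ≤ wErr A ν S g m₁ R C m i b := by
  have h := hC.2 n A ν S g m₁ i w b (fun _ _ => 1) fun _ _ => by simp
  simpa [insOp_ones (w.psd b).row] using h

/-- Two times of one window. -/
theorem win_two (hC : WinC m R m₀ C) (w : Win A ν S g m₀ m₁ R i) (b : Bool) {p q : ℕ}
    (hpq : p ≤ q) (hq : q ≤ m) {a c : Conf n → ℝ} (ha : ∀ x, |a x| ≤ 1) (hc : ∀ x, |c x| ≤ 1) :
    |lawE (pR ν) ν (fun _ : Fin m => step0 A S)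
        (fun x ω => wgt A S g m₁ R i b x ω * a (stAt x ω p) * c (stAt x ω q))
      - ip (fun x => onVal i b x * ν x) a (powOp (slK A ν S g i b) (q - p) c)|
      ≤ wErr A ν S g m₁ R C m i b := by
  refine le_trans ?_ (hC.2 n A ν S g m₁ i w b
    (fun t x => (if t.1 = p then a x else 1) * (if t.1 = q then c x else 1)) fun t x => by
      rw [abs_mul]
      refine mul_le_one₀ ?_ (abs_nonneg _) ?_ <;> split <;> simp [ha, hc])
  simp only [insOp_two (w.psd b).row a c hpq hq]
  set F := powOp (slK A ν S g i b) p fun z => a z * powOp (slK A ν S g i b) (q - p) c z with hF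
  have e1 : ∀ x (ω : Om n m), ∏ t : Fin (m + 1),
      ((if t.1 = p then a ((Fin.cons x fun k => (ω k).2 : Fin (m + 1) → Conf n) t) else 1)
        * (if t.1 = q then c ((Fin.cons x fun k => (ω k).2 : Fin (m + 1) → Conf n) t) else 1))
      = a (stAt x ω p) * c (stAt x ω q) := fun x ω => by
    rw [prod_mul_distrib,
      prod_eq_single (⟨p, by omega⟩ : Fin (m + 1)) (fun t _ ht => if_neg fun h => ht (Fin.ext h))
        (fun h => absurd (mem_univ _) h),
      prod_eq_single (⟨q, by omega⟩ : Fin (m + 1)) (fun t _ ht => if_neg fun h => ht (Fin.ext h))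
        (fun h => absurd (mem_univ _) h),
      if_pos rfl, if_pos rfl, stAt_apply x ω p (by omega), stAt_apply x ω q (by omega)]
  simp only [e1, ← mul_assoc]
  have e2 : ip (fun x => onVal i b x * ν x) a (powOp (slK A ν S g i b) (q - p) c)
      = ∑ x, ν x * (onVal i b x * F x) := by
    have h := ip_one_pow (w.psd b) p fun z => a z * powOp (slK A ν S g i b) (q - p) c z
    rw [← hF] at h
    simp only [ip, mul_assoc (onVal _ _ _ * ν _), ← h]
    exact sum_congr rfl fun x _ => by ring
  rw [e2, lawE, ← sum_sub_distrib]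
  refine (abs_sum_le_sum_abs _ _).trans (sum_le_sum fun x _ => le_of_eq ?_)
  rw [← mul_sub, abs_mul, abs_of_pos (w.law.pos x)]

theorem lawE_sub (h : Law A ν) {F G : Conf n → Om n m → ℝ} (hF : ∀ x, Measurable (F x))
    (hG : ∀ x, Measurable (G x)) {M : ℝ} (hMF : ∀ x ω, |F x ω| ≤ M) (hMG : ∀ x ω, |G x ω| ≤ M) :
    lawE (pR ν) ν (fun _ : Fin m => step0 A S) (fun x ω => F x ω - G x ω)
      = lawE (pR ν) ν (fun _ : Fin m => step0 A S) F
        - lawE (pR ν) ν (fun _ : Fin m => step0 A S) G := by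
  have e := lawE_affine h.one _ (h.ok S) hG hMG (-1) 0
  simp only [add_zero, neg_one_mul] at e
  have e2 := lawE_add (ν := ν) _ (h.ok S) hF (G := fun x ω => -G x ω) (fun x => (hG x).neg)
    hMF (fun x ω => by rw [abs_neg]; exact hMG x ω)
  simp only [← sub_eq_add_neg] at e2
  rw [e2, e, sub_eq_add_neg]

/-- Two consecutive windows: after a window the next one takes the values of the sliced kernel. -/
theorem win_next {K H : ℕ} {C' : ℝ} (hK : WinC K R m₀ C) (hKH : WinC (K + H) R m₀ C')
    (w : Win A ν S g m₀ m₁ R i) (b : Bool) {φ : Conf n → ℝ} (hφ : ∀ x, |φ x| ≤ 1) :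
    lawE (pR ν) ν (fun _ : Fin K => step0 A S) (fun x ω => wgt A S g m₁ R i b x ω
        * |pathE (pR ν) (fun _ : Fin H => step0 A S) (endAt x ω)
            (fun v => wgt A S g m₁ R i b (endAt x ω) v * φ (endAt (endAt x ω) v))
          - slW A ν S g i b H φ (endAt x ω)|)
      ≤ wErr A ν S g m₁ R C K i b + wErr A ν S g m₁ R C' (K + H) i b := by
  set T : Conf n → ℝ := powOp (slK A ν S g i b) H φ
  set P : Conf n → ℝ := fun z => pathE (pR ν) (fun _ : Fin H => step0 A S) z
    fun v => wgt A S g m₁ R i b z v * φ (endAt z v)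
  have hT : ∀ z, |T z| ≤ 1 := powOp_abs_le (w.psd b) H hφ
  have hwm : ∀ (k : ℕ) x (f : Conf n → ℝ),
      Measurable fun ω : Om n k => wgt A S g m₁ R i b x ω * f (endAt x ω) := fun k x f =>
    (w.measurable_wgt b x).mul ((measurable_of_finite f).comp (measurable_endAt x))
  set s : Conf n → ℝ := fun z => if T z ≤ P z then 1 else -1
  have hs : ∀ z, |s z| ≤ 1 := fun z => by simp only [s]; split <;> simp
  have e1 : ∀ x (ω : Om n K), wgt A S g m₁ R i b x ω * |P (endAt x ω) - slW A ν S g i b H φ (endAt x ω)|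
      = wgt A S g m₁ R i b x ω * (s (endAt x ω) * P (endAt x ω))
        - wgt A S g m₁ R i b x ω * (s (endAt x ω) * T (endAt x ω)) := fun x ω => by
    rcases onVal_cases i b (endAt x ω) with h | h
    · rw [← wgt_end x ω, h]; simp
    · have hu : Function.update (endAt x ω) i b = endAt x ω := by
        rw [Function.update_eq_self_iff]
        by_contra hne
        simp [onVal, Ne.symm hne] at h
      simp only [slW, hu, s]
      split
      · rw [abs_of_nonneg (sub_nonneg.2 ‹_›)]; ring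
      · rw [abs_of_nonpos (sub_nonpos.2 (le_of_not_ge ‹_›))]; ring
  change lawE (pR ν) ν (fun _ : Fin K => step0 A S)
    (fun x ω => wgt A S g m₁ R i b x ω * |P (endAt x ω) - slW A ν S g i b H φ (endAt x ω)|) ≤ _
  simp only [e1]
  set B := (1 / m₀ * (1 + exp (2 * R))) ^ K
  set M := ∑ z, |s z * P z| + ∑ z, |s z * T z|
  have hb : ∀ (f : Conf n → ℝ), (∀ z, |f z| ≤ M) → ∀ x (ω : Om n K),
      |wgt A S g m₁ R i b x ω * f (endAt x ω)| ≤ B * M := fun f hf x ω => by
    rw [abs_mul]
    exact mul_le_mul (w.abs_wgt_le b x ω) (hf _) (abs_nonneg _)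
      ((abs_nonneg _).trans (w.abs_wgt_le b x ω))
  rw [lawE_sub w.law (fun x => hwm K x fun z => s z * P z) (fun x => hwm K x fun z => s z * T z)
    (hb _ fun z => (abs_le_sum_abs (fun z => s z * P z) z).trans
      (le_add_of_nonneg_right (sum_nonneg fun _ _ => abs_nonneg _)))
    (hb _ fun z => (abs_le_sum_abs (fun z => s z * T z) z).trans
      (le_add_of_nonneg_left (sum_nonneg fun _ _ => abs_nonneg _)))]
  have e2 : lawE (pR ν) ν (fun _ : Fin K => step0 A S)
      (fun x ω => wgt A S g m₁ R i b x ω * (s (endAt x ω) * P (endAt x ω)))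
      = lawE (pR ν) ν (fun _ : Fin (K + H) => step0 A S)
        (fun x ω => wgt A S g m₁ R i b x ω * s (stAt x ω K) * φ (stAt x ω (K + H))) := by
    simp only [lawE]
    refine sum_congr rfl fun x _ => congrArg _ ?_
    rw [splitThm n (K + H) K H rfl (pR ν) (step0 A S) x]
    congr 1
    funext u
    simp only [wgt_join, (endAt_join rfl x u _).2, stAt_end, (endAt_join rfl x u _).1]
    have ha := pathE_affine (fun _ : Fin H => step0 A S) (w.law.ok S) _ (hwm H (endAt x u) φ)
      ((1 / m₀ * (1 + exp (2 * R))) ^ H) (fun v => by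
        rw [abs_mul]
        exact (mul_le_of_le_one_right (abs_nonneg _) (hφ _)).trans (w.abs_wgt_le b _ v))
      (wgt A S g m₁ R i b x u * s (endAt x u)) 0 (endAt x u)
    simp only [add_zero] at ha
    rw [show wgt A S g m₁ R i b x u * (s (endAt x u) * P (endAt x u))
      = wgt A S g m₁ R i b x u * s (endAt x u) * P (endAt x u) by ring, ← ha]
    congr 1
    funext v
    ring
  have h2 := win_two hKH w b (Nat.le_add_right K H) le_rfl hs hφ
  rw [Nat.add_sub_cancel_left, ← e2] at h2
  have h1 := win_two hK w b (le_refl K) le_rfl (a := fun z => s z * T z) (c := fun _ => 1)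
    (fun z => by rw [abs_mul]; exact mul_le_one₀ (hs z) (abs_nonneg _) (hT z)) (fun _ => by simp)
  simp only [stAt_end, mul_one, Nat.sub_self] at h1
  have e3 : ip (fun x => onVal i b x * ν x) (fun z => s z * T z)
      (powOp (slK A ν S g i b) 0 fun _ => 1) = ip (fun x => onVal i b x * ν x) s T :=
    sum_congr rfl fun z _ => by simp [powOp]; ring
  rw [e3] at h1
  linarith [(abs_le.1 h1).1, (abs_le.1 h2).2]

end Vale.Agent.P150.Fast.Core
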