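import Mathlib
import Vale.Agent.P150.Fast.Cavity.Core.Causal
import Vale.Agent.P150.Fast.Cavity.Core.Past
import Vale.Agent.P150.Fast.Cavity.Core.Window
import Vale.Agent.P150.Fast.Cavity.ModelWindow

/-!
A block of a path: the past window, the present state and the next window, exact and in the model
of one site (P150, core of M4).
-/

open MeasureTheory Real Finset
open scoped Matrix

namespace Vale.Agent.P150.Fast.Core

variable {n r : ℕ}

/-- The numbers of the construction: coupling, mean noise variance, slice, cut and lengths. -/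
structure Par where
  /-- The coupling. -/
  β : ℝ
  /-- The variance of the noises of the model. -/
  W : ℝ
  /-- The width of the slice. -/
  κ : ℝ
  /-- The cut of the fields. -/
  R : ℝ
  /-- The number of past tests. -/
  K : ℕ
  /-- The length of a window. -/
  H : ℕ

/-- The weight of the noise. -/
noncomputable def Par.g (Q : Par) : ℝ → ℝ := slG Q.κ

/-- The normaliser of the weight. -/
noncomputable def Par.m₁ (Q : Par) : ℝ := nE 0 Q.W (slG Q.κ)

/-- A window, filled up beyond the horizon. -/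
def winC (x : Conf n) (ω : Om n r) (s m : ℕ) : Om n m :=
  fun t => if h : s + t.1 < r then ω ⟨s + t.1, h⟩ else (0, x)

theorem winC_eq (x : Conf n) (ω : Om n r) {s m : ℕ} (h : s + m ≤ r) :
    winC x ω s m = winAt h ω :=
  funext fun t => dif_pos (by have := t.2; omega)

/-- Two consecutive windows are one. -/
theorem winAt_append {s a c : ℕ} (h : s + (a + c) ≤ r) (ω : Om n r) :
    joinPath rfl (winAt (show s + a ≤ r by omega) ω) (winAt (show s + a + c ≤ r by omega) ω)
      = winAt h ω := by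
  funext t
  simp only [joinPath, Fin.cast_eq_self]
  induction t using Fin.addCases with
  | left t => simp [winAt]
  | right t => simp [winAt, Nat.add_assoc]

variable (Q : Par) (d : Dis n) (S : Finset (Fin n))

/-- The weight of the past window that starts at `s`. -/
noncomputable def Par.wp (i : Fin n) (b : Bool) (s : ℕ) (P : Sam n r) : ℝ :=
  wgt (aop n Q.β d) S Q.g Q.m₁ Q.R i b (stAt P.1.1 P.1.2.2 s)
    (winC P.1.1 P.1.2.2 s (Q.K * Q.H))

/-- The weight of the next window. -/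
noncomputable def Par.wf (i : Fin n) (b : Bool) (s : ℕ) (P : Sam n r) : ℝ :=
  wgt (aop n Q.β d) S Q.g Q.m₁ Q.R i b (stAt P.1.1 P.1.2.2 (s + Q.K * Q.H))
    (winC P.1.1 P.1.2.2 (s + Q.K * Q.H) Q.H)

/-- A test of the coupling field at a time. -/
noncomputable def Par.fz (f : ℝ → ℝ) (i : Fin n) (k : ℕ) (P : Sam n r) : ℝ :=
  f (zField Q.β d (stAt P.1.1 P.1.2.2 k) i)

/-- The mean of the past tests. -/
noncomputable def Par.fbar (f : ℝ → ℝ) (i : Fin n) (s : ℕ) (P : Sam n r) : ℝ :=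
  (Q.K : ℝ)⁻¹ * ∑ k ∈ range Q.K, Q.fz d f i (s + k * Q.H) P

/-- The window value at the present state. -/
noncomputable def Par.val (ν : Conf n → ℝ) (f : ℝ → ℝ) (i : Fin n) (b : Bool) (s : ℕ)
    (P : Sam n r) : ℝ :=
  slW (aop n Q.β d) ν S Q.g i b Q.H (fun z => f (zField Q.β d z i))
    (stAt P.1.1 P.1.2.2 (s + Q.K * Q.H))

/-- The weighted next test given the present state. -/
noncomputable def Par.nxt (ν : Conf n → ℝ) (f : ℝ → ℝ) (i : Fin n) (b : Bool) (z : Conf n) : ℝ :=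
  pathE (pR ν) (fun _ : Fin Q.H => step0 (aop n Q.β d) S) z fun v =>
    wgt (aop n Q.β d) S Q.g Q.m₁ Q.R i b z v * f (zField Q.β d (endAt z v) i)

/-- The past weight in the model. -/
noncomputable def Par.wm (b : Bool) (s : ℕ) (θ : Coef (ncol r)) (e : Site r) : ℝ :=
  mWin Q.β θ Q.g Q.m₁ Q.R b s (Q.K * Q.H) e

/-- The next weight in the model. -/
noncomputable def Par.fm (b : Bool) (s : ℕ) (θ : Coef (ncol r)) (e : Site r) : ℝ :=
  mWin Q.β θ Q.g Q.m₁ Q.R b (s + Q.K * Q.H) Q.H e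

/-- The column of the end of a block. -/
def Par.kEnd (Q : Par) (r s : ℕ) : Fin (ncol r) := xcol (tm r (s + Q.K * Q.H + Q.H))

/-- The test at the end of a block in the model. -/
noncomputable def Par.zm (f : ℝ → ℝ) (s : ℕ) (θ : Coef (ncol r)) (e : Site r) : ℝ :=
  f (zSite θ e (Q.kEnd r s))

/-- The predicted value: normal around the past-measurable centre. -/
noncomputable def Par.nm (f : ℝ → ℝ) (b : Bool) (s : ℕ) (θ : Coef (ncol r)) (e : Site r) : ℝ :=
  nE (zSite θ (cutAt b (s + Q.K * Q.H) e) (Q.kEnd r s))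
    (vWin Q.β θ (s + Q.K * Q.H) (s + Q.K * Q.H + Q.H) (Q.kEnd r s)) f

/-- The mean of the past tests in the model. -/
noncomputable def Par.fbm (f : ℝ → ℝ) (s : ℕ) (θ : Coef (ncol r)) (e : Site r) : ℝ :=
  (Q.K : ℝ)⁻¹ * ∑ k ∈ range Q.K, f (zSite θ e (xcol (tm r (s + k * Q.H))))

variable (ro : Readout n r)

/-- A function of the cell and the data of a site, at a sample. -/
noncomputable def atS (β : ℝ) (F : Coef (ncol r) → Site r → ℝ) (i : Fin n) (P : Sam n r) : ℝ :=
  F (cellAt ro d P) (sDat β ro d P i)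

/-- The setting of the core at one disorder. -/
structure Ctx (ν : Conf n → ℝ) (net : Finset (Coef (ncol r))) (C L lam m₀ : ℝ) : Prop where
  law : Law (aop n Q.β d) ν
  hn : 1 ≤ n
  norm : NormGood Q.β L lam d
  mem : ∀ P, ro.cell d P ∈ net
  read : ReadOK Q.β ro
  netOK : ∀ θ ∈ net, NetOK C θ
  hW : 0 < Q.W
  hκ : 0 < Q.κ
  hR : 0 < Q.R
  m0 : 0 < m₀
  m1 : m₀ ≤ Q.m₁
  mass : ∀ i, i ∉ S → 0 < nE 0 ((aop n Q.β d)⁻¹ i i) Q.g

/-- The bound of a weight of `m` steps. -/
noncomputable def Par.bw (m₀ : ℝ) (m : ℕ) : ℝ := facB Q.R m₀ ^ m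

variable {Q d S ro} {ν : Conf n → ℝ} {net : Finset (Coef (ncol r))} {C L lam m₀ : ℝ}

theorem Ctx.win (h : Ctx Q d S ro ν net C L lam m₀) {i : Fin n} (hi : i ∉ S) :
    Win (aop n Q.β d) ν S Q.g m₀ Q.m₁ Q.R i :=
  ⟨h.law, hi, continuous_slG _, slG_mem _, h.mass i hi, h.m0, h.m1, h.hR⟩

theorem one_le_bw (m₀ : ℝ) (m : ℕ) : 1 ≤ Q.bw m₀ m := one_le_pow₀ (le_max_left _ _)

theorem Ctx.win_ok (h : Ctx Q d S ro ν net C L lam m₀) :
    WinOK Q.W Q.κ (fun u => Q.g u / Q.m₁) (chiR Q.R) where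
  psi_cont := (continuous_slG _).div_const _
  psi_nonneg u := div_nonneg (slG_mem _ u).1 (h.m0.le.trans h.m1)
  psi_bdd := ⟨1 / Q.m₁, fun u => div_le_div_of_nonneg_right (slG_mem _ u).2 (h.m0.le.trans h.m1)⟩
  psi_mass := by
    have e : nE 0 Q.W (slG Q.κ) = ∫ e, slG Q.κ (√Q.W * e) ∂ProbabilityTheory.gaussianReal 0 1 := by
      simp [nE]
    rw [integral_div, show (∫ e, Q.g (√Q.W * e) ∂ProbabilityTheory.gaussianReal 0 1) = Q.m₁ from e.symm]
    exact div_self (h.m0.trans_le h.m1).ne'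
  chi_cont := continuous_chiR _
  chi_mem := chiR_mem _
  psi_supp u hu := by
    have : Q.g u = 0 := by
      by_contra hne
      have hb : bumpC (u / Q.κ) ≠ 0 := hne
      have := bumpC_supp hb
      rw [abs_div, abs_of_pos h.hκ, div_le_one h.hκ] at this
      linarith
    rw [this, zero_div]
  psi_even u := by simp [Par.g, slG, neg_div, bumpC_even]

theorem Ctx.fac_le (h : Ctx Q d S ro ν net C L lam m₀) (u y : ℝ) (b : Bool) :
    |Q.g u / Q.m₁ * cutW Q.R b y| ≤ facB Q.R m₀ := by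
  refine le_max_of_le_right ?_
  rw [abs_mul, abs_div, abs_of_pos (h.m0.trans_le h.m1),
    abs_of_nonneg (show 0 ≤ Q.g u from (slG_mem _ u).1), abs_of_nonneg (cutW_mem h.hR b y).1,
    div_mul_eq_mul_div]
  exact div_le_div₀ (by unfold cutB; positivity) ((mul_le_of_le_one_left (cutW_mem h.hR b y).1
    (slG_mem _ u).2).trans (cutW_mem h.hR b y).2) h.m0 h.m1

/-- The weight of a window is bounded by a constant of its length. -/
theorem Ctx.wgt_le (h : Ctx Q d S ro ν net C L lam m₀) (i : Fin n) (b : Bool) {m : ℕ} (x : Conf n)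
    (ω : Om n m) :
    0 ≤ wgt (aop n Q.β d) S Q.g Q.m₁ Q.R i b x ω
      ∧ wgt (aop n Q.β d) S Q.g Q.m₁ Q.R i b x ω ≤ Q.bw m₀ m := by
  have hm : 0 < Q.m₁ := h.m0.trans_le h.m1
  have hg : ∀ u, 0 ≤ Q.g u := fun u => (slG_mem _ u).1
  simp only [wgt, winP]
  have hf : ∀ t, 0 ≤ onVal i b (ω t).2 * (sig b ((ω t).1 i + (step0 (aop n Q.β d) S).h i))⁻¹
      * (Q.g (sliceU (step0 (aop n Q.β d) S).A i b (ω t).1) / Q.m₁
        * chiR Q.R ((ω t).1 i + (step0 (aop n Q.β d) S).h i)) := fun t =>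
    mul_nonneg (mul_nonneg (onVal_nonneg _ _ _) (inv_nonneg.2 (sig_nonneg _ _)))
      (mul_nonneg (div_nonneg (slG_mem _ _).1 hm.le) (chiR_mem _ _).1)
  refine ⟨mul_nonneg (onVal_nonneg _ _ _) (prod_nonneg fun t _ => hf t), ?_⟩
  refine (mul_le_of_le_one_left (prod_nonneg fun t _ => hf t) (onVal_le_one i b x)).trans ?_
  refine (prod_le_prod (g := fun _ => facB Q.R m₀) (fun t _ => hf t) fun t _ => ?_).trans_eq
    (by simp [Par.bw])
  refine le_trans (le_of_eq ?_) ((mul_le_of_le_one_left (abs_nonneg _) (onVal_le_one i b (ω t).2)).trans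
    (h.fac_le (sliceU (step0 (aop n Q.β d) S).A i b (ω t).1)
      ((ω t).1 i + (step0 (aop n Q.β d) S).h i) b))
  rw [abs_of_nonneg (mul_nonneg (div_nonneg (hg _) hm.le) (cutW_mem h.hR b _).1), cutW]
  ring

/-- A weight of the model is bounded by the same constant. -/
theorem Ctx.mWin_le (h : Ctx Q d S ro ν net C L lam m₀) (θ : Coef (ncol r)) (b : Bool) {s m : ℕ}
    (hs : s + m ≤ r) (e : Site r) :
    0 ≤ mWin Q.β θ Q.g Q.m₁ Q.R b s m e ∧ mWin Q.β θ Q.g Q.m₁ Q.R b s m e ≤ Q.bw m₀ m := by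
  rw [mWin_form θ b hs]
  have ha : 0 ≤ atB e s b ∧ atB e s b ≤ 1 := by unfold atB; split <;> norm_num
  have hf : ∀ (c u y : ℝ), 0 ≤ c → c ≤ 1 → 0 ≤ c * (Q.g u / Q.m₁ * cutW Q.R b y)
      ∧ c * (Q.g u / Q.m₁ * cutW Q.R b y) ≤ facB Q.R m₀ := fun c u y h0 h1 => by
    have h2 : 0 ≤ Q.g u / Q.m₁ * cutW Q.R b y :=
      mul_nonneg (div_nonneg (slG_mem _ u).1 (h.m0.le.trans h.m1)) (cutW_mem h.hR b y).1
    exact ⟨mul_nonneg h0 h2, (mul_le_of_le_one_left h2 h1).trans ((le_abs_self _).trans (h.fac_le u y b))⟩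
  refine ⟨mul_nonneg ha.1 (prod_nonneg fun t _ => (hf _ _ _ (by split <;> norm_num)
    (by split <;> norm_num)).1), ?_⟩
  refine (mul_le_of_le_one_left (prod_nonneg fun t _ => (hf _ _ _ (by split <;> norm_num)
    (by split <;> norm_num)).1) ha.2).trans ?_
  refine (prod_le_prod (g := fun _ => facB Q.R m₀) (fun t _ => (hf _ _ _ (by split <;> norm_num)
    (by split <;> norm_num)).1) fun t _ => (hf _ _ _ (by split <;> norm_num)
      (by split <;> norm_num)).2).trans_eq (by simp [Par.bw])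

theorem measurable_atB (s : ℕ) (b : Bool) : Measurable fun e : Site r => atB e s b :=
  (measurable_of_finite fun c : Bool => if c = b then (1 : ℝ) else 0).comp
    ((measurable_pi_apply _).comp measurable_fst)

theorem Ctx.bm_mWin (h : Ctx Q d S ro ν net C L lam m₀) (θ : Coef (ncol r)) (b : Bool) {s m : ℕ}
    (hs : s + m ≤ r) : BM (mWin Q.β θ Q.g Q.m₁ Q.R b s m) :=
  ⟨(measurable_atB s b).mul (measurable_winWt h.win_ok.toWinBase _ _ θ b _ _), Q.bw m₀ m,
    fun e => by rw [abs_of_nonneg (h.mWin_le θ b hs e).1]; exact (h.mWin_le θ b hs e).2⟩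

theorem Ctx.bm_atS (h : Ctx Q d S ro ν net C L lam m₀) {F : Coef (ncol r) → Site r → ℝ}
    (hF : ∀ θ ∈ net, BM (F θ)) (i : Fin n) : BM (atS d ro Q.β F i) :=
  bm_cell h.mem h.read (F := fun θ P => F θ (sDat Q.β ro d P i)) fun θ hθ =>
    (hF θ hθ).comp (measurable_sDat h.read i)

theorem measurable_winC (x : Conf n) (s m : ℕ) : Measurable fun ω : Om n r => winC x ω s m :=
  measurable_pi_lambda _ fun t => by
    unfold winC
    split
    · exact measurable_pi_apply _
    · exact measurable_const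

/-- A bounded function of the start and the path, as a function of the sample. -/
theorem bm_path {G : Conf n → Om n r → ℝ} (hG : ∀ x, Measurable (G x)) {B : ℝ}
    (hB : ∀ x ω, |G x ω| ≤ B) : BM fun P : Sam n r => G P.1.1 P.1.2.2 :=
  ⟨(measurable_from_prod_countable_right (f := fun p : Conf n × Om n r => G p.1 p.2) hG).comp
    ((measurable_fst.comp measurable_fst).prodMk
      (measurable_snd.comp (measurable_snd.comp measurable_fst))), B, fun _ => hB _ _⟩

theorem Ctx.bm_wgt (h : Ctx Q d S ro ν net C L lam m₀) {i : Fin n} (hi : i ∉ S) (b : Bool) (s m : ℕ) :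
    BM fun P : Sam n r => wgt (aop n Q.β d) S Q.g Q.m₁ Q.R i b (stAt P.1.1 P.1.2.2 s)
      (winC P.1.1 P.1.2.2 s m) := by
  refine bm_path (G := fun x ω => wgt (aop n Q.β d) S Q.g Q.m₁ Q.R i b (stAt x ω s) (winC x ω s m))
    (fun x => ?_) (B := Q.bw m₀ m) fun x ω => ?_
  · exact (measurable_from_prod_countable_right (f := fun p : Conf n × Om n m =>
      wgt (aop n Q.β d) S Q.g Q.m₁ Q.R i b p.1 p.2) fun z => (h.win hi).measurable_wgt b z).comp
        ((measurable_stAt x s).prodMk (measurable_winC x s m))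
  · rw [abs_of_nonneg (h.wgt_le i b _ _).1]; exact (h.wgt_le i b _ _).2

theorem bm_state (c : Conf n → ℝ) (k : ℕ) :
    BM fun P : Sam n r => c (stAt P.1.1 P.1.2.2 k) :=
  bm_path (G := fun x ω => c (stAt x ω k))
    (fun x => (measurable_of_finite c).comp (measurable_stAt x k)) (B := ∑ z, |c z|)
    fun _ _ => abs_le_sum_abs c _

theorem bm_avgIB {X : Fin n → Bool → Sam n r → ℝ} (hX : ∀ i, i ∉ S → ∀ b, BM (X i b)) :
    BM fun P => avgIB S fun i b => X i b P :=
  bm_cmul (BM.sum _ fun i hi => BM.sum _ fun b _ => hX i (mem_compl.1 hi) b) _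

theorem avgIB_mono {f f' : Fin n → Bool → ℝ} (hf : ∀ i, i ∉ S → ∀ b, f i b ≤ f' i b) :
    avgIB S f ≤ avgIB S f' :=
  mul_le_mul_of_nonneg_left (sum_le_sum fun i hi => sum_le_sum fun b _ => hf i (mem_compl.1 hi) b)
    (inv_nonneg.2 n.cast_nonneg)

theorem avgIB_add (f f' : Fin n → Bool → ℝ) :
    avgIB S (fun i b => f i b + f' i b) = avgIB S f + avgIB S f' := by
  simp only [avgIB, sum_add_distrib, mul_add]

theorem avgIB_sub (f f' : Fin n → Bool → ℝ) :
    avgIB S (fun i b => f i b - f' i b) = avgIB S f - avgIB S f' := by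
  simp only [avgIB, sum_sub_distrib, mul_sub]

theorem avgIB_smul (a : ℝ) (f : Fin n → Bool → ℝ) :
    avgIB S (fun i b => a * f i b) = a * avgIB S f := by
  simp only [avgIB, ← mul_sum]; ring

theorem avgIB_abs (f : Fin n → Bool → ℝ) : |avgIB S f| ≤ avgIB S fun i b => |f i b| := by
  simp only [avgIB]
  rw [abs_mul, abs_inv, Nat.abs_cast]
  exact mul_le_mul_of_nonneg_left ((abs_sum_le_sum_abs _ _).trans
    (sum_le_sum fun i _ => abs_sum_le_sum_abs _ _)) (inv_nonneg.2 n.cast_nonneg)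

theorem samE_avg (hl : Law (aop n Q.β d) ν) {X : Fin n → Bool → Sam n r → ℝ}
    (hX : ∀ i, i ∉ S → ∀ b, BM (X i b)) :
    samE (aop n Q.β d) ν S (fun P => avgIB S fun i b => X i b P)
      = avgIB S fun i b => samE (aop n Q.β d) ν S (X i b) := by
  simp only [avgIB]
  rw [samE_smul hl (BM.sum _ fun i hi => BM.sum _ fun b _ => hX i (mem_compl.1 hi) b),
    samE_sum hl _ fun i hi => BM.sum _ fun b _ => hX i (mem_compl.1 hi) b]
  exact congrArg _ (sum_congr rfl fun i hi => samE_sum hl _ fun b _ => hX i (mem_compl.1 hi) b)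

/-- A function of one window of a sample. -/
theorem samE_win (h : Ctx Q d S ro ν net C L lam m₀) {s m : ℕ} (hs : s + m ≤ r)
    {G : Conf n → Om n m → ℝ} (hG : ∀ x, Measurable (G x)) {B : ℝ} (hB : ∀ x ω, |G x ω| ≤ B) :
    samE (aop n Q.β d) ν S (fun P : Sam n r =>
        G (stAt P.1.1 P.1.2.2 s) (winC P.1.1 P.1.2.2 s m))
      = lawE (pR ν) ν (fun _ : Fin m => step0 (aop n Q.β d) S) G := by
  rw [samE_path h.law (G := fun x ω => G (stAt x ω s) (winC x ω s m)) (fun x =>
    (measurable_from_prod_countable_right (f := fun p : Conf n × Om n m => G p.1 p.2) hG).comp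
      ((measurable_stAt x s).prodMk (measurable_winC x s m))) (fun x ω => hB _ _)]
  simp only [winC_eq _ _ hs]
  exact law_win h.law hs G

end Vale.Agent.P150.Fast.Core
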