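import Mathlib
import Vale.Agent.P150.Fast.Cavity.Core.Blocks

/-!
Exact moments of a block: powers of the sliced kernel up to the error of the windows
(P150, core of M4).
-/

open MeasureTheory Real Finset
open scoped Matrix

namespace Vale.Agent.P150.Fast.Core

variable {n r : ℕ} {Q : Par} {d : Dis n} {S : Finset (Fin n)} {ro : Readout n r} {ν : Conf n → ℝ}
  {net : Finset (Coef (ncol r))} {C L lam m₀ C₀ C₂ : ℝ} {i : Fin n} {b : Bool} {s : ℕ} {f : ℝ → ℝ}

theorem stAt_winC (x : Conf n) (ω : Om n r) {s m k : ℕ} (h : s + m ≤ r) (hk : k ≤ m) :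
    stAt (stAt x ω s) (winC x ω s m) k = stAt x ω (s + k) := by
  rw [winC_eq x ω h, stAt_win x ω h hk]

theorem endAt_winC (x : Conf n) (ω : Om n r) {s m : ℕ} (h : s + m ≤ r) :
    endAt (stAt x ω s) (winC x ω s m) = stAt x ω (s + m) := by
  rw [winC_eq x ω h, endAt_win x ω h]

/-- The two weights are the weight of the long window. -/
theorem wp_wf_eq (P : Sam n r) (i : Fin n) (b : Bool) (hs : s + Q.K * Q.H + Q.H ≤ r) :
    Q.wp d S i b s P * Q.wf d S i b s P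
      = wgt (aop n Q.β d) S Q.g Q.m₁ Q.R i b (stAt P.1.1 P.1.2.2 s)
          (winC P.1.1 P.1.2.2 s (Q.K * Q.H + Q.H)) := by
  have h : s + (Q.K * Q.H + Q.H) ≤ r := by omega
  rw [winC_eq _ _ h, ← winAt_append h, wgt_join, endAt_win]
  simp only [Par.wp, Par.wf]
  rw [winC_eq _ _ (show s + Q.K * Q.H ≤ r by omega), winC_eq _ _ hs]

/-- The mass of a held site. -/
noncomputable def muB (ν : Conf n → ℝ) (i : Fin n) (b : Bool) : ℝ := ∑ x, onVal i b x * ν x

/-- The potential of a test in the sliced chain. -/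
noncomputable def Par.pw (Q : Par) (d : Dis n) (ν : Conf n → ℝ) (S : Finset (Fin n)) (f : ℝ → ℝ)
    (i : Fin n) (b : Bool) (k : ℕ) : ℝ :=
  ip (fun x => onVal i b x * ν x) (fun z => f (zField Q.β d z i))
    (powOp (slK (aop n Q.β d) ν S Q.g i b) k fun z => f (zField Q.β d z i))

/-- The window error of a length. -/
noncomputable def Par.we (Q : Par) (d : Dis n) (ν : Conf n → ℝ) (S : Finset (Fin n)) (C : ℝ) (m : ℕ)
    (i : Fin n) (b : Bool) : ℝ :=
  wErr (aop n Q.β d) ν S Q.g Q.m₁ Q.R C m i b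

theorem Ctx.bm_wp (h : Ctx Q d S ro ν net C L lam m₀) (hi : i ∉ S) : BM (Q.wp (r := r) d S i b s) :=
  h.bm_wgt hi b _ _

theorem Ctx.bm_wf (h : Ctx Q d S ro ν net C L lam m₀) (hi : i ∉ S) : BM (Q.wf (r := r) d S i b s) :=
  h.bm_wgt hi b _ _

theorem bm_fz (f : ℝ → ℝ) (k : ℕ) : BM (Q.fz (r := r) d f i k) :=
  bm_state (fun z => f (zField Q.β d z i)) k

theorem bm_fbar (f : ℝ → ℝ) (s : ℕ) : BM (Q.fbar (r := r) d f i s) :=
  bm_cmul (BM.sum _ fun _ _ => bm_fz f _) _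

theorem bm_val (f : ℝ → ℝ) (s : ℕ) : BM (Q.val (r := r) d S ν f i b s) :=
  bm_state (slW (aop n Q.β d) ν S Q.g i b Q.H fun z => f (zField Q.β d z i)) _

theorem bm_nxt (f : ℝ → ℝ) (s : ℕ) :
    BM fun P : Sam n r => Q.nxt d S ν f i b (stAt P.1.1 P.1.2.2 s) :=
  bm_state (Q.nxt d S ν f i b) s

/-- Two times inside a window of a sample. -/
theorem Ctx.pair (h : Ctx Q d S ro ν net C L lam m₀) (hi : i ∉ S) {m : ℕ} {Cm : ℝ}
    (hC : WinC m Q.R m₀ Cm) (hs : s + m ≤ r) {p q : ℕ} (hpq : p ≤ q) (hq : q ≤ m)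
    {a c : Conf n → ℝ} (ha : ∀ x, |a x| ≤ 1) (hc : ∀ x, |c x| ≤ 1) :
    |samE (aop n Q.β d) ν S (fun P : Sam n r =>
        wgt (aop n Q.β d) S Q.g Q.m₁ Q.R i b (stAt P.1.1 P.1.2.2 s) (winC P.1.1 P.1.2.2 s m)
          * a (stAt P.1.1 P.1.2.2 (s + p)) * c (stAt P.1.1 P.1.2.2 (s + q)))
      - ip (fun x => onVal i b x * ν x) a (powOp (slK (aop n Q.β d) ν S Q.g i b) (q - p) c)|
      ≤ Q.we d ν S Cm m i b := by
  have e : ∀ P : Sam n r,
      wgt (aop n Q.β d) S Q.g Q.m₁ Q.R i b (stAt P.1.1 P.1.2.2 s) (winC P.1.1 P.1.2.2 s m)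
          * a (stAt P.1.1 P.1.2.2 (s + p)) * c (stAt P.1.1 P.1.2.2 (s + q))
      = (fun x ω => wgt (aop n Q.β d) S Q.g Q.m₁ Q.R i b x ω * a (stAt x ω p) * c (stAt x ω q))
        (stAt P.1.1 P.1.2.2 s) (winC P.1.1 P.1.2.2 s m) := fun P => by
    simp only [stAt_winC _ _ hs hq, stAt_winC _ _ hs (hpq.trans hq)]
  rw [funext e, samE_win h hs (G := fun x ω =>
    wgt (aop n Q.β d) S Q.g Q.m₁ Q.R i b x ω * a (stAt x ω p) * c (stAt x ω q)) (fun x =>
    (((h.win hi).measurable_wgt b x).mul ((measurable_of_finite a).comp (measurable_stAt x p))).mul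
      ((measurable_of_finite c).comp (measurable_stAt x q))) (B := Q.bw m₀ m) fun x ω => ?_]
  · exact win_two hC (h.win hi) b hpq hq ha hc
  · rw [abs_mul, abs_mul, abs_of_nonneg (h.wgt_le i b x ω).1]
    exact ((mul_le_of_le_one_right (mul_nonneg (h.wgt_le i b x ω).1 (abs_nonneg _)) (hc _)).trans
      (mul_le_of_le_one_right (h.wgt_le i b x ω).1 (ha _))).trans (h.wgt_le i b x ω).2

theorem ip_one_one : ip (fun x => onVal i b x * ν x) (fun _ => (1 : ℝ))
    (powOp (slK (aop n Q.β d) ν S Q.g i b) 0 fun _ => 1) = muB ν i b := by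
  simp [ip, powOp, muB]

theorem Ctx.mass_past (h : Ctx Q d S ro ν net C L lam m₀) (hi : i ∉ S)
    (h0 : WinC (Q.K * Q.H) Q.R m₀ C₀) (hs : s + Q.K * Q.H ≤ r) :
    |samE (aop n Q.β d) ν S (Q.wp (r := r) d S i b s) - muB ν i b|
      ≤ Q.we d ν S C₀ (Q.K * Q.H) i b := by
  have := h.pair (b := b) hi h0 hs (le_refl 0) (Nat.zero_le _) (a := fun _ => 1) (c := fun _ => 1)
    (fun _ => by simp) fun _ => by simp
  simp only [mul_one, Nat.sub_self, ip_one_one] at this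
  exact this

theorem Ctx.mass_long (h : Ctx Q d S ro ν net C L lam m₀) (hi : i ∉ S)
    (h2 : WinC (Q.K * Q.H + Q.H) Q.R m₀ C₂) (hs : s + Q.K * Q.H + Q.H ≤ r) :
    |samE (aop n Q.β d) ν S (fun P : Sam n r => Q.wp d S i b s P * Q.wf d S i b s P) - muB ν i b|
      ≤ Q.we d ν S C₂ (Q.K * Q.H + Q.H) i b := by
  have := h.pair (b := b) hi h2 (show s + (Q.K * Q.H + Q.H) ≤ r by omega) (le_refl 0) (Nat.zero_le _)
    (a := fun _ => 1) (c := fun _ => 1) (fun _ => by simp) fun _ => by simp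
  simp only [mul_one, Nat.sub_self, ip_one_one] at this
  simpa only [wp_wf_eq _ i b hs] using this

/-- The square of the window value. -/
theorem Ctx.val_sq (h : Ctx Q d S ro ν net C L lam m₀) (hi : i ∉ S)
    (h0 : WinC (Q.K * Q.H) Q.R m₀ C₀) (hs : s + Q.K * Q.H ≤ r) (hf : IsTest1 f) :
    |samE (aop n Q.β d) ν S (fun P : Sam n r => Q.wp d S i b s P * Q.val d S ν f i b s P ^ 2)
        - Q.pw d ν S f i b (2 * Q.H)|
      ≤ Q.we d ν S C₀ (Q.K * Q.H) i b := by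
  have hW := (h.win hi).psd b
  set T := powOp (slK (aop n Q.β d) ν S Q.g i b) Q.H fun z => f (zField Q.β d z i)
  have hT : ∀ z, |T z| ≤ 1 := powOp_abs_le hW _ fun z => hf.1 _
  have := h.pair (b := b) hi h0 hs (le_refl (Q.K * Q.H)) le_rfl hT hT
  rw [Nat.sub_self] at this
  have e2 : ip (fun x => onVal i b x * ν x) T (powOp (slK (aop n Q.β d) ν S Q.g i b) 0 T)
      = Q.pw d ν S f i b (2 * Q.H) := by
    rw [two_mul]; exact (powerThm _ _ _ hW _).2.2.1 Q.H Q.H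
  rw [e2] at this
  refine le_trans (le_of_eq ?_) this
  congr 3
  funext P
  have he : endAt (stAt P.1.1 P.1.2.2 s) (winC P.1.1 P.1.2.2 s (Q.K * Q.H))
      = stAt P.1.1 P.1.2.2 (s + Q.K * Q.H) := endAt_winC _ _ hs
  simp only [Par.wp, Par.val, slW]
  rcases onVal_cases i b (stAt P.1.1 P.1.2.2 (s + Q.K * Q.H)) with h' | h'
  · rw [← wgt_end, he, h']; simp
  · have hu : Function.update (stAt P.1.1 P.1.2.2 (s + Q.K * Q.H)) i b
        = stAt P.1.1 P.1.2.2 (s + Q.K * Q.H) := by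
      rw [Function.update_eq_self_iff]
      by_contra hne
      simp [onVal, Ne.symm hne] at h'
    rw [hu]; ring

/-- The past tests against the next one. -/
theorem Ctx.past_next (h : Ctx Q d S ro ν net C L lam m₀) (hi : i ∉ S)
    (h2 : WinC (Q.K * Q.H + Q.H) Q.R m₀ C₂) (hs : s + Q.K * Q.H + Q.H ≤ r) (hf : IsTest1 f)
    (hK : 1 ≤ Q.K) :
    Q.pw d ν S f i b ((Q.K + 1) * Q.H) - Q.we d ν S C₂ (Q.K * Q.H + Q.H) i b
      ≤ samE (aop n Q.β d) ν S (fun P : Sam n r => Q.wp d S i b s P * Q.wf d S i b s P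
          * Q.fbar d f i s P * Q.fz d f i (s + Q.K * Q.H + Q.H) P) := by
  have hK0 : (Q.K : ℝ) ≠ 0 := by exact_mod_cast (by omega : Q.K ≠ 0)
  set X : ℕ → Sam n r → ℝ := fun k P => wgt (aop n Q.β d) S Q.g Q.m₁ Q.R i b (stAt P.1.1 P.1.2.2 s)
      (winC P.1.1 P.1.2.2 s (Q.K * Q.H + Q.H)) * Q.fz d f i (s + k * Q.H) P
        * Q.fz d f i (s + (Q.K * Q.H + Q.H)) P with hX
  have e : (fun P : Sam n r => Q.wp d S i b s P * Q.wf d S i b s P
      * Q.fbar d f i s P * Q.fz d f i (s + Q.K * Q.H + Q.H) P)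
      = fun P => (Q.K : ℝ)⁻¹ * ∑ k ∈ range Q.K, X k P := by
    funext P
    simp only [hX, wp_wf_eq _ i b hs, Par.fbar, mul_sum, sum_mul, Nat.add_assoc]
    exact sum_congr rfl fun k _ => by ring
  have hXb : ∀ k, BM (X k) := fun k => bm_mul' (bm_mul' (h.bm_wgt hi b _ _) (bm_fz f _)) (bm_fz f _)
  rw [e, samE_smul h.law (BM.sum _ fun k _ => hXb k), samE_sum h.law _ fun k _ => hXb k,
    le_inv_mul_iff₀ (by positivity)]
  refine (le_of_eq (by simp [mul_sub] : (Q.K : ℝ) * _ = ∑ _k ∈ range Q.K,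
    (Q.pw d ν S f i b ((Q.K + 1) * Q.H) - Q.we d ν S C₂ (Q.K * Q.H + Q.H) i b))).trans
    (sum_le_sum fun k hk => ?_)
  have hk' : k * Q.H ≤ Q.K * Q.H := Nat.mul_le_mul_right _ (mem_range.1 hk).le
  have hp := h.pair (b := b) hi h2 (show s + (Q.K * Q.H + Q.H) ≤ r by omega)
    (p := k * Q.H) (q := Q.K * Q.H + Q.H) (by omega) le_rfl
    (a := fun z => f (zField Q.β d z i)) (c := fun z => f (zField Q.β d z i))
    (fun _ => hf.1 _) fun _ => hf.1 _
  have hmono : Q.pw d ν S f i b ((Q.K + 1) * Q.H)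
      ≤ Q.pw d ν S f i b (Q.K * Q.H + Q.H - k * Q.H) :=
    (powerThm _ _ _ ((h.win hi).psd b) _).2.1 (by rw [Nat.succ_mul]; omega)
  simp only [Par.pw] at hmono ⊢
  simp only [hX, Par.fz]
  linarith [(abs_le.1 hp).1]

/-- The square of the past tests. -/
theorem Ctx.past_sq (h : Ctx Q d S ro ν net C L lam m₀) (hi : i ∉ S)
    (h0 : WinC (Q.K * Q.H) Q.R m₀ C₀) (hs : s + Q.K * Q.H ≤ r) (hf : IsTest1 f) (hK : 1 ≤ Q.K) :
    samE (aop n Q.β d) ν S (fun P : Sam n r => Q.wp d S i b s P * Q.fbar d f i s P ^ 2)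
      ≤ Q.pw d ν S f i b Q.H + muB ν i b / Q.K + Q.we d ν S C₀ (Q.K * Q.H) i b := by
  have hK0 : (0 : ℝ) < Q.K := by exact_mod_cast hK
  have hW := (h.win hi).psd b
  set F : Conf n → ℝ := fun z => f (zField Q.β d z i) with hF
  set X : ℕ → ℕ → Sam n r → ℝ := fun k l P => Q.wp d S i b s P * F (stAt P.1.1 P.1.2.2 (s + k * Q.H))
      * F (stAt P.1.1 P.1.2.2 (s + l * Q.H)) with hX
  have e : (fun P : Sam n r => Q.wp d S i b s P * Q.fbar d f i s P ^ 2)
      = fun P => ((Q.K : ℝ) ^ 2)⁻¹ * ∑ k ∈ range Q.K, ∑ l ∈ range Q.K, X k l P := by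
    funext P
    simp only [hX, hF, Par.fbar, Par.fz, pow_two, mul_sum, sum_mul]
    refine sum_congr rfl fun k _ => sum_congr rfl fun l _ => by ring
  have hXb : ∀ k l, BM (X k l) := fun k l => bm_mul' (bm_mul' (h.bm_wp hi) (bm_state F _)) (bm_state F _)
  rw [e, samE_smul h.law (BM.sum _ fun k _ => BM.sum _ fun l _ => hXb k l),
    samE_sum h.law _ (fun k _ => BM.sum _ fun l _ => hXb k l), inv_mul_le_iff₀ (by positivity)]
  have hpw : ∀ k, Q.H ≤ k → Q.pw d ν S f i b k ≤ Q.pw d ν S f i b Q.H := fun k hk =>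
    (powerThm _ _ _ hW _).2.1 hk
  have hmu : Q.pw d ν S f i b 0 ≤ muB ν i b := by
    refine sum_le_sum fun x _ => ?_
    simp only [powOp, Function.iterate_zero, id, mul_assoc]
    refine mul_le_mul_of_nonneg_left ?_ (onVal_nonneg i b x)
    refine mul_le_of_le_one_right (h.law.pos x).le ?_
    rw [← pow_two]; exact (sq_le_one_iff_abs_le_one _).2 (hf.1 _)
  have hone : ∀ k l, k < Q.K → l < Q.K → samE (aop n Q.β d) ν S (X k l)
      ≤ Q.pw d ν S f i b Q.H + (if k = l then muB ν i b else 0)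
        + Q.we d ν S C₀ (Q.K * Q.H) i b := by
    intro k l hk hl
    wlog hkl : k ≤ l generalizing k l
    · have := this l k hl hk (le_of_not_ge hkl)
      rw [show X k l = X l k from funext fun P => by simp only [hX]; ring, ite_cond_congr (propext eq_comm)]
      exact this
    have hp := (abs_le.1 (h.pair (b := b) hi h0 hs (p := k * Q.H) (q := l * Q.H)
      (Nat.mul_le_mul_right _ hkl) (Nat.mul_le_mul_right _ hl.le) (a := F) (c := F)
      (fun _ => hf.1 _) fun _ => hf.1 _)).2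
    have hnn : 0 ≤ Q.pw d ν S f i b Q.H := (powerThm _ _ _ hW _).1 _
    simp only [Par.pw] at hpw hmu hnn ⊢
    simp only [hX, Par.wp, hF] at hp ⊢
    rcases eq_or_lt_of_le hkl with rfl | hlt
    · rw [Nat.sub_self] at hp
      rw [if_pos rfl]
      linarith
    · rw [if_neg hlt.ne]
      have := hpw (l * Q.H - k * Q.H) (Nat.le_sub_of_add_le (by
        calc Q.H + k * Q.H = (k + 1) * Q.H := by ring
          _ ≤ l * Q.H := Nat.mul_le_mul_right _ hlt))
      linarith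
  refine (sum_le_sum fun k hk => (samE_sum h.law _ fun l _ => hXb k l).trans_le
    (sum_le_sum fun l hl => hone k l (mem_range.1 hk) (mem_range.1 hl))).trans (le_of_eq ?_)
  simp only [sum_add_distrib, sum_const, card_range, nsmul_eq_mul, sum_ite_eq, mem_range]
  rw [sum_congr rfl (g := fun _ => muB ν i b) fun k hk => if_pos (mem_range.1 hk)]
  simp only [sum_const, card_range, nsmul_eq_mul]
  field_simp

/-- The next window against the sliced chain. -/
theorem Ctx.next_close (h : Ctx Q d S ro ν net C L lam m₀) (hi : i ∉ S)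
    (h0 : WinC (Q.K * Q.H) Q.R m₀ C₀) (h2 : WinC (Q.K * Q.H + Q.H) Q.R m₀ C₂)
    (hs : s + Q.K * Q.H ≤ r) (hf : IsTest1 f) :
    samE (aop n Q.β d) ν S (fun P : Sam n r => Q.wp d S i b s P
        * |Q.nxt d S ν f i b (stAt P.1.1 P.1.2.2 (s + Q.K * Q.H)) - Q.val d S ν f i b s P|)
      ≤ Q.we d ν S C₀ (Q.K * Q.H) i b + Q.we d ν S C₂ (Q.K * Q.H + Q.H) i b := by
  set F : Conf n → ℝ := fun z => |Q.nxt d S ν f i b z
    - slW (aop n Q.β d) ν S Q.g i b Q.H (fun z => f (zField Q.β d z i)) z|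
  have e : ∀ P : Sam n r, Q.wp d S i b s P
      * |Q.nxt d S ν f i b (stAt P.1.1 P.1.2.2 (s + Q.K * Q.H)) - Q.val d S ν f i b s P|
      = (fun x (ω : Om n (Q.K * Q.H)) => wgt (aop n Q.β d) S Q.g Q.m₁ Q.R i b x ω * F (endAt x ω))
        (stAt P.1.1 P.1.2.2 s) (winC P.1.1 P.1.2.2 s (Q.K * Q.H)) := fun P => by
    simp only [endAt_winC _ _ hs]; rfl
  rw [funext e, samE_win h hs (G := fun x (ω : Om n (Q.K * Q.H)) =>
    wgt (aop n Q.β d) S Q.g Q.m₁ Q.R i b x ω * F (endAt x ω)) (fun x =>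
      ((h.win hi).measurable_wgt b x).mul ((measurable_of_finite F).comp (measurable_endAt x)))
    (B := Q.bw m₀ (Q.K * Q.H) * ∑ z, |F z|) fun x ω => ?_]
  · have hw := win_next h0 h2 (h.win hi) b (φ := fun z => f (zField Q.β d z i)) fun z => hf.1 _
    simp only [F, Par.nxt]
    exact hw
  · rw [abs_mul, abs_of_nonneg (h.wgt_le i b x ω).1]
    exact mul_le_mul (h.wgt_le i b x ω).2 (abs_le_sum_abs F _) (abs_nonneg _)
      (zero_le_one.trans (one_le_bw _ _))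

end Vale.Agent.P150.Fast.Core
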