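import Mathlib
import Vale.Agent.P150.Fast.Cavity.Core.Sample
import Vale.Agent.P150.Fast.Cavity.ModelMart

/-!
Martingale tests over disjoint windows, normalised in the model, and what the master inequality
gives for them along a path (P150, core of M4).
-/

open MeasureTheory Real Finset
open scoped Matrix

namespace Vale.Agent.P150.Fast.Core

variable {n r : ℕ} {β W C B lam : ℝ} {net : Finset (Coef (ncol r))}

/-- A family of past-weighted window tests. -/
structure WinTests (r J : ℕ) (B : ℝ) (net : Finset (Coef (ncol r))) (s t : ℕ → ℕ)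
    (φ Z : Coef (ncol r) → ℕ → Site r → ℝ) : Prop where
  st : ∀ j < J, s j ≤ t j
  ts : ∀ j, j + 1 < J → t j ≤ s (j + 1)
  tr : ∀ j < J, t j ≤ r
  Bnn : 0 ≤ B
  φu : ∀ θ ∈ net, ∀ j < J, Upto (s j) (φ θ j)
  φm : ∀ θ ∈ net, ∀ j < J, Measurable (φ θ j)
  φb : ∀ θ ∈ net, ∀ j < J, ∀ d, |φ θ j d| ≤ 1
  Zu : ∀ θ ∈ net, ∀ j < J, Upto (t j) (Z θ j)
  Zm : ∀ θ ∈ net, ∀ j < J, Measurable (Z θ j)
  Zb : ∀ θ ∈ net, ∀ j < J, ∀ d, |Z θ j d| ≤ B

/-- The centred sum of the tests. -/
noncomputable def centred (β W : ℝ) (J : ℕ) (s t : ℕ → ℕ)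
    (φ Z : Coef (ncol r) → ℕ → Site r → ℝ) (θ : Coef (ncol r)) (d : Site r) : ℝ :=
  ∑ j ∈ range J, φ θ j d
    * (Z θ j d - condM β (shift β) W 0 θ true (s j) (t j) (Z θ j) d)

open Classical in
/-- The normalised test. -/
noncomputable def martF (β W B lam : ℝ) (J : ℕ) (net : Finset (Coef (ncol r))) (s t : ℕ → ℕ)
    (φ Z : Coef (ncol r) → ℕ → Site r → ℝ) (free : Bool) (θ : Coef (ncol r)) (d : Site r) : ℝ :=
  if free = true ∧ θ ∈ net then lam * centred β W J s t φ Z θ d - J * (2 * B * lam) ^ 2 else 0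

variable {J : ℕ} {s t : ℕ → ℕ} {φ Z : Coef (ncol r) → ℕ → Site r → ℝ}

theorem centred_bm (hT : WinTests r J B net s t φ Z) {θ : Coef (ncol r)} (hθ : θ ∈ net)
    (hnet : NetOK C θ) : BM (centred β W J s t φ Z θ) ∧
      ∀ d, |centred β W J s t φ Z θ d| ≤ J * (2 * B) := by
  have hb : ∀ j < J, ∀ d, |φ θ j d * (Z θ j d
      - condM β (shift β) W 0 θ true (s j) (t j) (Z θ j) d)| ≤ 2 * B := fun j hj d => by
    have hn := condM_abs_le β (shift β) W 0 true hnet (h := s j) (t := t j)
      (F := Z θ j) ⟨hT.Zm θ hθ j hj, B, hT.Zb θ hθ j hj⟩ (hT.Zb θ hθ j hj) d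
    rw [abs_mul]
    refine (mul_le_of_le_one_left (abs_nonneg _) (hT.φb θ hθ j hj d)).trans
      ((abs_sub _ _).trans ?_)
    linarith [hT.Zb θ hθ j hj d]
  refine ⟨BM.sum _ fun j hj => ?_, fun d => ?_⟩
  · have hj := mem_range.1 hj
    have hZ : BM (Z θ j) := ⟨hT.Zm θ hθ j hj, B, hT.Zb θ hθ j hj⟩
    exact bm_mul' ⟨hT.φm θ hθ j hj, 1, hT.φb θ hθ j hj⟩
      (bm_sub' hZ ((condM_posOp β (shift β) W 0 θ true _ _).bm hZ))
  · refine (abs_sum_le_sum_abs _ _).trans
      ((sum_le_sum fun j hj => hb j (mem_range.1 hj) d).trans ?_)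
    simp

theorem martF_meas (hT : WinTests r J B net s t φ Z) (hC : ∀ θ ∈ net, NetOK C θ) (free : Bool)
    (θ : Coef (ncol r)) : Measurable (martF β W B lam J net s t φ Z free θ) ∧
      ∀ d, |martF β W B lam J net s t φ Z free θ d|
        ≤ |lam| * (J * (2 * B)) + J * (2 * B * lam) ^ 2 := by
  have hB := hT.Bnn
  unfold martF
  by_cases h : free = true ∧ θ ∈ net
  · obtain ⟨hm, hb⟩ := centred_bm (β := β) (W := W) hT h.2 (hC θ h.2)
    simp only [if_pos h]
    refine ⟨(hm.1.const_mul lam).sub_const _, fun d => (abs_sub _ _).trans ?_⟩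
    rw [abs_mul, abs_of_nonneg (by positivity : (0 : ℝ) ≤ J * (2 * B * lam) ^ 2)]
    gcongr
    exact hb d
  · simp only [if_neg h]
    exact ⟨measurable_const, fun d => by simp; positivity⟩

/-- The phases of the martingale. -/
def phase (s t : ℕ → ℕ) : ℕ → ℕ
  | 0 => 0
  | k + 1 => if k % 2 = 0 then s (k / 2) else t (k / 2)

theorem martF_norm (hT : WinTests r J B net s t φ Z) (hC : ∀ θ ∈ net, NetOK C θ) (free : Bool) :
    ∀ θ ∈ net, modE β (shift β) W 0 θ free
      (fun p => exp (martF β W B lam J net s t φ Z free θ p)) ≤ 1 := by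
  classical
  intro θ hθ
  cases free with
  | false =>
    have h := modE_martingale (β := β) (κ := shift β) (W := W) (s := 0) (hC θ hθ) false 0
      (fun _ => 0) (fun j hj => absurd hj (Nat.not_lt_zero j)) (Nat.zero_le r) (fun _ _ => 0)
      (fun _ _ => 0) le_rfl (fun _ _ => upto_const _ _) (fun _ _ => measurable_const)
      (fun _ _ _ => by simp) (fun _ _ => upto_const _ _) (fun _ _ => measurable_const)
      (fun _ _ _ => by simp) 0
    simpa [martF] using h
  | true =>
    set g : ℕ → Site r → ℝ := fun k => if k % 2 = 1 then φ θ (k / 2) else fun _ => 0 with hg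
    set G : ℕ → Site r → ℝ := fun k => if k % 2 = 1 then Z θ (k / 2) else fun _ => 0 with hG
    have hh : ∀ k < 2 * J, phase s t k ≤ phase s t (k + 1) := fun k hk => by
      rcases k with _ | k
      · simp [phase]
      · simp only [phase]
        rcases Nat.mod_two_eq_zero_or_one k with h | h
        · rw [if_pos h, if_neg (by omega), show (k + 1) / 2 = k / 2 by omega]
          exact hT.st _ (by omega)
        · rw [if_neg (by omega), if_pos (by omega), show (k + 1) / 2 = k / 2 + 1 by omega]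
          exact hT.ts _ (by omega)
    have hr : phase s t (2 * J) ≤ r := by
      rcases J with _ | J
      · simp [phase]
      · show (if (2 * J + 1) % 2 = 0 then s ((2 * J + 1) / 2) else t ((2 * J + 1) / 2)) ≤ r
        rw [if_neg (by omega)]
        exact hT.tr _ (by omega)
    have hodd : ∀ k, k % 2 = 1 → phase s t (k + 1) = t (k / 2) ∧ phase s t k = s (k / 2) := by
      intro k hk
      obtain ⟨m, rfl⟩ : ∃ m, k = 2 * m + 1 := ⟨k / 2, by omega⟩
      have e0 : (2 * m + 1) / 2 = m := by omega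
      have e1 : (2 * m) / 2 = m := by omega
      refine ⟨?_, ?_⟩
      · show (if (2 * m + 1) % 2 = 0 then s ((2 * m + 1) / 2) else t ((2 * m + 1) / 2)) = _
        rw [if_neg (by omega)]
      · show (if (2 * m) % 2 = 0 then s ((2 * m) / 2) else t ((2 * m) / 2)) = _
        rw [if_pos (by omega), e0, e1]
    have h := modE_martingale (β := β) (κ := shift β) (W := W) (s := 0) (hC θ hθ) true (2 * J)
      (phase s t) hh hr G g hT.Bnn (fun k hk => ?_) (fun k hk => ?_) (fun k hk d => ?_)
      (fun k hk => ?_) (fun k hk => ?_) (fun k hk d => ?_) lam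
    · refine le_trans (le_of_eq ?_) h
      congr 1
      funext d
      simp only [martF, hθ, and_self, if_true]
      congr 1
      have e : ∀ N, ∑ k ∈ range (2 * N), g k d
          * (G k d - condM β (shift β) W 0 θ true (phase s t k) (phase s t (k + 1)) (G k) d)
          = ∑ j ∈ range N, φ θ j d
            * (Z θ j d - condM β (shift β) W 0 θ true (s j) (t j) (Z θ j) d) := by
        intro N
        induction N with
        | zero => simp
        | succ N ih =>
          rw [show 2 * (N + 1) = 2 * N + 1 + 1 by ring, sum_range_succ, sum_range_succ, ih,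
            sum_range_succ]
          obtain ⟨e1, e2⟩ := hodd (2 * N + 1) (by omega)
          simp only [hg, hG, e1, e2, show (2 * N) % 2 = 0 by omega, show (2 * N + 1) % 2 = 1 by omega,
            show (2 * N + 1) / 2 = N by omega, zero_ne_one, if_false, if_true, zero_mul, add_zero]
      rw [e, centred]
      push_cast
      ring
    all_goals by_cases hk' : k % 2 = 1
    · simp only [hG, if_pos hk', (hodd k hk').1]; exact hT.Zu θ hθ _ (by omega)
    · simp only [hG, if_neg hk']; exact upto_const _ _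
    · simp only [hG, if_pos hk']; exact hT.Zm θ hθ _ (by omega)
    · simp only [hG, if_neg hk']; exact measurable_const
    · simp only [hG, if_pos hk']; exact hT.Zb θ hθ _ (by omega) d
    · simp only [hG, if_neg hk', abs_zero]; exact hT.Bnn
    · simp only [hg, if_pos hk', (hodd k hk').2]; exact hT.φu θ hθ _ (by omega)
    · simp only [hg, if_neg hk']; exact upto_const _ _
    · simp only [hg, if_pos hk']; exact hT.φm θ hθ _ (by omega)
    · simp only [hg, if_neg hk']; exact measurable_const
    · simp only [hg, if_pos hk']; exact hT.φb θ hθ _ (by omega) d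
    · simp [hg, hk']

/-- What the master inequality gives for a family of tests. -/
theorem test_bound {ν : Conf n → ℝ} {d : Dis n} {ro : Readout n r} {S : Finset (Fin n)}
    (h : Law (aop n β d) ν) (hnet : ∀ P, ro.cell d P ∈ net) (hro : ReadOK β ro)
    (hT : WinTests r J B net s t φ Z) (hC : ∀ θ ∈ net, NetOK C θ) (hlam : 0 < lam) {Dt : ℝ}
    (hp : trajE (aop n β d) 0 ν S (siteAvg β ro d S (martF β W B lam J net s t φ Z)) ≤ Dt)
    (hm : trajE (aop n β d) 0 ν S (siteAvg β ro d S (martF β W B (-lam) J net s t φ Z)) ≤ Dt) :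
    |samE (aop n β d) ν S (fun P => (n : ℝ)⁻¹ * ∑ i ∈ Sᶜ,
        centred β W J s t φ Z (cellAt ro d P) (sDat β ro d P i))|
      ≤ (Dt + J * (2 * B * lam) ^ 2) / lam := by
  classical
  set A := aop n β d
  set X : Sam n r → ℝ := fun P => (n : ℝ)⁻¹ * ∑ i ∈ Sᶜ,
    centred β W J s t φ Z (cellAt ro d P) (sDat β ro d P i) with hX
  have hXb : BM X := bm_cmul (BM.sum _ fun i _ => bm_cell hnet hro
    (F := fun θ P => centred β W J s t φ Z θ (sDat β ro d P i)) fun θ hθ =>
      (centred_bm hT hθ (hC θ hθ)).1.comp (measurable_sDat hro i)) _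
  set c := (n : ℝ)⁻¹ * (Sᶜ.card : ℝ) * (J * (2 * B * lam) ^ 2) with hc
  have hc1 : c ≤ J * (2 * B * lam) ^ 2 := by
    refine mul_le_of_le_one_left (by positivity) ?_
    rcases Nat.eq_zero_or_pos n with rfl | hn
    · simp
    rw [inv_mul_le_iff₀ (by exact_mod_cast hn), mul_one]
    exact_mod_cast (card_le_univ _).trans_eq (Fintype.card_fin n)
  have e : ∀ σ : ℝ, (2 * B * σ) ^ 2 = (2 * B * lam) ^ 2 →
      trajE A 0 ν S (siteAvg β ro d S (martF β W B σ J net s t φ Z))
        = σ * samE A ν S X - c := by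
    intro σ hσ
    have e1 : ∀ P : Sam n r, (n : ℝ)⁻¹ * ∑ i, martF β W B σ J net s t φ Z (decide (i ∉ S))
        (ro.cell d P.1) (sDat β ro d P i) = σ * X P + -c := fun P => by
      rw [← sum_subset (subset_univ Sᶜ) (fun i _ hi => by simp [martF, show i ∈ S by simpa using hi])]
      rw [sum_congr rfl fun i hi => show martF β W B σ J net s t φ Z (decide (i ∉ S))
        (ro.cell d P.1) (sDat β ro d P i) = σ * centred β W J s t φ Z (cellAt ro d P)
          (sDat β ro d P i) - J * (2 * B * lam) ^ 2 by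
        simp [martF, mem_compl.1 hi, hnet P.1, cellAt, hσ]]
      rw [sum_sub_distrib, ← mul_sum, sum_const, nsmul_eq_mul, hX, hc]
      ring
    have e2 : trajE A 0 ν S (siteAvg β ro d S (martF β W B σ J net s t φ Z))
        = samE A ν S fun P => σ * X P + -c := by
      rw [samE]
      congr 1
      funext P
      rw [siteAvg, ← integral_const_mul]
      exact integral_congr_ae (ae_of_all _ fun q => e1 (P, q))
    rw [e2, samE_add h (bm_cmul hXb σ) (BM.const _), samE_smul h hXb, samE_const h]
    ring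
  rw [e lam rfl] at hp
  rw [e (-lam) (by ring)] at hm
  rw [le_div_iff₀ hlam, ← abs_of_pos hlam, ← abs_mul, abs_of_pos hlam, abs_le]
  constructor <;> linarith

end Vale.Agent.P150.Fast.Core
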