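import Mathlib
import Vale.Agent.P150.Fast.Cavity.Core.Blocks
import Vale.Agent.P150.Fast.Cavity.Core.Tests

/-!
The model side of a block: what is known at the present, the value of the next window, and the three
families of martingale tests (P150, core of M4).
-/

open MeasureTheory Real Finset
open scoped Matrix

namespace Vale.Agent.P150.Fast.Core

variable {n r : ℕ} {Q : Par} {d : Dis n} {S : Finset (Fin n)} {ro : Readout n r} {ν : Conf n → ℝ}
  {net : Finset (Coef (ncol r))} {C L lam m₀ : ℝ} {θ : Coef (ncol r)} {f : ℝ → ℝ} {s : ℕ} {b : Bool}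

/-- The start of block `j`. -/
def Par.blk (Q : Par) (j : ℕ) : ℕ := j * ((Q.K + 1) * Q.H)

/-- The error of a window through the gain of its noises. -/
noncomputable def Par.mg (Q : Par) (s : ℕ) (θ : Coef (ncol r)) : ℝ :=
  min 2 (Q.κ * √(winGam θ (Q.kEnd r s) (s + Q.K * Q.H) (s + Q.K * Q.H + Q.H)))

theorem Par.mg_mem (hκ : 0 < Q.κ) (s : ℕ) (θ : Coef (ncol r)) : 0 ≤ Q.mg s θ ∧ Q.mg s θ ≤ 2 :=
  ⟨le_min zero_le_two (mul_nonneg hκ.le (sqrt_nonneg _)), min_le_left _ _⟩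

theorem Par.blk_succ (Q : Par) (j : ℕ) :
    Q.blk (j + 1) = Q.blk j + Q.K * Q.H + Q.H := by simp [Par.blk]; ring

theorem Par.blk_le (Q : Par) {j J : ℕ} (hj : j < J) (hr : Q.blk J ≤ r) :
    Q.blk j + Q.K * Q.H + Q.H ≤ r := by
  rw [← Q.blk_succ]
  exact le_trans (Nat.mul_le_mul_right _ hj) hr

theorem testOK_of (hf : IsTest1 f) : TestOK fun u _ : ℝ => f u :=
  ⟨fun u _ => hf.1 u, fun u _ u' _ => (hf.2 u u').trans (le_add_of_nonneg_right (abs_nonneg _))⟩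

theorem atB_mem (e : Site r) (s : ℕ) (b : Bool) : 0 ≤ atB e s b ∧ atB e s b ≤ 1 := by
  unfold atB; split <;> norm_num

theorem atB_upto (s : ℕ) (b : Bool) : Upto s fun e : Site r => atB e s b := fun e e' h _ _ => by
  simp only [atB, h ⟨min s r, Nat.lt_succ_of_le (min_le_right s r)⟩ (min_le_left s r)]

theorem mWin_upto (hθ : NetOK C θ) (g : ℝ → ℝ) (m₁ : ℝ) (b : Bool) (s m : ℕ) :
    Upto (s + m) (mWin Q.β θ g m₁ Q.R b s m) := fun e e' h1 h2 h3 => by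
  simp only [mWin, winWt_upto hθ _ _ b _ _ s (s + m) e e' h1 h2 h3,
    ((atB_upto s b).mono (Nat.le_add_right s m)) e e' h1 h2 h3]

/-- A window that has weight holds the spin at its end. -/
theorem mWin_end (g : ℝ → ℝ) (m₁ : ℝ) (b : Bool) {s m : ℕ} (hs : s + m ≤ r) (e : Site r) :
    mWin Q.β θ g m₁ Q.R b s m e * atB e (s + m) b = mWin Q.β θ g m₁ Q.R b s m e := by
  rw [mWin_form θ b hs]
  cases m with
  | zero =>
    rw [Finset.univ_eq_empty, prod_empty, mul_one, Nat.add_zero]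
    unfold atB; split <;> simp
  | succ m =>
    rw [Fin.prod_univ_castSucc]
    have e1 : atB e (s + (m + 1)) b
        = if e.1 ⟨s + (Fin.last m).1 + 1, by simp; omega⟩ = b then 1 else 0 := by
      have h5 : (⟨min (s + (m + 1)) r, Nat.lt_succ_of_le (min_le_right _ r)⟩ : Fin (r + 1))
          = ⟨s + (Fin.last m).1 + 1, by simp; omega⟩ :=
        Fin.ext (show min (s + (m + 1)) r = s + m + 1 by omega)
      simp only [atB, h5]
    rw [e1]
    split <;> simp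

theorem zm_upto (hθ : NetOK C θ) (f : ℝ → ℝ) {k : ℕ} (hk : k ≤ r) :
    Upto k fun e : Site r => f (zSite θ e (xcol (tm r k))) := fun e e' h1 h2 h3 => by
  simp only
  rw [zSite_congr hθ (fun i hi => h1 i (by simp [xcol, tm_val hk] at hi; omega))
    (fun i hi => h2 i (by simp [xcol, tm_val hk] at hi; omega))
    fun l hl => h3 l (by have := Fin.le_def.1 hl; simp [xcol, tm_val hk] at this; omega)]

theorem nm_facts (hf : IsTest1 f) (b : Bool) (s : ℕ) (θ : Coef (ncol r)) :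
    BM (Q.nm f b s θ) ∧ Upto (s + Q.K * Q.H) (Q.nm f b s θ) ∧ ∀ e, |Q.nm f b s θ e| ≤ 1 := by
  refine ⟨mean_bm (testOK_of hf) ((measurable_zSite θ _).comp (measurable_cutAt b _))
    (measurable_const (a := (0 : ℝ))) _, fun e e' h1 h2 h3 => ?_, fun e => abs_nE_le_one hf.1 _ _⟩
  simp only [Par.nm, cutAt_upto (θ := θ) b (s + Q.K * Q.H) (Q.kEnd r s) e e' h1 h2 h3]

theorem fbm_facts (hθ : NetOK C θ) (hf : IsTest1 f) (hs : s + Q.K * Q.H ≤ r) :
    BM (Q.fbm f s θ) ∧ Upto (s + Q.K * Q.H) (Q.fbm f s θ) ∧ ∀ e, |Q.fbm f s θ e| ≤ 1 := by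
  have hk : ∀ k ∈ range Q.K, s + k * Q.H ≤ s + Q.K * Q.H := fun k hk =>
    Nat.add_le_add_left (Nat.mul_le_mul_right _ (mem_range.1 hk).le) s
  have hb : ∀ e, |Q.fbm f s θ e| ≤ 1 := fun e => by
    rw [Par.fbm, abs_mul, abs_inv, Nat.abs_cast]
    rcases Nat.eq_zero_or_pos Q.K with h | h
    · simp [h]
    rw [inv_mul_le_iff₀ (by exact_mod_cast h), mul_one]
    exact (abs_sum_le_sum_abs _ _).trans ((sum_le_sum fun k _ => hf.1 _).trans_eq (by simp))
  refine ⟨⟨Measurable.const_mul (Finset.measurable_fun_sum _ fun k _ =>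
    (continuous_of_lip hf.2).measurable.comp (measurable_zSite θ _)) _, 1, hb⟩,
    fun e e' h1 h2 h3 => ?_, hb⟩
  simp only [Par.fbm]
  congr 1
  exact sum_congr rfl fun k hk' => ((zm_upto hθ f ((hk k hk').trans hs)).mono (hk k hk')) e e' h1 h2 h3

theorem Ctx.bm_zm (hf : IsTest1 f) (s : ℕ) (θ : Coef (ncol r)) : BM (Q.zm f s θ) :=
  ⟨(continuous_of_lip hf.2).measurable.comp (measurable_zSite θ _), 1, fun _ => hf.1 _⟩

/-- The window value in the model, on the event that the spin is held at the present. -/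
theorem Ctx.window_value (h : Ctx Q d S ro ν net C L lam m₀) (hθ : θ ∈ net) (hf : IsTest1 f)
    (hs : s + Q.K * Q.H + Q.H ≤ r) (b : Bool) (e : Site r) :
    |condM Q.β (shift Q.β) Q.W 0 θ true (s + Q.K * Q.H) (s + Q.K * Q.H + Q.H)
        (Q.fm b s θ * Q.zm f s θ) e - atB e (s + Q.K * Q.H) b * Q.nm f b s θ e|
      ≤ atB e (s + Q.K * Q.H) b
          - condM Q.β (shift Q.β) Q.W 0 θ true (s + Q.K * Q.H) (s + Q.K * Q.H + Q.H) (Q.fm b s θ) e
        + atB e (s + Q.K * Q.H) b * Q.mg s θ := by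
  set hh := s + Q.K * Q.H
  have hC := h.netOK θ hθ
  set w := winWt (shift Q.β) 0 θ b (fun u => Q.g u / Q.m₁) (chiR Q.R) hh (hh + Q.H) with hw
  set a : Site r → ℝ := fun e => atB e hh b
  have hf1 : Q.fm b s θ = a * w := rfl
  have hf2 : Q.fm b s θ * Q.zm f s θ = a * (w * Q.zm f s θ) := by rw [hf1, mul_assoc]
  rw [hf2, hf1, condM_pull _ _ _ _ θ true (atB_upto hh b), condM_pull _ _ _ _ θ true (atB_upto hh b)]
  simp only [Pi.mul_apply]
  obtain ⟨h0, h1, h2⟩ := condM_window (β := Q.β) (κ := shift Q.β) (s := 0) (θ := θ) (h := hh)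
    (Φ := fun u _ => f u) (g := fun _ : Site r => (0 : ℝ)) hC h.hκ.le b h.win_ok
    (t := tm r (hh + Q.H)) (by rw [tm_val hs]; omega) (fun u _ => hf.1 u)
    (fun u v u' v' => (hf.2 u u').trans (le_add_of_nonneg_right (abs_nonneg _)))
    (upto_const _ _) measurable_const e
  rw [tm_val hs] at h0 h1 h2
  rw [← mul_sub, ← mul_one_sub, ← mul_add, abs_mul, abs_of_nonneg (atB_mem e hh b).1]
  refine mul_le_mul_of_nonneg_left ?_ (atB_mem e hh b).1
  have hN : |Q.nm f b s θ e| ≤ 1 := abs_nE_le_one hf.1 _ _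
  have hcw : |condM Q.β (shift Q.β) Q.W 0 θ true hh (hh + Q.H) (w * Q.zm f s θ) e|
      ≤ condM Q.β (shift Q.β) Q.W 0 θ true hh (hh + Q.H) w e := by
    have hwb : BM w := by
      obtain ⟨M, hM⟩ := (h.bm_mWin θ b (s := hh) (m := Q.H) hs).2
      refine ⟨measurable_winWt h.win_ok.toWinBase _ _ θ b _ _, facB Q.R m₀ ^ Q.H, fun d => ?_⟩
      rw [hw, winWt_range hs, abs_prod]
      refine (prod_le_prod (g := fun _ => facB Q.R m₀) (fun t _ => abs_nonneg _) fun t _ => ?_).trans_eq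
        (by simp)
      simp only [winF]
      split
      · have h4 := h.fac_le (d.2.1 (Fin.succ ⟨hh + t.1, by omega⟩))
          (ySite (shift Q.β) 0 θ d ⟨hh + t.1, by omega⟩) b
        rw [cutW] at h4
        refine le_trans (le_of_eq ?_) h4
        congr 1
        ring
      · simp only [zero_mul, abs_zero]; exact zero_le_one.trans (le_max_left _ _)
    refine (condM_posOp _ _ _ _ θ true _ _).abs_map_le (hwb.mul (Ctx.bm_zm hf s θ)) hwb (fun d => ?_) e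
    rw [Pi.mul_apply, abs_mul]
    refine (mul_le_of_le_one_right (abs_nonneg _) (hf.1 _)).trans (le_of_eq (abs_of_nonneg ?_))
    exact prod_nonneg fun t _ => by
      simp only [winF]
      split
      · exact mul_nonneg (inv_nonneg.2 (sig_nonneg _ _))
          (mul_nonneg (h.win_ok.psi_nonneg _) (chiR_mem _ _).1)
      · simp
  have h3 : |condM Q.β (shift Q.β) Q.W 0 θ true hh (hh + Q.H) (w * Q.zm f s θ) e - Q.nm f b s θ e|
      ≤ 2 := (abs_sub _ _).trans (by linarith)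
  rcases le_total 2 (Q.κ * √(winGam θ (Q.kEnd r s) hh (hh + Q.H))) with hc | hc
  · refine h3.trans ?_
    rw [Par.mg, min_eq_left hc]
    linarith
  · rw [Par.mg, min_eq_right hc]
    exact h2

/-- The three families of tests: the predicted value, no test, the past tests. -/
noncomputable def Par.phiT (Q : Par) (m₀ : ℝ) (f : ℝ → ℝ) (b : Bool) : Fin 3 → Coef (ncol r) → ℕ →
    Site r → ℝ
  | 0, θ, j, e => Q.wm b (Q.blk j) θ e * Q.nm f b (Q.blk j) θ e / Q.bw m₀ (Q.K * Q.H)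
  | 1, θ, j, e => Q.wm b (Q.blk j) θ e / Q.bw m₀ (Q.K * Q.H)
  | 2, θ, j, e => Q.wm b (Q.blk j) θ e * Q.fbm f (Q.blk j) θ e / Q.bw m₀ (Q.K * Q.H)

/-- Their next windows. -/
noncomputable def Par.zT (Q : Par) (f : ℝ → ℝ) (b : Bool) : Fin 3 → Coef (ncol r) → ℕ → Site r → ℝ
  | 1, θ, j, e => Q.fm b (Q.blk j) θ e
  | _, θ, j, e => Q.fm b (Q.blk j) θ e * Q.zm f (Q.blk j) θ e

theorem Ctx.tests (h : Ctx Q d S ro ν net C L lam m₀) (hf : IsTest1 f) (b : Bool) {J : ℕ}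
    (hr : Q.blk J ≤ r) (a : Fin 3) :
    WinTests r J (Q.bw m₀ Q.H) net (fun j => Q.blk j + Q.K * Q.H)
      (fun j => Q.blk j + Q.K * Q.H + Q.H) (Q.phiT m₀ f b a) (Q.zT f b a) := by
  have hB : (1 : ℝ) ≤ Q.bw m₀ (Q.K * Q.H) := one_le_bw _ _
  have hW : ∀ θ ∈ net, ∀ j < J, BM (Q.wm b (Q.blk j) θ) ∧
      Upto (Q.blk j + Q.K * Q.H) (Q.wm b (Q.blk j) θ) ∧
      ∀ e, |Q.wm b (Q.blk j) θ e| ≤ Q.bw m₀ (Q.K * Q.H) := fun θ hθ j hj => by
    have := Q.blk_le hj hr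
    refine ⟨h.bm_mWin θ b (by omega), mWin_upto (h.netOK θ hθ) _ _ b _ _, fun e => ?_⟩
    rw [Par.wm, abs_of_nonneg (h.mWin_le θ b (by omega) e).1]
    exact (h.mWin_le θ b (by omega) e).2
  have hF : ∀ θ ∈ net, ∀ j < J, BM (Q.fm b (Q.blk j) θ) ∧
      Upto (Q.blk j + Q.K * Q.H + Q.H) (Q.fm b (Q.blk j) θ) ∧
      ∀ e, |Q.fm b (Q.blk j) θ e| ≤ Q.bw m₀ Q.H := fun θ hθ j hj => by
    have := Q.blk_le hj hr
    refine ⟨h.bm_mWin θ b this, mWin_upto (h.netOK θ hθ) _ _ b _ _, fun e => ?_⟩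
    rw [Par.fm, abs_of_nonneg (h.mWin_le θ b this e).1]
    exact (h.mWin_le θ b this e).2
  have hdiv : ∀ x y : ℝ, |x| ≤ Q.bw m₀ (Q.K * Q.H) → |y| ≤ 1 →
      |x * y / Q.bw m₀ (Q.K * Q.H)| ≤ 1 := fun x y hx hy => by
    rw [abs_div, abs_mul, abs_of_pos (zero_lt_one.trans_le hB), div_le_one (zero_lt_one.trans_le hB)]
    exact (mul_le_of_le_one_right (abs_nonneg _) hy).trans hx
  have hφ : ∀ θ ∈ net, ∀ j < J, Measurable (Q.phiT m₀ f b a θ j) ∧
      Upto (Q.blk j + Q.K * Q.H) (Q.phiT m₀ f b a θ j) ∧ ∀ e, |Q.phiT m₀ f b a θ j e| ≤ 1 := by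
    intro θ hθ j hj
    obtain ⟨w1, w2, w3⟩ := hW θ hθ j hj
    have := Q.blk_le hj hr
    obtain ⟨n1, n2, n3⟩ := nm_facts (Q := Q) hf b (Q.blk j) θ
    obtain ⟨f1, f2, f3⟩ := fbm_facts (Q := Q) (h.netOK θ hθ) hf (s := Q.blk j) (by omega)
    fin_cases a
    · exact ⟨(w1.1.mul n1.1).div_const _, Upto.map₂ (fun x y => x * y / Q.bw m₀ (Q.K * Q.H)) w2 n2,
        fun e => hdiv _ _ (w3 e) (n3 e)⟩
    · refine ⟨w1.1.div_const _, Upto.map₂ (fun x _ => x / Q.bw m₀ (Q.K * Q.H)) w2 w2, fun e => ?_⟩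
      simpa [Par.phiT] using hdiv _ 1 (w3 e) (by simp)
    · exact ⟨(w1.1.mul f1.1).div_const _, Upto.map₂ (fun x y => x * y / Q.bw m₀ (Q.K * Q.H)) w2 f2,
        fun e => hdiv _ _ (w3 e) (f3 e)⟩
  have hZ : ∀ θ ∈ net, ∀ j < J, Measurable (Q.zT f b a θ j) ∧
      Upto (Q.blk j + Q.K * Q.H + Q.H) (Q.zT f b a θ j) ∧
      ∀ e, |Q.zT f b a θ j e| ≤ Q.bw m₀ Q.H := by
    intro θ hθ j hj
    obtain ⟨w1, w2, w3⟩ := hF θ hθ j hj
    have := Q.blk_le hj hr
    have z2 := zm_upto (h.netOK θ hθ) f (k := Q.blk j + Q.K * Q.H + Q.H) this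
    have z3 : ∀ e, |Q.fm b (Q.blk j) θ e * Q.zm f (Q.blk j) θ e| ≤ Q.bw m₀ Q.H := fun e => by
      rw [abs_mul]
      exact (mul_le_of_le_one_right (abs_nonneg _) (hf.1 _)).trans (w3 e)
    fin_cases a
    · exact ⟨w1.1.mul (Ctx.bm_zm hf _ θ).1, Upto.map₂ (fun x y => x * y) w2 z2, z3⟩
    · exact ⟨w1.1, w2, w3⟩
    · exact ⟨w1.1.mul (Ctx.bm_zm hf _ θ).1, Upto.map₂ (fun x y => x * y) w2 z2, z3⟩
  exact ⟨fun j _ => Nat.le_add_right _ _,
    fun j _ => show _ ≤ _ from (Q.blk_succ j).symm.trans_le (Nat.le_add_right _ _),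
    fun j hj => Q.blk_le hj hr, zero_le_one.trans (one_le_bw _ _),
    fun θ hθ j hj => (hφ θ hθ j hj).2.1, fun θ hθ j hj => (hφ θ hθ j hj).1,
    fun θ hθ j hj => (hφ θ hθ j hj).2.2, fun θ hθ j hj => (hZ θ hθ j hj).2.1,
    fun θ hθ j hj => (hZ θ hθ j hj).1, fun θ hθ j hj => (hZ θ hθ j hj).2.2⟩

end Vale.Agent.P150.Fast.Core
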