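import Mathlib
import Vale.Agent.P150.Fast.Cavity.Core.BlockModel
import Vale.Agent.P150.Fast.Cavity.Core.BlockExact
import Vale.Agent.P150.Fast.Cavity.Smooth

/-!
The next window may be replaced by its mean given the present, also against weights that depend on
the past and on the cell (P150, core of M4).
-/

open MeasureTheory Real Finset
open scoped Matrix

namespace Vale.Agent.P150.Fast.Core

variable {n r : ℕ} {Q : Par} {d : Dis n} {S : Finset (Fin n)} {ro : Readout n r} {ν : Conf n → ℝ}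
  {net : Finset (Coef (ncol r))} {C L lam m₀ : ℝ} {i : Fin n} {b : Bool} {s : ℕ} {f : ℝ → ℝ}

/-- After the past window the next one is averaged given the present. -/
theorem Ctx.samE_next (h : Ctx Q d S ro ν net C L lam m₀) (hi : i ∉ S)
    (hs : s + Q.K * Q.H + Q.H ≤ r) {G : Conf n → Om n Q.H → ℝ}
    (hG : ∀ x, Measurable (G x)) {B : ℝ} (hB : ∀ x ω, |G x ω| ≤ B) :
    samE (aop n Q.β d) ν S (fun P : Sam n r => Q.wp d S i b s P
        * G (stAt P.1.1 P.1.2.2 (s + Q.K * Q.H)) (winC P.1.1 P.1.2.2 (s + Q.K * Q.H) Q.H))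
      = samE (aop n Q.β d) ν S (fun P : Sam n r => Q.wp d S i b s P
        * pathE (pR ν) (fun _ : Fin Q.H => step0 (aop n Q.β d) S) (stAt P.1.1 P.1.2.2 (s + Q.K * Q.H))
            (G (stAt P.1.1 P.1.2.2 (s + Q.K * Q.H)))) := by
  set m := Q.K * Q.H with hm
  set A := aop n Q.β d
  set w : Conf n → Om n m → ℝ := fun x ω => wgt A S Q.g Q.m₁ Q.R i b x ω
  set PG : Conf n → ℝ := fun z => pathE (pR ν) (fun _ : Fin Q.H => step0 A S) z (G z)
  have hwm : ∀ x, Measurable (w x) := fun x => (h.win hi).measurable_wgt b x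
  have hwb : ∀ x ω, |w x ω| ≤ Q.bw m₀ m := fun x ω => by
    rw [abs_of_nonneg (h.wgt_le i b x ω).1]; exact (h.wgt_le i b x ω).2
  have h0 : 0 + m ≤ m + Q.H := by omega
  have h1 : m + Q.H ≤ m + Q.H := le_rfl
  set G2 : Conf n → Om n (m + Q.H) → ℝ := fun x ω => w x (winAt h0 ω) * G (stAt x ω m) (winAt h1 ω)
  have e1 : ∀ P : Sam n r, Q.wp d S i b s P
      * G (stAt P.1.1 P.1.2.2 (s + m)) (winC P.1.1 P.1.2.2 (s + m) Q.H)
      = G2 (stAt P.1.1 P.1.2.2 s) (winC P.1.1 P.1.2.2 s (m + Q.H)) := fun P => by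
    have hl : s + (m + Q.H) ≤ r := by omega
    simp only [G2, winC_eq _ _ hl, stAt_win _ _ hl (Nat.le_add_right m Q.H), Par.wp, w,
      winC_eq _ _ (show s + Q.K * Q.H ≤ r by omega), winC_eq _ _ (show s + m + Q.H ≤ r by omega)]
    congr 2
    · funext t; simp [winAt]
    · funext t; simp [winAt, Nat.add_assoc]
  have e2 : ∀ P : Sam n r, Q.wp d S i b s P * PG (stAt P.1.1 P.1.2.2 (s + m))
      = (fun x ω => w x ω * PG (endAt x ω)) (stAt P.1.1 P.1.2.2 s) (winC P.1.1 P.1.2.2 s m) :=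
    fun P => by simp only [endAt_winC _ _ (show s + m ≤ r by omega)]; rfl
  have hG2 : ∀ x, Measurable (G2 x) := fun x =>
    ((hwm x).comp (measurable_winAt h0)).mul
      ((measurable_from_prod_countable_right (f := fun p : Conf n × Om n Q.H => G p.1 p.2) hG).comp
        ((measurable_stAt x m).prodMk (measurable_winAt h1)))
  rw [funext e1, samE_win h (show s + (m + Q.H) ≤ r by omega) hG2
    (B := Q.bw m₀ m * B) fun x ω => ?_]
  · rw [funext e2, samE_win h (show s + m ≤ r by omega) (G := fun x ω => w x ω * PG (endAt x ω))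
      (fun x => (hwm x).mul ((measurable_of_finite PG).comp (measurable_endAt x)))
      (B := Q.bw m₀ m * ∑ z, |PG z|) fun x ω => ?_]
    · have e3 : ∀ x (ω : Om n (m + Q.H)), G2 x ω
          = (fun x u v => w x u * G (endAt x u) v) x (winAt h0 ω) (winAt h1 ω) := fun x ω => by
        simp only [G2, endAt_first]
      rw [show G2 = fun x ω => (fun x u v => w x u * G (endAt x u) v) x (winAt h0 ω) (winAt h1 ω) from
        funext fun x => funext (e3 x)]
      rw [law_split h.law h1 h0 fun x u v => w x u * G (endAt x u) v]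
      simp only [lawE]
      refine sum_congr rfl fun x _ => congrArg _ (congrArg _ (funext fun u => ?_))
      have := pathE_affine (fun _ : Fin Q.H => step0 A S) (h.law.ok S) (G (endAt x u)) (hG _) B
        (fun v => hB _ v) (w x u) 0 (endAt x u)
      simpa using this
    · rw [abs_mul]
      exact mul_le_mul (hwb x ω) (abs_le_sum_abs PG _) (abs_nonneg _) (zero_le_one.trans (one_le_bw _ _))
  · rw [abs_mul]
    exact mul_le_mul (hwb _ _) (hB _ _) (abs_nonneg _) (zero_le_one.trans (one_le_bw _ _))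

theorem pathE_sum {m : ℕ} (σ : Fin m → Step n) (hσ : ∀ t, OkStep (pR ν) (σ t)) (T : Finset (Fin n))
    (a : Fin n → ℝ) {X : Fin n → Om n m → ℝ} (hX : ∀ i ∈ T, Measurable (X i)) {M : ℝ}
    (hM : ∀ i ∈ T, ∀ ω, |X i ω| ≤ M) (z : Conf n) :
    pathE (pR ν) σ z (fun ω => ∑ i ∈ T, a i * X i ω) = ∑ i ∈ T, a i * pathE (pR ν) σ z (X i) := by
  classical
  induction T using Finset.induction_on with
  | empty => simpa using pathE_const σ hσ 0 z
  | insert i T hi ih =>
    have hX' := fun j (hj : j ∈ T) => hX j (mem_insert_of_mem hj)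
    have hM' := fun j (hj : j ∈ T) => hM j (mem_insert_of_mem hj)
    simp only [sum_insert hi]
    set B := |a i| * |M| + ∑ j ∈ T, |a j| * |M|
    have hB1 : ∀ ω, |a i * X i ω| ≤ B := fun ω => by
      rw [abs_mul]
      exact le_add_of_le_of_nonneg (mul_le_mul_of_nonneg_left ((hM i (mem_insert_self i T) ω).trans
        (le_abs_self M)) (abs_nonneg _)) (sum_nonneg fun _ _ => by positivity)
    have hB2 : ∀ ω, |∑ j ∈ T, a j * X j ω| ≤ B := fun ω => by
      refine le_add_of_nonneg_of_le (by positivity) ((abs_sum_le_sum_abs _ _).trans ?_)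
      exact sum_le_sum fun j hj => by
        rw [abs_mul]
        exact mul_le_mul_of_nonneg_left ((hM' j hj ω).trans (le_abs_self M)) (abs_nonneg _)
    rw [pathE_add σ hσ _ _ ((hX i (mem_insert_self i T)).const_mul _)
      (Finset.measurable_fun_sum _ fun j hj => (hX' j hj).const_mul _) B hB1 hB2, ih hX' hM']
    congr 1
    have := pathE_affine σ hσ (X i) (hX i (mem_insert_self i T)) M (hM i (mem_insert_self i T)) (a i) 0 z
    simpa using this

/-- The weight as a product of smooth factors. -/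
theorem wgt_fac (A : Matrix (Fin n) (Fin n) ℝ) (i : Fin n) (b : Bool) {m : ℕ} (z : Conf n)
    (v : Om n m) :
    wgt A S (slG Q.κ) Q.m₁ Q.R i b z v
      = onVal i b z * ∏ t, wFac Q.κ Q.R Q.m₁ b ((A⁻¹ *ᵥ (v t).1) i) ((v t).1 i) ((v t).2 i) := by
  simp only [wgt, winP, wFac, cutW, sliceU, step0, Pi.zero_apply, add_zero, onVal]
  congr 1
  exact prod_congr rfl fun t _ => by ring

/-- The test of one window with coefficients read from the past weight and the prediction. -/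
noncomputable def Par.concCoef (Q : Par) (d : Dis n) (S : Finset (Fin n)) (ro : Readout n r)
    (m₀ : ℝ) (f : ℝ → ℝ) (b : Bool) (s : ℕ) (θ : Coef (ncol r)) (P : Sam n r) (i : Fin n) : ℝ :=
  if i ∈ Sᶜ then Q.wp d S i b s P * Q.nm f b s θ (sDat Q.β ro d P i) / Q.bw m₀ (Q.K * Q.H) else 0

/-- The weighted distance of the next window from its mean. -/
noncomputable def Par.nextGap (Q : Par) (d : Dis n) (ν : Conf n → ℝ) (S : Finset (Fin n))
    (ro : Readout n r) (f f' : ℝ → ℝ) (b : Bool) (s : ℕ) (P : Sam n r) : ℝ :=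
  (n : ℝ)⁻¹ * ∑ i ∈ Sᶜ, Q.wp d S i b s P * atS d ro Q.β (Q.nm f b s) i P
    * (Q.nxt d S ν f' i b (stAt P.1.1 P.1.2.2 (s + Q.K * Q.H))
      - Q.wf d S i b s P * Q.fz d f' i (s + Q.K * Q.H + Q.H) P)

theorem Ctx.bm_nextGap (h : Ctx Q d S ro ν net C L lam m₀) (hf : IsTest1 f) (f' : ℝ → ℝ) (b : Bool)
    (s : ℕ) : BM (Q.nextGap d ν S ro f f' b s) :=
  bm_cmul (BM.sum _ fun i hi =>
    bm_mul' (bm_mul' (h.bm_wp (mem_compl.1 hi)) (h.bm_atS (fun θ _ => (nm_facts hf b s θ).1) i))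
      (bm_sub' (bm_nxt f' _) (bm_mul' (h.bm_wf (mem_compl.1 hi)) (bm_fz f' _)))) _

theorem Ctx.gap_key (h : Ctx Q d S ro ν net C L lam m₀) (hs : s + Q.K * Q.H + Q.H ≤ r) (b : Bool)
    {f' : ℝ → ℝ} (hf' : ∀ u, |f' u| ≤ 1) (P : Sam n r) :
    Q.nextGap d ν S ro f f' b s P = Q.bw m₀ (Q.K * Q.H)
      * (pastMean Q.β d ν S (fun (_ : Fin Q.H) _ => wFac Q.κ Q.R Q.m₁ b) (fun _ => f')
            (Q.concCoef d S ro m₀ f b s (cellAt ro d P) P) (stAt P.1.1 P.1.2.2 (s + Q.K * Q.H))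
        - pastTest Q.β d S (fun (_ : Fin Q.H) _ => wFac Q.κ Q.R Q.m₁ b) (fun _ => f')
            (Q.concCoef d S ro m₀ f b s (cellAt ro d P) P) (stAt P.1.1 P.1.2.2 (s + Q.K * Q.H))
            (winAt hs P.1.2.2)) := by
  set A := aop n Q.β d with hA
  set hh := s + Q.K * Q.H with hhd
  set z := stAt P.1.1 P.1.2.2 hh with hz
  set bw := Q.bw m₀ (Q.K * Q.H) with hbwd
  have hbw : bw ≠ 0 := (zero_lt_one.trans_le (one_le_bw _ _)).ne'
  have he : ∀ i, Q.wp d S i b s P * onVal i b z = Q.wp d S i b s P := fun i => by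
    have := wgt_end (A := A) (S := S) (g := Q.g) (m₁ := Q.m₁) (R := Q.R) (i := i) (b := b)
      (stAt P.1.1 P.1.2.2 s) (winC P.1.1 P.1.2.2 s (Q.K * Q.H))
    rwa [endAt_winC _ _ (show s + Q.K * Q.H ≤ r by omega)] at this
  set a : Fin n → ℝ := fun i => (n : ℝ)⁻¹ * (Q.wp d S i b s P * atS d ro Q.β (Q.nm f b s) i P / bw)
  set X : Fin n → Om n Q.H → ℝ := fun i v =>
    wgt A S Q.g Q.m₁ Q.R i b z v * f' (zField Q.β d (endAt z v) i) with hX
  have hXm : ∀ i ∈ Sᶜ, Measurable (X i) := fun i hi =>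
    ((h.win (mem_compl.1 hi)).measurable_wgt b _).mul
      ((measurable_of_finite fun u => f' (zField Q.β d u i)).comp (measurable_endAt _))
  have hXb : ∀ i ∈ Sᶜ, ∀ v, |X i v| ≤ Q.bw m₀ Q.H := fun i _ v => by
    rw [abs_mul, abs_of_nonneg (h.wgt_le i b _ _).1]
    exact (mul_le_of_le_one_right (h.wgt_le i b _ _).1 (hf' _)).trans (h.wgt_le i b _ _).2
  have hsum : ∀ v : Om n Q.H, pastTest Q.β d S (fun (_ : Fin Q.H) _ => wFac Q.κ Q.R Q.m₁ b)
      (fun _ => f') (Q.concCoef d S ro m₀ f b s (cellAt ro d P) P) z v = ∑ i ∈ Sᶜ, a i * X i v := by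
    intro v
    simp only [pastTest, siteTest, step0, mul_sum]
    rw [← sum_subset (subset_univ Sᶜ) fun i _ hi => by
      simp only [Par.concCoef, if_neg hi, zero_mul, mul_zero]]
    refine sum_congr rfl fun i hi => ?_
    simp only [Par.concCoef, if_pos hi, a, hX, atS, zField]
    rw [show Q.g = slG Q.κ from rfl, wgt_fac]
    conv_lhs => rw [← he i]
    ring
  rw [pastMean, hsum, funext hsum, pathE_sum _ (h.law.ok S) _ a hXm hXb, ← sum_sub_distrib, mul_sum,
    Par.nextGap, mul_sum]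
  refine sum_congr rfl fun i _ => ?_
  simp only [Par.nxt, Par.wf, Par.fz, ← hhd, ← hz, winC_eq _ _ hs, a, hX]
  rw [show endAt z (winAt hs P.1.2.2) = stAt P.1.1 P.1.2.2 (hh + Q.H) from endAt_win _ _ hs]
  field_simp
  simp only [hA]
  ring

/-- Tests close in the sup norm have close means. -/
theorem Ctx.nxt_sub (h : Ctx Q d S ro ν net C L lam m₀) (hi : i ∉ S) (b : Bool) {f f' : ℝ → ℝ}
    {δ : ℝ} (hf : ∀ u, |f u| ≤ 1) (hf' : ∀ u, |f' u| ≤ 1) (hd : ∀ u, |f u - f' u| ≤ δ)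
    (z : Conf n) :
    |Q.nxt d S ν f i b z - Q.nxt d S ν f' i b z| ≤ δ * Q.nxt d S ν (fun _ => 1) i b z := by
  set A := aop n Q.β d with hA
  set σ : Fin Q.H → Step n := fun _ => step0 A S
  have hσ : ∀ t, OkStep (pR ν) (σ t) := h.law.ok S
  have hw0 : ∀ v : Om n Q.H, 0 ≤ wgt A S Q.g Q.m₁ Q.R i b z v
      ∧ wgt A S Q.g Q.m₁ Q.R i b z v ≤ Q.bw m₀ Q.H := fun v => h.wgt_le i b z v
  set X : (ℝ → ℝ) → Om n Q.H → ℝ := fun g v =>
    wgt A S Q.g Q.m₁ Q.R i b z v * g (zField Q.β d (endAt z v) i) with hX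
  have hXm : ∀ g : ℝ → ℝ, Measurable (X g) := fun g => ((h.win hi).measurable_wgt b z).mul
    ((measurable_of_finite fun u => g (zField Q.β d u i)).comp (measurable_endAt z))
  have hXb : ∀ g : ℝ → ℝ, (∀ u, |g u| ≤ 1) → ∀ v, |X g v| ≤ Q.bw m₀ Q.H := fun g hg v => by
    rw [abs_mul, abs_of_nonneg (hw0 v).1]
    exact (mul_le_of_le_one_right (hw0 v).1 (hg _)).trans (hw0 v).2
  have hδ : 0 ≤ δ := (abs_nonneg _).trans (hd 0)
  have a3 := pathE_affine σ hσ (X fun _ => 1) (hXm fun _ => 1) _ (hXb (fun _ => 1) fun _ => by simp) δ 0 z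
  simp only [add_zero] at a3
  have hp : ∀ σ' : ℝ, |σ'| = 1 →
      σ' * (Q.nxt d S ν f i b z - Q.nxt d S ν f' i b z) ≤ δ * Q.nxt d S ν (fun _ => 1) i b z := by
    intro σ' hσ'
    have a1 := pathE_affine σ hσ (X f) (hXm f) _ (hXb f hf) σ' 0 z
    have a2 := pathE_affine σ hσ (X f') (hXm f') _ (hXb f' hf') (-σ') 0 z
    simp only [add_zero] at a1 a2
    have e1 : σ' * (Q.nxt d S ν f i b z - Q.nxt d S ν f' i b z)
        = pathE (pR ν) σ z fun v => σ' * X f v + -σ' * X f' v := by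
      rw [pathE_add σ hσ _ _ ((hXm f).const_mul σ') ((hXm f').const_mul (-σ')) (Q.bw m₀ Q.H)
        (fun v => by rw [abs_mul, hσ', one_mul]; exact hXb f hf v)
        (fun v => by rw [abs_mul, abs_neg, hσ', one_mul]; exact hXb f' hf' v), a1, a2]
      simp only [hX, Par.nxt, σ, hA]
      ring
    rw [e1, show Q.nxt d S ν (fun _ => 1) i b z = pathE (pR ν) σ z (X fun _ => 1) from rfl, ← a3]
    refine pathE_mono σ hσ (fun v => σ' * X f v + -σ' * X f' v) (fun v => δ * X (fun _ => 1) v)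
      (((hXm f).const_mul σ').add ((hXm f').const_mul (-σ')))
      ((hXm fun _ => 1).const_mul δ) ((δ + 2) * Q.bw m₀ Q.H) (fun v => (abs_add_le _ _).trans ?_)
      (fun v => ?_) (fun v => ?_) z
    · show |σ' * X f v| + |-σ' * X f' v| ≤ _
      rw [abs_mul σ' (X f v), abs_mul (-σ') (X f' v), abs_neg, hσ', one_mul, one_mul]
      nlinarith [hXb f hf v, hXb f' hf' v, mul_nonneg hδ (hw0 v).1, (hw0 v).2]
    · rw [abs_mul, abs_of_nonneg hδ]
      linarith [mul_le_mul_of_nonneg_left (hXb (fun _ => 1) (fun _ => by simp) v) hδ,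
        zero_le_one.trans (one_le_bw (Q := Q) m₀ Q.H)]
    · simp only [hX, mul_one]
      refine (le_abs_self _).trans ?_
      rw [show σ' * (wgt A S Q.g Q.m₁ Q.R i b z v * f (zField Q.β d (endAt z v) i))
        + -σ' * (wgt A S Q.g Q.m₁ Q.R i b z v * f' (zField Q.β d (endAt z v) i))
        = σ' * (wgt A S Q.g Q.m₁ Q.R i b z v * (f (zField Q.β d (endAt z v) i)
          - f' (zField Q.β d (endAt z v) i))) by ring, abs_mul, hσ', one_mul, abs_mul,
        abs_of_nonneg (hw0 v).1, mul_comm δ]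
      exact mul_le_mul_of_nonneg_left (hd _) (hw0 v).1
  have p1 := hp 1 (by simp)
  have p2 := hp (-1) (by simp)
  exact abs_le.2 ⟨by linarith, by linarith⟩

/-- The mean weight of the next window is the mean weight of the long one. -/
theorem Ctx.nxt_mass (h : Ctx Q d S ro ν net C L lam m₀) (hi : i ∉ S)
    (hs : s + Q.K * Q.H + Q.H ≤ r) :
    samE (aop n Q.β d) ν S (fun P : Sam n r =>
        Q.wp d S i b s P * Q.nxt d S ν (fun _ => 1) i b (stAt P.1.1 P.1.2.2 (s + Q.K * Q.H)))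
      = samE (aop n Q.β d) ν S (fun P : Sam n r => Q.wp d S i b s P * Q.wf d S i b s P) := by
  have := h.samE_next (b := b) hi hs
    (G := fun z v => wgt (aop n Q.β d) S Q.g Q.m₁ Q.R i b z v * 1)
    (fun z => ((h.win hi).measurable_wgt b z).mul_const 1) (B := Q.bw m₀ Q.H) fun z v => by
      rw [mul_one, abs_of_nonneg (h.wgt_le i b z v).1]; exact (h.wgt_le i b z v).2
  simp only [mul_one] at this
  simp only [Par.nxt, mul_one, Par.wf]
  exact this.symm

/-- **The next window against its mean.** -/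
theorem Ctx.conc_step (h : Ctx Q d S ro ν net C L lam m₀) {B Cc l δ : ℝ}
    (hC : ConcAt Q.H L lam B Cc) (hB1 : (1 + 4 / Q.κ) / m₀ * (cutB Q.R + cutL Q.R) ≤ B)
    (hB2 : max 1 (2 / δ) ≤ B) (hl : 0 < l) (hδ : 0 < δ) (hs : s + Q.K * Q.H + Q.H ≤ r)
    (hf : IsTest1 f) (b : Bool) :
    |samE (aop n Q.β d) ν S (Q.nextGap d ν S ro f f b s)|
      ≤ Q.bw m₀ (Q.K * Q.H) * (net.card * concErr Cc l (s + Q.K * Q.H) Q.H ν (step0 (aop n Q.β d) S))
        + 4 * δ * ((n : ℝ)⁻¹ * ∑ i ∈ Sᶜ, samE (aop n Q.β d) ν S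
          (fun P : Sam n r => Q.wp d S i b s P * Q.wf d S i b s P)) := by
  set hh := s + Q.K * Q.H with hhd
  set fδ := smoothT δ f with hfδ
  have hfs : SmoothBd B fδ := by
    obtain ⟨F', F'', a1, a2, a3, a4⟩ := smoothT_smooth hf.2 hf.1 hδ
    exact ⟨F', F'', a1, a2, a3, fun u =>
      ⟨(a4 u).1.trans hB2, (a4 u).2.1.trans hB2, (a4 u).2.2.trans hB2⟩⟩
  have hfc : ∀ u, |fδ u| ≤ 1 := boxAvg_bdd (boxAvg_bdd hf.1 hδ) hδ
  have hψ : SmoothBd2 B (wFac Q.κ Q.R Q.m₁ b) := by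
    obtain ⟨d₁, d₂, a1, a2, a3⟩ := wFac_smooth h.hκ h.hR h.m0 h.m1 b
    exact ⟨d₁, d₂, a1, a2, fun u v c => ⟨(a3 u v c).1, (a3 u v c).2.1,
      (a3 u v c).2.2.1.trans hB1, (a3 u v c).2.2.2.1.trans hB1, (a3 u v c).2.2.2.2.trans hB1⟩⟩
  set bw := Q.bw m₀ (Q.K * Q.H) with hbwd
  have hbw : 0 < bw := zero_lt_one.trans_le (one_le_bw _ _)
  have hwp : ∀ (i : Fin n) (P : Sam n r), 0 ≤ Q.wp d S i b s P ∧ Q.wp d S i b s P ≤ bw :=
    fun i P => h.wgt_le i b _ _
  have hconc := conc_net (S := S) (m := Q.H) (a := hh) (ψ := fun _ _ => wFac Q.κ Q.R Q.m₁ b)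
    (F := fun _ => fδ) hC hl h.law h.hn h.norm h.mem h.read hs
    ((zero_le_one.trans (le_max_left _ _)).trans hB2) (fun _ _ => hψ) (fun _ => hfs)
    (Q.concCoef d S ro m₀ f b s) (fun θ _ i => ?_) (fun θ _ P => ?_)
    (fun θ _ x g ω ω' q hw => ?_)
  rotate_left
  · simp only [Par.concCoef]
    by_cases hi : i ∈ Sᶜ
    · simp only [if_pos hi]
      exact ((h.bm_wp (b := b) (s := s) (mem_compl.1 hi)).1.mul
        ((nm_facts hf b s θ).1.1.comp (measurable_sDat h.read i))).div_const _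
    · simp only [if_neg hi]; exact measurable_const
  · refine (sum_le_sum (g := fun _ => (1 : ℝ)) fun i _ => ?_).trans_eq (by simp)
    refine (sq_le_one_iff_abs_le_one _).2 ?_
    simp only [Par.concCoef]
    split
    · rw [abs_div, abs_mul, ← hbwd, abs_of_pos hbw, div_le_one hbw, abs_of_nonneg (hwp i P).1]
      exact (mul_le_of_le_one_right (hwp i P).1 ((nm_facts hf b s θ).2.2 _)).trans (hwp i P).2
    · simp
  · funext i
    simp only [Par.concCoef]
    split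
    · congr 1
      have e1 : stAt x ω s = stAt x ω' s := by
        have := state_past (x := x) (g := g) (show 0 + hh ≤ r by omega) hw (b := tm r s)
          (by rw [tm_val (by omega)]; omega)
        simpa only [stateAt_tm] using this
      have e2 : winC x ω s (Q.K * Q.H) = winC x ω' s (Q.K * Q.H) := by
        funext t
        have := t.2
        simp only [winC, dif_pos (show s + t.1 < r by omega)]
        exact win_step (show 0 + hh ≤ r by omega) hw (show s + t.1 < hh by omega)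
      simp only [Par.wp, e1, e2, upto_past (nm_facts hf b s θ).2.1 h.read (show 0 + hh ≤ r by omega) hw i]
    · rfl
  set Y := fun f' => Q.nextGap d ν S ro f f' b s with hY
  have hbm : ∀ f', BM (Y f') := fun f' => h.bm_nextGap hf f' b s
  have h1 : |samE (aop n Q.β d) ν S (Y fδ)|
      ≤ bw * (net.card * concErr Cc l hh Q.H ν (step0 (aop n Q.β d) S)) := by
    refine le_trans ?_ (mul_le_mul_of_nonneg_left hconc hbw.le)
    have e : ∀ P, |pastTest Q.β d S (fun (_ : Fin Q.H) _ => wFac Q.κ Q.R Q.m₁ b) (fun _ => fδ)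
          (Q.concCoef d S ro m₀ f b s (cellAt ro d P) P) (stAt P.1.1 P.1.2.2 hh) (winAt hs P.1.2.2)
        - pastMean Q.β d ν S (fun (_ : Fin Q.H) _ => wFac Q.κ Q.R Q.m₁ b) (fun _ => fδ)
          (Q.concCoef d S ro m₀ f b s (cellAt ro d P) P) (stAt P.1.1 P.1.2.2 hh)|
        = bw⁻¹ * |Y fδ P| := fun P => by
      simp only [hY]
      rw [h.gap_key hs b hfc, abs_mul, ← hbwd, abs_of_pos hbw, ← mul_assoc, inv_mul_cancel₀ hbw.ne',
        one_mul, abs_sub_comm]
    rw [funext e, samE_smul h.law (bm_abs (hbm fδ)), ← mul_assoc, mul_inv_cancel₀ hbw.ne', one_mul]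
    exact samE_abs_le h.law (hbm fδ) (bm_abs (hbm fδ)) fun _ => le_rfl
  set G : Sam n r → ℝ := fun P => (n : ℝ)⁻¹ * ∑ i ∈ Sᶜ, 2 * δ * (Q.wp d S i b s P
    * Q.nxt d S ν (fun _ => 1) i b (stAt P.1.1 P.1.2.2 hh) + Q.wp d S i b s P * Q.wf d S i b s P)
    with hG
  have hGi : ∀ i, i ∉ S → BM fun P : Sam n r => Q.wp d S i b s P
      * Q.nxt d S ν (fun _ => 1) i b (stAt P.1.1 P.1.2.2 hh) + Q.wp d S i b s P * Q.wf d S i b s P :=
    fun i hi => bm_add' (bm_mul' (h.bm_wp hi) (bm_nxt _ _)) (bm_mul' (h.bm_wp hi) (h.bm_wf hi))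
  have hGb : BM G := bm_cmul (BM.sum _ fun i hi => bm_cmul (hGi i (mem_compl.1 hi)) _) _
  have hdiff : ∀ P, |Y f P - Y fδ P| ≤ G P := fun P => by
    simp only [hY, hG, Par.nextGap]
    rw [← mul_sub, ← sum_sub_distrib, abs_mul, abs_inv, Nat.abs_cast]
    refine mul_le_mul_of_nonneg_left ((abs_sum_le_sum_abs _ _).trans (sum_le_sum fun i hi => ?_))
      (inv_nonneg.2 n.cast_nonneg)
    rw [← mul_sub, abs_mul, abs_mul, abs_of_nonneg (hwp i P).1, ← mul_add]
    refine (mul_le_mul (mul_le_of_le_one_right (hwp i P).1 ((nm_facts hf b s _).2.2 _)) ?_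
      (abs_nonneg _) (hwp i P).1).trans (le_of_eq (by ring :
        Q.wp d S i b s P * (2 * δ * (Q.nxt d S ν (fun _ => 1) i b (stAt P.1.1 P.1.2.2 hh)
          + Q.wf d S i b s P)) = _))
    have hwf0 : 0 ≤ Q.wf d S i b s P := (h.wgt_le i b _ _).1
    have h2' : |Q.wf d S i b s P * Q.fz d f i (hh + Q.H) P
        - Q.wf d S i b s P * Q.fz d fδ i (hh + Q.H) P| ≤ Q.wf d S i b s P * (2 * δ) := by
      rw [← mul_sub, abs_mul, abs_of_nonneg hwf0]
      refine mul_le_mul_of_nonneg_left ?_ hwf0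
      rw [abs_sub_comm]; exact smoothT_close hf.2 hδ _
    obtain ⟨p1, p2⟩ := abs_le.1 (h.nxt_sub (mem_compl.1 hi) b hf.1 hfc (δ := 2 * δ)
      (fun u => by rw [abs_sub_comm]; exact smoothT_close hf.2 hδ u) (stAt P.1.1 P.1.2.2 hh))
    obtain ⟨p3, p4⟩ := abs_le.1 h2'
    exact abs_le.2 ⟨by linarith, by linarith⟩
  have h2 : |samE (aop n Q.β d) ν S (Y f) - samE (aop n Q.β d) ν S (Y fδ)|
      ≤ samE (aop n Q.β d) ν S G := by
    rw [← samE_sub h.law (hbm f) (hbm fδ)]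
    exact samE_abs_le h.law (bm_sub' (hbm f) (hbm fδ)) hGb hdiff
  have h3 : samE (aop n Q.β d) ν S G = 4 * δ * ((n : ℝ)⁻¹ * ∑ i ∈ Sᶜ, samE (aop n Q.β d) ν S
      (fun P : Sam n r => Q.wp d S i b s P * Q.wf d S i b s P)) := by
    rw [hG, samE_smul h.law (BM.sum _ fun i hi => bm_cmul (hGi i (mem_compl.1 hi)) _),
      samE_sum h.law _ fun i hi => bm_cmul (hGi i (mem_compl.1 hi)) _, mul_left_comm, ← mul_assoc]
    rw [mul_assoc, mul_sum (a := 4 * δ)]
    refine congrArg _ (sum_congr rfl fun i hi => ?_)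
    rw [samE_smul h.law (hGi i (mem_compl.1 hi)), samE_add h.law
      (bm_mul' (h.bm_wp (mem_compl.1 hi)) (bm_nxt _ _))
      (bm_mul' (h.bm_wp (mem_compl.1 hi)) (h.bm_wf (mem_compl.1 hi))),
      h.nxt_mass (mem_compl.1 hi) hs]
    ring
  show |samE (aop n Q.β d) ν S (Y f)| ≤ _
  rw [← h3]
  have := abs_sub_abs_le_abs_sub (samE (aop n Q.β d) ν S (Y f)) (samE (aop n Q.β d) ν S (Y fδ))
  linarith

end Vale.Agent.P150.Fast.Core
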