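import Mathlib
import Vale.Agent.P150.Fast.Cavity.Core.BlockModel
import Vale.Agent.P150.Fast.Cavity.Core.BlockExact

/-!
The error terms of a block, named (P150, core of M4).
-/

open MeasureTheory Real Finset
open scoped Matrix

namespace Vale.Agent.P150.Fast.Core

variable {n r : ℕ}

/-- The mean window error of a length. -/
noncomputable def Par.eWin (Q : Par) (d : Dis n) (ν : Conf n → ℝ) (S : Finset (Fin n)) (C : ℝ)
    (m : ℕ) : ℝ :=
  avgIB S (Q.we d ν S C m)

/-- The mean clipped reconstruction error. -/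
noncomputable def eBr (β : ℝ) (d : Dis n) (ν : Conf n → ℝ) (S : Finset (Fin n)) (ro : Readout n r)
    (Cb Cl : ℝ) : ℝ :=
  samE (aop n β d) ν S fun P => (n : ℝ)⁻¹ * ∑ i ∈ Sᶜ, min Cb (Cl * zErr β ro d P i)

/-- The mean of one centred test of block `j`, with the normalisation removed. -/
noncomputable def Par.tau (Q : Par) (d : Dis n) (ν : Conf n → ℝ) (S : Finset (Fin n))
    (ro : Readout n r) (m₀ : ℝ) (f : ℝ → ℝ) (b : Bool) (a : Fin 3) (j : ℕ) : ℝ :=
  Q.bw m₀ (Q.K * Q.H) * samE (aop n Q.β d) ν S fun P => (n : ℝ)⁻¹ * ∑ i ∈ Sᶜ,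
    atS d ro Q.β (fun θ e => Q.phiT m₀ f b a θ j e * (Q.zT f b a θ j e
      - condM Q.β (shift Q.β) Q.W 0 θ true (Q.blk j + Q.K * Q.H)
          (Q.blk j + Q.K * Q.H + Q.H) (Q.zT f b a θ j) e)) i P

/-- What the tests contribute to the identity of a block. -/
noncomputable def Par.tauSum (Q : Par) (d : Dis n) (ν : Conf n → ℝ) (S : Finset (Fin n))
    (ro : Readout n r) (m₀ : ℝ) (f : ℝ → ℝ) (j : ℕ) : ℝ :=
  ∑ b : Bool, (-2 * Q.tau d ν S ro m₀ f b 0 j + 4 * Q.tau d ν S ro m₀ f b 1 j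
    + 2 * Q.tau d ν S ro m₀ f b 2 j)

/-- The mean price of the gain of the noises, weighted by the past window. -/
noncomputable def Par.eGain (Q : Par) (d : Dis n) (ν : Conf n → ℝ) (S : Finset (Fin n))
    (ro : Readout n r) (j : ℕ) : ℝ :=
  samE (aop n Q.β d) ν S fun P =>
    avgIB S fun i b => Q.wp d S i b (Q.blk j) P * Q.mg (Q.blk j) (cellAt ro d P)

/-- The distance of the window value from its prediction, squared and weighted by the past. -/
noncomputable def Par.eVal (Q : Par) (d : Dis n) (ν : Conf n → ℝ) (S : Finset (Fin n))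
    (ro : Readout n r) (f : ℝ → ℝ) (j : ℕ) : ℝ :=
  samE (aop n Q.β d) ν S fun P => avgIB S fun i b => Q.wp d S i b (Q.blk j) P
    * (Q.val d S ν f i b (Q.blk j) P - atS d ro Q.β (Q.nm f b (Q.blk j)) i P) ^ 2

/-- The past weights against the fraction of free sites. -/
noncomputable def Par.eMass (Q : Par) (d : Dis n) (ν : Conf n → ℝ) (S : Finset (Fin n)) (r j : ℕ) : ℝ :=
  samE (aop n Q.β d) ν S fun P : Sam n r =>
    |avgIB S (fun i b => Q.wp d S i b (Q.blk j) P) - (n : ℝ)⁻¹ * Sᶜ.card|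

/-- The distance of the variance of a block from `β² (1 - q)`, truncated. -/
noncomputable def Par.eVar (Q : Par) (d : Dis n) (ν : Conf n → ℝ) (S : Finset (Fin n))
    (ro : Readout n r) (j : ℕ) : ℝ :=
  samE (aop n Q.β d) ν S fun P => min 4
    |farR Q.β d 0 ν 0 S Q.H (stAt P.1.1 P.1.2.2 (Q.blk j + Q.K * Q.H))
      - vWin Q.β (cellAt ro d P) (Q.blk j + Q.K * Q.H) (Q.blk j + Q.K * Q.H + Q.H) (Q.kEnd r (Q.blk j))|

end Vale.Agent.P150.Fast.Core
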