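import Mathlib
import Vale.Agent.P150.Fast.Cavity.Core.Errors

/-!
The identity of a block at one site and value: the squared distance of the window value from its
prediction against exact moments, centred tests, and errors (P150, core of M4).
-/

open MeasureTheory Real Finset
open scoped Matrix

namespace Vale.Agent.P150.Fast.Core

variable {n r : ℕ} {Q : Par} {d : Dis n} {S : Finset (Fin n)} {ro : Readout n r} {ν : Conf n → ℝ}
  {net : Finset (Coef (ncol r))} {C L lam m₀ C₀ C₂ : ℝ} {i : Fin n} {b : Bool} {f : ℝ → ℝ} {j : ℕ}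

/-- The cap of the reconstruction error of a block. -/
noncomputable def Par.brB (Q : Par) (m₀ : ℝ) : ℝ := 4 * (Q.bw m₀ (Q.K * Q.H) * Q.bw m₀ Q.H)

/-- The slope of the reconstruction error of a block. -/
noncomputable def Par.brL (Q : Par) (m₀ : ℝ) : ℝ :=
  2 * (winLip Q.R m₀ (Q.K * Q.H) * Q.bw m₀ Q.H + Q.bw m₀ (Q.K * Q.H) * winLip Q.R m₀ Q.H
    + Q.bw m₀ (Q.K * Q.H) * Q.bw m₀ Q.H)

theorem winLip_nonneg (hR : 0 < Q.R) (hm : 0 < m₀) (m : ℕ) : 0 ≤ winLip Q.R m₀ m := by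
  unfold winLip facB cutL cutB; positivity

theorem Ctx.br_nonneg (h : Ctx Q d S ro ν net C L lam m₀) : 0 ≤ Q.brB m₀ ∧ 0 ≤ Q.brL m₀ := by
  have h1 := one_le_bw (Q := Q) m₀ (Q.K * Q.H)
  have h2 := one_le_bw (Q := Q) m₀ Q.H
  have := winLip_nonneg h.hR h.m0 (Q.K * Q.H)
  have := winLip_nonneg h.hR h.m0 Q.H
  unfold Par.brB Par.brL
  constructor <;> positivity

/-- The algebra of one block. -/
theorem block_alg {wp wf W X N Fb z wm fm zm fb c0 c1 mg e : ℝ} (hwp : 0 ≤ wp) (hN : |N| ≤ 1)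
    (hfb : |fb| ≤ 1) (hwv : |wm * c0 - wm * N| ≤ wm - wm * c1 + wm * mg)
    (d1 : |wm * N * (fm * zm) - wp * N * (wf * z)| ≤ e) (d2 : |wm * N ^ 2 - wp * N ^ 2| ≤ e)
    (d3 : |(wm - wm * fm) - (wp - wp * wf)| ≤ e) (d4 : |wm * mg - wp * mg| ≤ e)
    (d5 : |wm * N * fb - wp * N * Fb| ≤ e) (d6 : |wm * fb * (fm * zm) - wp * Fb * (wf * z)| ≤ e) :
    wp * (W - N) ^ 2 ≤ wp * W ^ 2 + 2 * (wp * |X - W|) - 2 * (wp * N * (X - wf * z))
      + 4 * (wp - wp * wf) + wp * Fb ^ 2 - 2 * (wp * wf * Fb * z)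
      - 2 * (wm * N * (fm * zm - c0)) + 4 * (wm * (fm - c1)) + 2 * (wm * fb * (fm * zm - c0))
      + 4 * (wp * mg) + 20 * e := by
  have q0 : |wp * N * (X - W)| ≤ wp * |X - W| := by
    rw [abs_mul, abs_mul, abs_of_nonneg hwp]
    exact mul_le_mul_of_nonneg_right (mul_le_of_le_one_right hwp hN) (abs_nonneg _)
  have q1 : |N * (wm * c0 - wm * N)| ≤ wm - wm * c1 + wm * mg := by
    rw [abs_mul]; exact (mul_le_of_le_one_left (abs_nonneg _) hN).trans hwv
  have q2 : |fb * (wm * c0 - wm * N)| ≤ wm - wm * c1 + wm * mg := by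
    rw [abs_mul]; exact (mul_le_of_le_one_left (abs_nonneg _) hfb).trans hwv
  have q3 := mul_nonneg hwp (sq_nonneg (Fb - N))
  rw [abs_le] at q0 q1 q2 d1 d2 d3 d4 d5 d6
  linarith

theorem abs_sub_le3 (a b c a' b' c' : ℝ) : |a * b * c - a' * b' * c'|
    ≤ |a - a'| * |b| * |c| + |a'| * |b - b'| * |c| + |a'| * |b'| * |c - c'| := by
  rw [show a * b * c - a' * b' * c'
    = (a - a') * b * c + a' * (b - b') * c + a' * b' * (c - c') by ring]
  refine (abs_add_le _ _).trans (add_le_add ((abs_add_le _ _).trans (le_of_eq ?_)) (le_of_eq ?_))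
  · simp only [abs_mul]
  · simp only [abs_mul]

/-- A centred value of the model at a site. -/
noncomputable def Par.cT (Q : Par) (d : Dis n) (ro : Readout n r) (s : ℕ)
    (Z : Coef (ncol r) → Site r → ℝ) (i : Fin n) (P : Sam n r) : ℝ :=
  atS d ro Q.β (fun θ e => condM Q.β (shift Q.β) Q.W 0 θ true (s + Q.K * Q.H)
    (s + Q.K * Q.H + Q.H) (Z θ) e) i P

/-- The test of the predicted value at a site. -/
noncomputable def Par.t0 (Q : Par) (d : Dis n) (ro : Readout n r) (f : ℝ → ℝ) (b : Bool) (s : ℕ)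
    (i : Fin n) (P : Sam n r) : ℝ :=
  atS d ro Q.β (Q.wm b s) i P * atS d ro Q.β (Q.nm f b s) i P
    * (atS d ro Q.β (Q.fm b s) i P * atS d ro Q.β (Q.zm f s) i P
      - Q.cT d ro s (fun θ => Q.fm b s θ * Q.zm f s θ) i P)

/-- The test of the mass at a site. -/
noncomputable def Par.t1 (Q : Par) (d : Dis n) (ro : Readout n r) (b : Bool) (s : ℕ)
    (i : Fin n) (P : Sam n r) : ℝ :=
  atS d ro Q.β (Q.wm b s) i P * (atS d ro Q.β (Q.fm b s) i P - Q.cT d ro s (Q.fm b s) i P)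

/-- The test of the past tests at a site. -/
noncomputable def Par.t2 (Q : Par) (d : Dis n) (ro : Readout n r) (f : ℝ → ℝ) (b : Bool) (s : ℕ)
    (i : Fin n) (P : Sam n r) : ℝ :=
  atS d ro Q.β (Q.wm b s) i P * atS d ro Q.β (Q.fbm f s) i P
    * (atS d ro Q.β (Q.fm b s) i P * atS d ro Q.β (Q.zm f s) i P
      - Q.cT d ro s (fun θ => Q.fm b s θ * Q.zm f s θ) i P)

/-- Exact against conditional next window at a site. -/
noncomputable def Par.dConc (Q : Par) (d : Dis n) (ν : Conf n → ℝ) (S : Finset (Fin n))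
    (ro : Readout n r) (f : ℝ → ℝ) (b : Bool) (s : ℕ) (i : Fin n) (P : Sam n r) : ℝ :=
  Q.wp d S i b s P * atS d ro Q.β (Q.nm f b s) i P
    * (Q.nxt d S ν f i b (stAt P.1.1 P.1.2.2 (s + Q.K * Q.H))
      - Q.wf d S i b s P * Q.fz d f i (s + Q.K * Q.H + Q.H) P)

variable {s : ℕ}

/-- Exact and model quantities of a block differ by the reconstruction error. -/
theorem Ctx.bridge_site (h : Ctx Q d S ro ν net C L lam m₀) (hf : IsTest1 f)
    (hs : s + Q.K * Q.H + Q.H ≤ r) (i : Fin n) (b : Bool) (P : Sam n r) :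
    |atS d ro Q.β (Q.wm b s) i P - Q.wp d S i b s P| ≤ winLip Q.R m₀ (Q.K * Q.H) * zErr Q.β ro d P i
    ∧ |atS d ro Q.β (Q.fm b s) i P - Q.wf d S i b s P| ≤ winLip Q.R m₀ Q.H * zErr Q.β ro d P i
    ∧ |atS d ro Q.β (Q.zm f s) i P - Q.fz d f i (s + Q.K * Q.H + Q.H) P| ≤ zErr Q.β ro d P i
    ∧ |atS d ro Q.β (Q.fbm f s) i P - Q.fbar d f i s P| ≤ zErr Q.β ro d P i := by
  have he : 0 ≤ zErr Q.β ro d P i := sum_nonneg fun _ _ => abs_nonneg _
  have hz : ∀ k, |f (zSite (cellAt ro d P) (sDat Q.β ro d P i) (xcol (tm r k)))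
      - f (zField Q.β d (stAt P.1.1 P.1.2.2 k) i)| ≤ zErr Q.β ro d P i := fun k => by
    refine (hf.2 _ _).trans ?_
    rw [← stateAt_tm P.1 k]
    exact z_err P i _
  refine ⟨?_, ?_, hz _, ?_⟩
  · simp only [atS, Par.wm, Par.wp]
    rw [winC_eq _ _ (show s + Q.K * Q.H ≤ r by omega)]
    exact mWin_err h.law.pd (slG_mem _) h.hR h.m0 h.m1 P i b _
  · simp only [atS, Par.fm, Par.wf]
    rw [winC_eq _ _ hs]
    exact mWin_err h.law.pd (slG_mem _) h.hR h.m0 h.m1 P i b _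
  · simp only [atS, Par.fbm, Par.fbar, Par.fz]
    rw [← mul_sub, ← sum_sub_distrib, abs_mul, abs_inv, Nat.abs_cast]
    rcases Nat.eq_zero_or_pos Q.K with hK | hK
    · simpa [hK] using he
    rw [inv_mul_le_iff₀ (by exact_mod_cast hK)]
    exact (abs_sum_le_sum_abs _ _).trans ((sum_le_sum fun k _ => hz _).trans_eq (by simp))

/-- The pointwise identity of a block at a site. -/
theorem Ctx.block_point (h : Ctx Q d S ro ν net C L lam m₀) (hf : IsTest1 f)
    (hs : s + Q.K * Q.H + Q.H ≤ r) (i : Fin n) (b : Bool) (P : Sam n r) :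
    Q.wp d S i b s P * (Q.val d S ν f i b s P - atS d ro Q.β (Q.nm f b s) i P) ^ 2
      ≤ Q.wp d S i b s P * Q.val d S ν f i b s P ^ 2
        + 2 * (Q.wp d S i b s P * |Q.nxt d S ν f i b (stAt P.1.1 P.1.2.2 (s + Q.K * Q.H))
            - Q.val d S ν f i b s P|)
        - 2 * Q.dConc d ν S ro f b s i P
        + 4 * (Q.wp d S i b s P - Q.wp d S i b s P * Q.wf d S i b s P)
        + Q.wp d S i b s P * Q.fbar d f i s P ^ 2
        - 2 * (Q.wp d S i b s P * Q.wf d S i b s P * Q.fbar d f i s P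
            * Q.fz d f i (s + Q.K * Q.H + Q.H) P)
        - 2 * Q.t0 d ro f b s i P + 4 * Q.t1 d ro b s i P + 2 * Q.t2 d ro f b s i P
        + 4 * (Q.wp d S i b s P * Q.mg s (cellAt ro d P))
        + 20 * min (Q.brB m₀) (Q.brL m₀ * zErr Q.β ro d P i) := by
  have hθ : cellAt ro d P ∈ net := h.mem P.1
  have hsK : s + Q.K * Q.H ≤ r := by omega
  obtain ⟨e1, e2, e3, e4⟩ := h.bridge_site hf hs i b P
  have he : 0 ≤ zErr Q.β ro d P i := sum_nonneg fun _ _ => abs_nonneg _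
  set e := zErr Q.β ro d P i
  set Lp := winLip Q.R m₀ (Q.K * Q.H)
  set Lf := winLip Q.R m₀ Q.H
  set B1 := Q.bw m₀ (Q.K * Q.H) with hB1d
  set B2 := Q.bw m₀ Q.H with hB2d
  set wp := Q.wp d S i b s P
  set wf := Q.wf d S i b s P
  set wm := atS d ro Q.β (Q.wm b s) i P
  set fm := atS d ro Q.β (Q.fm b s) i P
  set N := atS d ro Q.β (Q.nm f b s) i P
  set zm := atS d ro Q.β (Q.zm f s) i P
  set z := Q.fz d f i (s + Q.K * Q.H + Q.H) P
  set fb := atS d ro Q.β (Q.fbm f s) i P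
  set Fb := Q.fbar d f i s P
  set mg := Q.mg s (cellAt ro d P)
  obtain ⟨hwp0, hwp1⟩ : 0 ≤ wp ∧ wp ≤ B1 := h.wgt_le i b _ _
  obtain ⟨hwf0, hwf1⟩ : 0 ≤ wf ∧ wf ≤ B2 := h.wgt_le i b _ _
  obtain ⟨hwm0, hwm1⟩ : 0 ≤ wm ∧ wm ≤ B1 := h.mWin_le _ b hsK _
  obtain ⟨hfm0, hfm1⟩ : 0 ≤ fm ∧ fm ≤ B2 := h.mWin_le _ b hs _
  have hN : |N| ≤ 1 := (nm_facts hf b s _).2.2 _
  have hfb : |fb| ≤ 1 := (fbm_facts (h.netOK _ hθ) hf hsK).2.2 _
  have hzm : |zm| ≤ 1 := hf.1 _
  have hz : |z| ≤ 1 := hf.1 _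
  have hFb : |Fb| ≤ 1 := by
    simp only [Fb, Par.fbar, abs_mul, abs_inv, Nat.abs_cast]
    rcases Nat.eq_zero_or_pos Q.K with hK | hK
    · simp [hK]
    rw [inv_mul_le_iff₀ (by exact_mod_cast hK)]
    exact (abs_sum_le_sum_abs _ _).trans ((sum_le_sum fun k _ => hf.1 _).trans_eq (by simp))
  obtain ⟨hmg0, hmg2⟩ : 0 ≤ mg ∧ mg ≤ 2 := Par.mg_mem h.hκ s _
  have hB1 : 1 ≤ B1 := one_le_bw _ _
  have hB2 : 1 ≤ B2 := one_le_bw _ _
  have hLp : 0 ≤ Lp := winLip_nonneg h.hR h.m0 _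
  have hLf : 0 ≤ Lf := winLip_nonneg h.hR h.m0 _
  have hB12 : B1 ≤ B1 * B2 := le_mul_of_one_le_right (zero_le_one.trans hB1) hB2
  have hLp2 : Lp ≤ Lp * B2 := le_mul_of_one_le_right hLp hB2
  have p1 : |wm - wp| * B2 ≤ Lp * B2 * e :=
    (mul_le_mul_of_nonneg_right e1 (by linarith)).trans_eq (by ring)
  have p2 : B1 * |fm - wf| ≤ B1 * Lf * e :=
    (mul_le_mul_of_nonneg_left e2 (by linarith)).trans_eq (by ring)
  have hBe : B1 * e ≤ B1 * B2 * e := mul_le_mul_of_nonneg_right hB12 he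
  have hLe : Lp * e ≤ Lp * B2 * e := mul_le_mul_of_nonneg_right hLp2 he
  have hb0 : 0 ≤ B1 * Lf * e := mul_nonneg (mul_nonneg (by linarith) hLf) he
  have hbb : 0 ≤ B1 * B2 * e := mul_nonneg (mul_nonneg (by linarith) (by linarith)) he
  have hlb : 0 ≤ Lp * B2 * e := mul_nonneg (mul_nonneg hLp (by linarith)) he
  have hcap : ∀ x, x ≤ 4 * (B1 * B2) → x ≤ 2 * (Lp * B2 * e + B1 * Lf * e + B1 * B2 * e) →
      x ≤ min (Q.brB m₀) (Q.brL m₀ * e) := fun x h1 h2 =>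
    le_min h1 (h2.trans_eq (by simp only [Par.brL, Lp, Lf, B1, B2]; ring))
  have hd : |wm - wp| ≤ B1 := abs_sub_le_of_nonneg_of_le hwm0 hwm1 hwp0 hwp1
  have habsp : |wp| ≤ B1 := by rwa [abs_of_nonneg hwp0]
  have habsf : |wf| ≤ B2 := by rwa [abs_of_nonneg hwf0]
  have hfd : |fm - wf| ≤ B2 := abs_sub_le_of_nonneg_of_le hfm0 hfm1 hwf0 hwf1
  have hzd : |zm - z| ≤ 2 := (abs_sub _ _).trans (by linarith)
  have hfd' : |fb - Fb| ≤ 2 := (abs_sub _ _).trans (by linarith)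
  have dprod : ∀ {u u' v v' : ℝ}, |u| ≤ 1 → |u'| ≤ 1 → |v| ≤ 1 → |v'| ≤ 1 →
      |wm * u * (fm * v) - wp * u' * (wf * v')|
        ≤ |wm - wp| * B2 + B1 * |fm - wf| + B1 * B2 * |u * v - u' * v'| := fun {u u' v v'} hu hu' hv hv' => by
    have t := abs_sub_le3 wm fm (u * v) wp wf (u' * v')
    rw [show wm * u * (fm * v) = wm * fm * (u * v) by ring,
      show wp * u' * (wf * v') = wp * wf * (u' * v') by ring]
    have huv : |u * v| ≤ 1 := by rw [abs_mul]; exact mul_le_one₀ hu (abs_nonneg _) hv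
    refine t.trans (add_le_add (add_le_add ?_ ?_) ?_)
    · exact (mul_le_of_le_one_right (by positivity) huv).trans
        (mul_le_mul_of_nonneg_left (by rwa [abs_of_nonneg hfm0]) (abs_nonneg _))
    · exact (mul_le_of_le_one_right (by positivity) huv).trans
        (mul_le_mul_of_nonneg_right habsp (abs_nonneg _))
    · exact mul_le_mul_of_nonneg_right (mul_le_mul habsp habsf (abs_nonneg _) (by linarith)) (abs_nonneg _)
  have hcrude : ∀ {X : ℝ}, X ≤ B1 * B2 + B1 * B2 + B1 * B2 * 2 → X ≤ 4 * (B1 * B2) :=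
    fun h => h.trans_eq (by ring)
  have hdB : |wm - wp| * B2 ≤ B1 * B2 := mul_le_mul_of_nonneg_right hd (by linarith)
  have hfB : B1 * |fm - wf| ≤ B1 * B2 := mul_le_mul_of_nonneg_left hfd (by linarith)
  have d1 : |wm * N * (fm * zm) - wp * N * (wf * z)| ≤ min (Q.brB m₀) (Q.brL m₀ * e) := by
    have t := dprod hN hN hzm hz
    have hu : |N * zm - N * z| ≤ |zm - z| := by
      rw [← mul_sub, abs_mul]; exact mul_le_of_le_one_left (abs_nonneg _) hN
    have t2 := mul_le_mul_of_nonneg_left hu (show 0 ≤ B1 * B2 by positivity)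
    refine hcap _ (hcrude ?_) ?_
    · linarith [mul_le_mul_of_nonneg_left hzd (show 0 ≤ B1 * B2 by positivity)]
    · linarith [mul_le_mul_of_nonneg_left e3 (show 0 ≤ B1 * B2 by positivity)]
  have d6 : |wm * fb * (fm * zm) - wp * Fb * (wf * z)| ≤ min (Q.brB m₀) (Q.brL m₀ * e) := by
    have t := dprod hfb hFb hzm hz
    have hu : |fb * zm - Fb * z| ≤ 2 := by
      refine (abs_sub _ _).trans ?_
      rw [abs_mul, abs_mul]
      linarith [mul_le_one₀ hfb (abs_nonneg _) hzm, mul_le_one₀ hFb (abs_nonneg _) hz]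
    have hu2 : |fb * zm - Fb * z| ≤ 2 * e := by
      rw [show fb * zm - Fb * z = (fb - Fb) * zm + Fb * (zm - z) by ring]
      refine (abs_add_le _ _).trans ?_
      rw [abs_mul, abs_mul]
      linarith [mul_le_of_le_one_right (abs_nonneg (fb - Fb)) hzm,
        mul_le_of_le_one_left (abs_nonneg (zm - z)) hFb]
    refine hcap _ (hcrude ?_) ?_
    · linarith [mul_le_mul_of_nonneg_left hu (show 0 ≤ B1 * B2 by positivity)]
    · linarith [mul_le_mul_of_nonneg_left hu2 (show 0 ≤ B1 * B2 by positivity)]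
  have d2 : |wm * N ^ 2 - wp * N ^ 2| ≤ min (Q.brB m₀) (Q.brL m₀ * e) := by
    have t : |wm * N ^ 2 - wp * N ^ 2| ≤ |wm - wp| := by
      rw [← sub_mul, abs_mul]
      exact mul_le_of_le_one_right (abs_nonneg _) (by rw [abs_pow]; exact pow_le_one₀ (abs_nonneg _) hN)
    exact hcap _ (by linarith) (by linarith)
  have d3 : |(wm - wm * fm) - (wp - wp * wf)| ≤ min (Q.brB m₀) (Q.brL m₀ * e) := by
    have t : |(wm - wm * fm) - (wp - wp * wf)| ≤ |wm - wp| + (|wm - wp| * B2 + B1 * |fm - wf|) := by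
      rw [show (wm - wm * fm) - (wp - wp * wf)
        = (wm - wp) - ((wm - wp) * fm + wp * (fm - wf)) by ring]
      refine (abs_sub _ _).trans (add_le_add le_rfl ((abs_add_le _ _).trans ?_))
      rw [abs_mul, abs_mul]
      exact add_le_add (mul_le_mul_of_nonneg_left (by rwa [abs_of_nonneg hfm0]) (abs_nonneg _))
        (mul_le_mul_of_nonneg_right habsp (abs_nonneg _))
    exact hcap _ (by linarith) (by linarith)
  have d4 : |wm * mg - wp * mg| ≤ min (Q.brB m₀) (Q.brL m₀ * e) := by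
    have t : |wm * mg - wp * mg| ≤ |wm - wp| * 2 := by
      rw [← sub_mul, abs_mul, abs_of_nonneg hmg0]
      exact mul_le_mul_of_nonneg_left hmg2 (abs_nonneg _)
    exact hcap _ (by linarith) (by linarith)
  have d5 : |wm * N * fb - wp * N * Fb| ≤ min (Q.brB m₀) (Q.brL m₀ * e) := by
    have t : |wm * N * fb - wp * N * Fb| ≤ |wm - wp| + B1 * |fb - Fb| := by
      rw [show wm * N * fb - wp * N * Fb = (wm - wp) * (N * fb) + wp * N * (fb - Fb) by ring]
      refine (abs_add_le _ _).trans ?_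
      rw [abs_mul, abs_mul, abs_mul, abs_mul]
      exact add_le_add (mul_le_of_le_one_right (abs_nonneg _) (mul_le_one₀ hN (abs_nonneg _) hfb))
        (mul_le_mul_of_nonneg_right ((mul_le_of_le_one_right (abs_nonneg _) hN).trans habsp)
          (abs_nonneg _))
    have hB0 : 0 ≤ B1 := by linarith
    exact hcap _ (by linarith [mul_le_mul_of_nonneg_left hfd' hB0])
      (by linarith [mul_le_mul_of_nonneg_left e4 hB0])
  have hend : wm * atB (sDat Q.β ro d P i) (s + Q.K * Q.H) b = wm := mWin_end _ _ b hsK _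
  have hwv : |wm * Q.cT d ro s (fun θ => Q.fm b s θ * Q.zm f s θ) i P - wm * N|
      ≤ wm - wm * Q.cT d ro s (Q.fm b s) i P + wm * mg := by
    have hv := mul_le_mul_of_nonneg_left (h.window_value hθ hf hs b (sDat Q.β ro d P i)) hwm0
    have el : ∀ X : ℝ, |wm * X - wm * N|
        = wm * |X - atB (sDat Q.β ro d P i) (s + Q.K * Q.H) b * N| := fun X => by
      rw [← abs_of_nonneg hwm0, ← abs_mul, abs_of_nonneg hwm0, mul_sub, ← mul_assoc, hend]
    rw [mul_add, mul_sub, ← mul_assoc, hend] at hv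
    rw [el]
    exact hv
  exact block_alg hwp0 hN hfb hwv d1 d2 d3 d4 d5 d6

theorem Ctx.bm_cT (h : Ctx Q d S ro ν net C L lam m₀) {Z : Coef (ncol r) → Site r → ℝ}
    (hZ : ∀ θ ∈ net, BM (Z θ)) : BM fun P => Q.cT d ro s Z i P :=
  h.bm_atS (fun θ hθ => (condM_posOp _ _ _ _ θ true _ _).bm (hZ θ hθ)) i

/-- The site-level quantities are bounded measurable. -/
theorem Ctx.bm_site (h : Ctx Q d S ro ν net C L lam m₀) (hf : IsTest1 f)
    (hs : s + Q.K * Q.H + Q.H ≤ r) (hi : i ∉ S) :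
    BM (Q.t0 d ro f b s i) ∧ BM (Q.t1 d ro b s i) ∧ BM (Q.t2 d ro f b s i)
    ∧ BM (Q.dConc d ν S ro f b s i) ∧ BM (fun P => Q.wp d S i b s P * Q.mg s (cellAt ro d P)) := by
  have hw : BM (atS d ro Q.β (Q.wm b s) i) :=
    h.bm_atS (fun θ _ => h.bm_mWin θ b (show s + Q.K * Q.H ≤ r by omega)) i
  have hfm : BM (atS d ro Q.β (Q.fm b s) i) := h.bm_atS (fun θ _ => h.bm_mWin θ b hs) i
  have hn : BM (atS d ro Q.β (Q.nm f b s) i) := h.bm_atS (fun θ _ => (nm_facts hf b s θ).1) i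
  have hb : BM (atS d ro Q.β (Q.fbm f s) i) :=
    h.bm_atS (fun θ hθ => (fbm_facts (h.netOK θ hθ) hf (by omega)).1) i
  have hz : BM (atS d ro Q.β (Q.zm f s) i) := h.bm_atS (fun θ _ => Ctx.bm_zm hf s θ) i
  have hc := h.bm_cT (s := s) (i := i) (Z := fun θ => Q.fm b s θ * Q.zm f s θ) fun θ _ =>
    (h.bm_mWin θ b hs).mul (Ctx.bm_zm hf s θ)
  refine ⟨bm_mul' (bm_mul' hw hn) (bm_sub' (bm_mul' hfm hz) hc),
    bm_mul' hw (bm_sub' hfm (h.bm_cT fun θ _ => h.bm_mWin θ b hs)),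
    bm_mul' (bm_mul' hw hb) (bm_sub' (bm_mul' hfm hz) hc),
    bm_mul' (bm_mul' (h.bm_wp hi) hn) (bm_sub' (bm_nxt f _) (bm_mul' (h.bm_wf hi) (bm_fz f _))),
    bm_mul' (h.bm_wp hi) (bm_cell h.mem h.read (F := fun θ _ => Q.mg s θ) fun θ _ => BM.const _)⟩

/-- The identity of a block at a site, in expectation. -/
theorem Ctx.block_site (h : Ctx Q d S ro ν net C L lam m₀) (hf : IsTest1 f)
    (hs : s + Q.K * Q.H + Q.H ≤ r) (hK : 1 ≤ Q.K) (hi : i ∉ S)
    (h0 : WinC (Q.K * Q.H) Q.R m₀ C₀) (h2 : WinC (Q.K * Q.H + Q.H) Q.R m₀ C₂) :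
    samE (aop n Q.β d) ν S
        (fun P => Q.wp d S i b s P * (Q.val d S ν f i b s P - atS d ro Q.β (Q.nm f b s) i P) ^ 2)
      ≤ 2 * (Q.pw d ν S f i b Q.H - Q.pw d ν S f i b ((Q.K + 1) * Q.H)) + muB ν i b / Q.K
        + 8 * (Q.we d ν S C₀ (Q.K * Q.H) i b + Q.we d ν S C₂ (Q.K * Q.H + Q.H) i b)
        - 2 * samE (aop n Q.β d) ν S (Q.dConc d ν S ro f b s i)
        - 2 * samE (aop n Q.β d) ν S (Q.t0 d ro f b s i)
        + 4 * samE (aop n Q.β d) ν S (Q.t1 d ro b s i)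
        + 2 * samE (aop n Q.β d) ν S (Q.t2 d ro f b s i)
        + 4 * samE (aop n Q.β d) ν S (fun P => Q.wp d S i b s P * Q.mg s (cellAt ro d P))
        + 20 * samE (aop n Q.β d) ν S
            (fun P => min (Q.brB m₀) (Q.brL m₀ * zErr Q.β ro d P i)) := by
  obtain ⟨b0, b1, b2, bD, bG⟩ := h.bm_site (b := b) hf hs hi
  have hsK : s + Q.K * Q.H ≤ r := by omega
  have hwp := h.bm_wp (s := s) (b := b) hi
  have hwf := h.bm_wf (s := s) (b := b) hi
  have hn : BM (atS d ro Q.β (Q.nm f b s) i) := h.bm_atS (fun θ _ => (nm_facts hf b s θ).1) i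
  have hV : BM fun P : Sam n r => Q.wp d S i b s P * Q.val d S ν f i b s P ^ 2 := by
    simp only [pow_two]; exact bm_mul' hwp (bm_mul' (bm_val f s) (bm_val f s))
  have hA : BM fun P : Sam n r => Q.wp d S i b s P
      * |Q.nxt d S ν f i b (stAt P.1.1 P.1.2.2 (s + Q.K * Q.H)) - Q.val d S ν f i b s P| :=
    bm_mul' hwp (bm_abs (bm_sub' (bm_nxt f _) (bm_val f s)))
  have hW : BM fun P : Sam n r => Q.wp d S i b s P * Q.wf d S i b s P := bm_mul' hwp hwf
  have hM : BM fun P : Sam n r => Q.wp d S i b s P - Q.wp d S i b s P * Q.wf d S i b s P :=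
    bm_sub' hwp hW
  have hF : BM fun P : Sam n r => Q.wp d S i b s P * Q.fbar d f i s P ^ 2 := by
    simp only [pow_two]; exact bm_mul' hwp (bm_mul' (bm_fbar f s) (bm_fbar f s))
  have hZ : BM fun P : Sam n r => Q.wp d S i b s P * Q.wf d S i b s P * Q.fbar d f i s P
      * Q.fz d f i (s + Q.K * Q.H + Q.H) P :=
    bm_mul' (bm_mul' (bm_mul' hwp hwf) (bm_fbar f s)) (bm_fz f _)
  have hE := bm_err (β := Q.β) h.mem h.read i h.br_nonneg.1 h.br_nonneg.2
  have hL : BM fun P : Sam n r =>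
      Q.wp d S i b s P * (Q.val d S ν f i b s P - atS d ro Q.β (Q.nm f b s) i P) ^ 2 := by
    simp only [pow_two]; exact bm_mul' hwp (bm_mul' (bm_sub' (bm_val f s) hn) (bm_sub' (bm_val f s) hn))
  have r1 := bm_add' hV (bm_cmul hA 2)
  have r2 := bm_sub' r1 (bm_cmul bD 2)
  have r3 := bm_add' r2 (bm_cmul hM 4)
  have r4 := bm_add' r3 hF
  have r5 := bm_sub' r4 (bm_cmul hZ 2)
  have r6 := bm_sub' r5 (bm_cmul b0 2)
  have r7 := bm_add' r6 (bm_cmul b1 4)
  have r8 := bm_add' r7 (bm_cmul b2 2)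
  have r9 := bm_add' r8 (bm_cmul bG 4)
  refine (samE_mono h.law hL (bm_add' r9 (bm_cmul hE 20)) fun P => h.block_point hf hs i b P).trans ?_
  rw [samE_add h.law r9 (bm_cmul hE 20), samE_add h.law r8 (bm_cmul bG 4),
    samE_add h.law r7 (bm_cmul b2 2), samE_add h.law r6 (bm_cmul b1 4),
    samE_sub h.law r5 (bm_cmul b0 2), samE_sub h.law r4 (bm_cmul hZ 2), samE_add h.law r3 hF,
    samE_add h.law r2 (bm_cmul hM 4), samE_sub h.law r1 (bm_cmul bD 2),
    samE_add h.law hV (bm_cmul hA 2), samE_smul h.law hE, samE_smul h.law bG, samE_smul h.law b2,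
    samE_smul h.law b1, samE_smul h.law b0, samE_smul h.law hZ, samE_smul h.law hM,
    samE_smul h.law bD, samE_smul h.law hA, samE_sub h.law hwp hW]
  have hanti : Q.pw d ν S f i b (2 * Q.H) ≤ Q.pw d ν S f i b Q.H :=
    (powerThm _ _ _ ((h.win hi).psd b) _).2.1 (Nat.le_mul_of_pos_left _ two_pos)
  have := h.val_sq (b := b) hi h0 hsK hf
  have := h.next_close (b := b) hi h0 h2 hsK hf
  have := h.mass_past (b := b) hi h0 hsK
  have := h.mass_long (b := b) hi h2 hs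
  have := h.past_sq (b := b) hi h0 hsK hf hK
  have := h.past_next (b := b) hi h2 hs hf hK
  simp only [abs_le] at *
  linarith

end Vale.Agent.P150.Fast.Core
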