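import Mathlib
import Vale.Agent.P150.Fast.Cavity.Core.BlockSite
import Vale.Agent.P150.Fast.Cavity.Core.BlockConc

/-!
The identity of a block, averaged over free sites and both values, with the concentration of the
next window (P150, core of M4).
-/

open MeasureTheory Real Finset
open scoped Matrix

namespace Vale.Agent.P150.Fast.Core

variable {n r : ℕ} {Q : Par} {d : Dis n} {S : Finset (Fin n)} {ro : Readout n r} {ν : Conf n → ℝ}
  {net : Finset (Coef (ncol r))} {C L lam m₀ C₀ C₂ : ℝ} {f : ℝ → ℝ} {j : ℕ}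

theorem avgIB_bool (X : Fin n → Bool → ℝ) :
    avgIB S X = ∑ b : Bool, (n : ℝ)⁻¹ * ∑ i ∈ Sᶜ, X i b := by
  rw [avgIB, ← mul_sum, sum_comm]

theorem Ctx.samE_sites (h : Ctx Q d S ro ν net C L lam m₀) {X : Fin n → Sam n r → ℝ}
    (hX : ∀ i, i ∉ S → BM (X i)) :
    samE (aop n Q.β d) ν S (fun P => (n : ℝ)⁻¹ * ∑ i ∈ Sᶜ, X i P)
      = (n : ℝ)⁻¹ * ∑ i ∈ Sᶜ, samE (aop n Q.β d) ν S (X i) := by
  rw [samE_smul h.law (BM.sum _ fun i hi => hX i (mem_compl.1 hi)),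
    samE_sum h.law _ fun i hi => hX i (mem_compl.1 hi)]

theorem avg_muB_le (h : Ctx Q d S ro ν net C L lam m₀) : avgIB S (muB ν) ≤ 1 := by
  have h2 : ∀ i, ∑ b : Bool, muB ν i b = 1 := fun i => by
    simp only [muB]
    rw [sum_comm]
    refine (sum_congr rfl fun x _ => ?_).trans h.law.one
    rw [← sum_mul, Fintype.sum_bool]
    cases hx : x i <;> simp [onVal, hx]
  simp only [avgIB, h2, sum_const, nsmul_eq_mul, mul_one]
  rw [inv_mul_le_iff₀ (by exact_mod_cast h.hn), mul_one]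
  exact_mod_cast (card_le_univ _).trans_eq (Fintype.card_fin n)

/-- A test of a block, averaged, is the named one. -/
theorem Ctx.tau_site (h : Ctx Q d S ro ν net C L lam m₀) (hf : IsTest1 f)
    (hs : Q.blk j + Q.K * Q.H + Q.H ≤ r) (b : Bool) :
    Q.tau d ν S ro m₀ f b 0 j
        = (n : ℝ)⁻¹ * ∑ i ∈ Sᶜ, samE (aop n Q.β d) ν S (Q.t0 d ro f b (Q.blk j) i)
    ∧ Q.tau d ν S ro m₀ f b 1 j
        = (n : ℝ)⁻¹ * ∑ i ∈ Sᶜ, samE (aop n Q.β d) ν S (Q.t1 d ro b (Q.blk j) i)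
    ∧ Q.tau d ν S ro m₀ f b 2 j
        = (n : ℝ)⁻¹ * ∑ i ∈ Sᶜ, samE (aop n Q.β d) ν S (Q.t2 d ro f b (Q.blk j) i) := by
  have hB : Q.bw m₀ (Q.K * Q.H) ≠ 0 := (zero_lt_one.trans_le (one_le_bw _ _)).ne'
  have key : ∀ (a : Fin 3) (T : Fin n → Sam n r → ℝ), (∀ i, i ∉ S → BM (T i)) →
      (∀ i P, atS d ro Q.β (fun θ e => Q.phiT m₀ f b a θ j e * (Q.zT f b a θ j e
        - condM Q.β (shift Q.β) Q.W 0 θ true (Q.blk j + Q.K * Q.H)
            (Q.blk j + Q.K * Q.H + Q.H) (Q.zT f b a θ j) e)) i P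
        = (Q.bw m₀ (Q.K * Q.H))⁻¹ * T i P) →
      Q.tau d ν S ro m₀ f b a j = (n : ℝ)⁻¹ * ∑ i ∈ Sᶜ, samE (aop n Q.β d) ν S (T i) := by
    intro a T hT hTe
    have e : (fun P => (n : ℝ)⁻¹ * ∑ i ∈ Sᶜ, atS d ro Q.β (fun θ e => Q.phiT m₀ f b a θ j e *
        (Q.zT f b a θ j e - condM Q.β (shift Q.β) Q.W 0 θ true (Q.blk j + Q.K * Q.H)
            (Q.blk j + Q.K * Q.H + Q.H) (Q.zT f b a θ j) e)) i P)
        = fun P => (Q.bw m₀ (Q.K * Q.H))⁻¹ * ((n : ℝ)⁻¹ * ∑ i ∈ Sᶜ, T i P) := by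
      funext P
      simp only [hTe, ← mul_sum]
      ring
    rw [Par.tau, e, samE_smul h.law (bm_cmul (BM.sum _ fun i hi => hT i (mem_compl.1 hi)) _),
      ← mul_assoc, mul_inv_cancel₀ hB, one_mul, h.samE_sites hT]
  have z0 : ∀ θ, Q.zT (r := r) f b 0 θ j = Q.fm b (Q.blk j) θ * Q.zm f (Q.blk j) θ := fun _ => rfl
  have z1 : ∀ θ, Q.zT (r := r) f b 1 θ j = Q.fm b (Q.blk j) θ := fun _ => rfl
  have z2 : ∀ θ, Q.zT (r := r) f b 2 θ j = Q.fm b (Q.blk j) θ * Q.zm f (Q.blk j) θ := fun _ => rfl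
  refine ⟨key 0 _ (fun i hi => (h.bm_site hf hs hi).1) fun i P => ?_,
    key 1 _ (fun i hi => (h.bm_site hf hs hi).2.1) fun i P => ?_,
    key 2 _ (fun i hi => (h.bm_site hf hs hi).2.2.1) fun i P => ?_⟩
  · simp only [atS, Par.phiT, Par.t0, Par.cT, z0]
    rw [div_eq_mul_inv]
    simp only [Pi.mul_def]
    ring
  · simp only [atS, Par.phiT, Par.t1, Par.cT, z1]
    rw [div_eq_mul_inv]
    ring
  · simp only [atS, Par.phiT, Par.t2, Par.cT, z2]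
    rw [div_eq_mul_inv]
    simp only [Pi.mul_def]
    ring

/-- **The identity of a block**, given a bound for the next window against its conditional mean. -/
theorem Ctx.block_ident_of (h : Ctx Q d S ro ν net C L lam m₀) (hf : IsTest1 f)
    (hs : Q.blk j + Q.K * Q.H + Q.H ≤ r) (hK : 1 ≤ Q.K) (h0 : WinC (Q.K * Q.H) Q.R m₀ C₀)
    (h2 : WinC (Q.K * Q.H + Q.H) Q.R m₀ C₂) {X δ : ℝ} (hδ : 0 ≤ δ)
    (hD : ∀ b, |samE (aop n Q.β d) ν S
        (fun P => (n : ℝ)⁻¹ * ∑ i ∈ Sᶜ, Q.dConc d ν S ro f b (Q.blk j) i P)|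
      ≤ X + δ * ((n : ℝ)⁻¹ * ∑ i ∈ Sᶜ, samE (aop n Q.β d) ν S
          (fun P : Sam n r => Q.wp d S i b (Q.blk j) P * Q.wf d S i b (Q.blk j) P))) :
    Q.eVal d ν S ro f j
      ≤ avgIB S (fun i b => 2 * (Q.pw d ν S f i b Q.H - Q.pw d ν S f i b ((Q.K + 1) * Q.H)))
        + 1 / Q.K
        + 8 * (Q.eWin d ν S C₀ (Q.K * Q.H) + Q.eWin d ν S C₂ (Q.K * Q.H + Q.H))
        + 4 * X + 2 * δ * (1 + Q.eWin d ν S C₂ (Q.K * Q.H + Q.H))
        + 40 * eBr Q.β d ν S ro (Q.brB m₀) (Q.brL m₀)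
        + 4 * Q.eGain d ν S ro j + Q.tauSum d ν S ro m₀ f j := by
  set s := Q.blk j
  have hn0 : (0 : ℝ) ≤ (n : ℝ)⁻¹ := inv_nonneg.2 n.cast_nonneg
  have eA : ∀ {Y : Fin n → Bool → Sam n r → ℝ}, (∀ i, i ∉ S → ∀ b, BM (Y i b)) →
      avgIB S (fun i b => samE (aop n Q.β d) ν S (Y i b))
        = samE (aop n Q.β d) ν S (fun P => avgIB S fun i b => Y i b P) :=
    fun hY => (samE_avg h.law hY).symm
  have hval : Q.eVal d ν S ro f j = avgIB S fun i b => samE (aop n Q.β d) ν S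
      (fun P => Q.wp d S i b s P * (Q.val d S ν f i b s P - atS d ro Q.β (Q.nm f b s) i P) ^ 2) := by
    refine samE_avg h.law fun i hi b => ?_
    have hn : BM (atS d ro Q.β (Q.nm f b s) i) := h.bm_atS (fun θ _ => (nm_facts hf b s θ).1) i
    simp only [pow_two]
    exact bm_mul' (h.bm_wp hi) (bm_mul' (bm_sub' (bm_val f s) hn) (bm_sub' (bm_val f s) hn))
  have hG : Q.eGain d ν S ro j = avgIB S fun i b => samE (aop n Q.β d) ν S
      (fun P => Q.wp d S i b s P * Q.mg s (cellAt ro d P)) :=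
    samE_avg h.law fun i hi b => (h.bm_site hf hs hi).2.2.2.2
  have hEi : ∀ i, BM fun P : Sam n r => min (Q.brB m₀) (Q.brL m₀ * zErr Q.β ro d P i) := fun i =>
    bm_err h.mem h.read i h.br_nonneg.1 h.br_nonneg.2
  have hBr : avgIB S (fun i _ => samE (aop n Q.β d) ν S
      (fun P => min (Q.brB m₀) (Q.brL m₀ * zErr Q.β ro d P i)))
      = 2 * eBr Q.β d ν S ro (Q.brB m₀) (Q.brL m₀) := by
    rw [eBr, h.samE_sites fun i _ => hEi i, avgIB_bool, Fintype.sum_bool, two_mul]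
  rw [hval]
  refine (avgIB_mono fun i hi b => h.block_site hf hs hK hi h0 h2).trans ?_
  simp only [avgIB_add, avgIB_sub, avgIB_smul, hBr, ← hG]
  have hmu : avgIB S (fun i b => muB ν i b / Q.K) ≤ 1 / Q.K := by
    have e : (fun i b => muB ν i b / Q.K) = fun i b => (Q.K : ℝ)⁻¹ * muB ν i b := by
      funext i b; ring
    rw [e, avgIB_smul, one_div]
    exact mul_le_of_le_one_right (inv_nonneg.2 Q.K.cast_nonneg) (avg_muB_le h)
  have hlong : avgIB S (fun i b => samE (aop n Q.β d) ν S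
      (fun P : Sam n r => Q.wp d S i b s P * Q.wf d S i b s P))
      ≤ 1 + Q.eWin d ν S C₂ (Q.K * Q.H + Q.H) := by
    refine (avgIB_mono fun i hi b => (?_ : _ ≤ muB ν i b + Q.we d ν S C₂ (Q.K * Q.H + Q.H) i b)).trans ?_
    · linarith [(abs_le.1 (h.mass_long (b := b) hi h2 hs)).2]
    · rw [avgIB_add]
      exact add_le_add (avg_muB_le h) le_rfl
  have hDc : -(2 * avgIB S (fun i b => samE (aop n Q.β d) ν S (Q.dConc d ν S ro f b s i)))
      ≤ 4 * X + 2 * δ * (1 + Q.eWin d ν S C₂ (Q.K * Q.H + Q.H)) := by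
    have hb : ∀ b, -((n : ℝ)⁻¹ * ∑ i ∈ Sᶜ, samE (aop n Q.β d) ν S (Q.dConc d ν S ro f b s i))
        ≤ X + δ * ((n : ℝ)⁻¹ * ∑ i ∈ Sᶜ, samE (aop n Q.β d) ν S
          (fun P : Sam n r => Q.wp d S i b s P * Q.wf d S i b s P)) := fun b => by
      have := hD b
      rw [h.samE_sites fun i hi => (h.bm_site hf hs hi).2.2.2.1] at this
      linarith [(abs_le.1 this).1]
    have := mul_le_mul_of_nonneg_left hlong hδ
    rw [avgIB_bool, Fintype.sum_bool, mul_add] at this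
    rw [avgIB_bool, Fintype.sum_bool]
    linarith [hb true, hb false]
  have htau : -2 * avgIB S (fun i b => samE (aop n Q.β d) ν S (Q.t0 d ro f b s i))
      + 4 * avgIB S (fun i b => samE (aop n Q.β d) ν S (Q.t1 d ro b s i))
      + 2 * avgIB S (fun i b => samE (aop n Q.β d) ν S (Q.t2 d ro f b s i))
      = Q.tauSum d ν S ro m₀ f j := by
    simp only [Par.tauSum, avgIB_bool, Fintype.sum_bool, (h.tau_site hf hs _).1,
      (h.tau_site hf hs _).2.1, (h.tau_site hf hs _).2.2]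
    ring
  simp only [Par.eWin]
  simp only [Par.eWin] at hDc
  linarith

/-- **The identity of a block.** -/
theorem Ctx.block_ident (h : Ctx Q d S ro ν net C L lam m₀) {B Cc l δ : ℝ}
    (hC : ConcAt Q.H L lam B Cc) (hB1 : (1 + 4 / Q.κ) / m₀ * (cutB Q.R + cutL Q.R) ≤ B)
    (hB2 : max 1 (2 / δ) ≤ B) (hl : 0 < l) (hδ : 0 < δ) (hf : IsTest1 f)
    (hs : Q.blk j + Q.K * Q.H + Q.H ≤ r) (hK : 1 ≤ Q.K) (h0 : WinC (Q.K * Q.H) Q.R m₀ C₀)
    (h2 : WinC (Q.K * Q.H + Q.H) Q.R m₀ C₂) :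
    Q.eVal d ν S ro f j
      ≤ avgIB S (fun i b => 2 * (Q.pw d ν S f i b Q.H - Q.pw d ν S f i b ((Q.K + 1) * Q.H)))
        + 1 / Q.K
        + 8 * (Q.eWin d ν S C₀ (Q.K * Q.H) + Q.eWin d ν S C₂ (Q.K * Q.H + Q.H))
        + 4 * (Q.bw m₀ (Q.K * Q.H) * (net.card
            * concErr Cc l (Q.blk j + Q.K * Q.H) Q.H ν (step0 (aop n Q.β d) S)))
        + 8 * δ * (1 + Q.eWin d ν S C₂ (Q.K * Q.H + Q.H))
        + 40 * eBr Q.β d ν S ro (Q.brB m₀) (Q.brL m₀)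
        + 4 * Q.eGain d ν S ro j + Q.tauSum d ν S ro m₀ f j := by
  refine (h.block_ident_of hf hs hK h0 h2
    (X := Q.bw m₀ (Q.K * Q.H) * (net.card
      * concErr Cc l (Q.blk j + Q.K * Q.H) Q.H ν (step0 (aop n Q.β d) S)))
    (δ := 4 * δ) (by positivity) fun b => h.conc_step hC hB1 hB2 hl hδ hs hf b).trans (le_of_eq ?_)
  ring

end Vale.Agent.P150.Fast.Core
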