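import Mathlib
import Vale.Agent.P150.Fast.Cavity.Core.BlockIdent
import Vale.Agent.P150.Fast.Cavity.Ladder.Basic

/-!
One block against the statement of the core: the mass of the past windows, the price of the gain
where the free windows bound it, and the cell error through the predicted values
(P150, core of M4).
-/

open MeasureTheory Real Finset
open scoped Matrix

namespace Vale.Agent.P150.Fast.Core

variable {n r : ℕ} {Q : Par} {d : Dis n} {S : Finset (Fin n)} {ro : Readout n r} {ν : Conf n → ℝ}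
  {net : Finset (Coef (ncol r))} {C L lam m₀ C₀ : ℝ} {j : ℕ}

theorem avgIB_onVal (x : Conf n) :
    avgIB S (fun i b => onVal i b x) = (n : ℝ)⁻¹ * Sᶜ.card := by
  have h2 : ∀ i : Fin n, ∑ b : Bool, onVal i b x = 1 := fun i => by
    rw [Fintype.sum_bool]; cases hx : x i <;> simp [onVal, hx]
  simp only [avgIB, h2, sum_const, nsmul_eq_mul, mul_one]

theorem frac_mem (hn : 1 ≤ n) :
    0 ≤ (n : ℝ)⁻¹ * (Sᶜ.card : ℝ) ∧ (n : ℝ)⁻¹ * (Sᶜ.card : ℝ) ≤ 1 := by
  refine ⟨by positivity, ?_⟩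
  rw [inv_mul_le_iff₀ (by exact_mod_cast hn), mul_one]
  exact_mod_cast (card_le_univ _).trans_eq (Fintype.card_fin n)

/-- A function of one state of a stationary path. -/
theorem Ctx.samE_state (h : Ctx Q d S ro ν net C L lam m₀) (f : Conf n → ℝ) {s : ℕ} (hs : s ≤ r) :
    samE (aop n Q.β d) ν S (fun P : Sam n r => f (stAt P.1.1 P.1.2.2 s)) = ∑ x, ν x * f x := by
  rw [samE_path h.law (G := fun x ω => f (stAt x ω s))
    (fun x => (measurable_of_finite f).comp (measurable_stAt x s)) (B := ∑ z, |f z|)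
    fun x ω => abs_le_sum_abs f _]
  have e := law_two h.law (S := S) le_rfl hs f fun _ => 1
  simp only [mul_one, Nat.sub_self] at e
  rw [e]
  simp [ip, powOp]

/-- The coefficients of the mass test. -/
noncomputable def massCoef (S : Finset (Fin n)) (b : Bool) (s : ℕ) (P : Sam n r) (i : Fin n) : ℝ :=
  if i ∈ Sᶜ then onVal i b (stAt P.1.1 P.1.2.2 s) else 0

/-- **The past windows carry the fraction of free sites.** -/
theorem Ctx.mass_conc (h : Ctx Q d S ro ν net C L lam m₀) {B Cp l : ℝ}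
    (hC : ConcAt (Q.K * Q.H) L lam B Cp) (hB1 : (1 + 4 / Q.κ) / m₀ * (cutB Q.R + cutL Q.R) ≤ B)
    (hB : 1 ≤ B) (hl : 0 < l) (h0 : WinC (Q.K * Q.H) Q.R m₀ C₀)
    (hs : Q.blk j + Q.K * Q.H ≤ r) :
    Q.eMass d ν S r j
      ≤ 2 * (net.card * concErr Cp l (Q.blk j) (Q.K * Q.H) ν (step0 (aop n Q.β d) S))
        + Q.eWin d ν S C₀ (Q.K * Q.H) := by
  set s := Q.blk j with hsd
  set A := aop n Q.β d with hA
  set E := fun (i : Fin n) (b : Bool) (z : Conf n) =>
    pathE (pR ν) (fun _ : Fin (Q.K * Q.H) => step0 A S) z (wgt A S Q.g Q.m₁ Q.R i b z)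
  set T : Bool → Sam n r → ℝ := fun b P =>
    pastTest Q.β d S (fun (_ : Fin (Q.K * Q.H)) _ => wFac Q.κ Q.R Q.m₁ b) (fun _ _ => 1)
      (massCoef S b s P) (stAt P.1.1 P.1.2.2 s) (winAt hs P.1.2.2)
    - pastMean Q.β d ν S (fun (_ : Fin (Q.K * Q.H)) _ => wFac Q.κ Q.R Q.m₁ b) (fun _ _ => 1)
      (massCoef S b s P) (stAt P.1.1 P.1.2.2 s)
  have hψ : ∀ b, SmoothBd2 B (wFac Q.κ Q.R Q.m₁ b) := fun b => by
    obtain ⟨d₁, d₂, a1, a2, a3⟩ := wFac_smooth h.hκ h.hR h.m0 h.m1 b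
    exact ⟨d₁, d₂, a1, a2, fun u v c => ⟨(a3 u v c).1, (a3 u v c).2.1,
      (a3 u v c).2.2.1.trans hB1, (a3 u v c).2.2.2.1.trans hB1, (a3 u v c).2.2.2.2.trans hB1⟩⟩
  have hT : ∀ b P, T b P = (n : ℝ)⁻¹ * ∑ i ∈ Sᶜ,
      (Q.wp d S i b s P - E i b (stAt P.1.1 P.1.2.2 s)) := by
    intro b P
    set z := stAt P.1.1 P.1.2.2 s with hz
    have hv : ∀ v : Om n (Q.K * Q.H), pastTest Q.β d S (fun (_ : Fin (Q.K * Q.H)) _ =>
        wFac Q.κ Q.R Q.m₁ b) (fun _ _ => 1) (massCoef S b s P) z v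
        = ∑ i ∈ Sᶜ, (n : ℝ)⁻¹ * wgt A S Q.g Q.m₁ Q.R i b z v := by
      intro v
      simp only [pastTest, siteTest, step0, mul_sum]
      rw [← sum_subset (subset_univ Sᶜ) fun i _ hi => by
        simp only [massCoef, if_neg hi, zero_mul, mul_zero]]
      refine sum_congr rfl fun i hi => ?_
      simp only [massCoef, if_pos hi, ← hz, mul_one]
      rw [show Q.g = slG Q.κ from rfl, wgt_fac]
    simp only [T, pastMean, ← hz]
    rw [hv, funext hv]
    rw [pathE_sum _ (h.law.ok S) _ (fun _ => (n : ℝ)⁻¹)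
      (fun i hi => (h.win (mem_compl.1 hi)).measurable_wgt b z)
      (fun i hi v => (h.win (mem_compl.1 hi)).abs_wgt_le b z v) z, ← sum_sub_distrib, mul_sum]
    refine sum_congr rfl fun i _ => ?_
    simp only [Par.wp, E, winC_eq _ _ hs, ← hz]
    ring
  have hEb : ∀ i b, BM fun P : Sam n r => E i b (stAt P.1.1 P.1.2.2 s) := fun i b => bm_state (E i b) s
  have hTb : ∀ b, BM (T b) := fun b => by
    rw [funext (hT b)]
    exact bm_cmul (BM.sum _ fun i hi => bm_sub' (h.bm_wp (mem_compl.1 hi)) (hEb i b)) _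
  have hconc : ∀ b, samE A ν S (fun P => |T b P|)
      ≤ net.card * concErr Cp l s (Q.K * Q.H) ν (step0 A S) := by
    intro b
    refine conc_net (S := S) (ψ := fun _ _ => wFac Q.κ Q.R Q.m₁ b) (F := fun _ _ => 1) hC hl h.law h.hn
      h.norm h.mem h.read hs (zero_le_one.trans hB) (fun _ _ => hψ b)
      (fun _ => ⟨fun _ => 0, fun _ => 0, fun u => hasDerivAt_const u _, fun u => hasDerivAt_const u _,
        continuous_const, fun u => ⟨by simpa using hB, by simpa using zero_le_one.trans hB,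
          by simpa using zero_le_one.trans hB⟩⟩)
      (fun _ P => massCoef S b s P) (fun θ _ i => ?_) (fun θ _ P => ?_)
      (fun θ _ x g ω ω' q hw => ?_)
    · simp only [massCoef]
      by_cases hi : i ∈ Sᶜ
      · simp only [if_pos hi]; exact (bm_state (fun z => onVal i b z) s).1
      · simp only [if_neg hi]; exact measurable_const
    · refine (sum_le_sum (g := fun _ => (1 : ℝ)) fun i _ => ?_).trans_eq (by simp)
      refine (sq_le_one_iff_abs_le_one _).2 ?_
      simp only [massCoef]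
      split
      · rw [abs_of_nonneg (onVal_nonneg _ _ _)]; exact onVal_le_one _ _ _
      · simp
    · funext i
      have e1 : stAt x ω s = stAt x ω' s := by
        have := state_past (x := x) (g := g) (show 0 + s ≤ r by omega) hw (b := tm r s)
          (by rw [tm_val (by omega)])
        simpa only [stateAt_tm] using this
      simp only [massCoef, e1]
  set D : Conf n → ℝ := fun z => avgIB S fun i b => |E i b z - onVal i b z|
  have hpt : ∀ P : Sam n r, |avgIB S (fun i b => Q.wp d S i b s P) - (n : ℝ)⁻¹ * Sᶜ.card|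
      ≤ (|T true P| + |T false P|) + D (stAt P.1.1 P.1.2.2 s) := fun P => by
    set z := stAt P.1.1 P.1.2.2 s with hz
    have e : avgIB S (fun i b => Q.wp d S i b s P) - (n : ℝ)⁻¹ * Sᶜ.card
        = (T true P + T false P) + avgIB S (fun i b => E i b z - onVal i b z) := by
      rw [avgIB_sub, avgIB_onVal, hT, hT]
      simp only [avgIB, Fintype.sum_bool, sum_add_distrib, sum_sub_distrib, ← hz]
      ring
    rw [e]
    exact (abs_add_le _ _).trans (add_le_add (abs_add_le _ _) (avgIB_abs _))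
  have hb1 : BM fun P : Sam n r => |avgIB S (fun i b => Q.wp d S i b s P) - (n : ℝ)⁻¹ * Sᶜ.card| :=
    bm_abs (bm_sub' (bm_avgIB fun i hi b => h.bm_wp hi) (BM.const _))
  have hbT : BM fun P => |T true P| + |T false P| := bm_add' (bm_abs (hTb true)) (bm_abs (hTb false))
  rw [Par.eMass, ← hsd]
  refine (samE_mono h.law hb1 (bm_add' hbT (bm_state D s)) hpt).trans ?_
  rw [samE_add h.law hbT (bm_state D s), samE_add h.law (bm_abs (hTb true)) (bm_abs (hTb false)),
    two_mul]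
  refine add_le_add (add_le_add (hconc true) (hconc false)) ?_
  rw [h.samE_state D (by omega)]
  simp only [D, avgIB, Par.eWin, mul_left_comm (ν _), mul_sum]
  rw [sum_comm]
  refine sum_le_sum fun i hi => ?_
  rw [sum_comm]
  refine sum_le_sum fun b _ => ?_
  rw [← mul_sum]
  exact mul_le_mul_of_nonneg_left (win_mass h0 (h.win (mem_compl.1 hi)) b) (by positivity)

/-- **The gain is cheap where the free windows bound it.** -/
theorem Ctx.gain_le (h : Ctx Q d S ro ν net C L lam m₀) {M w₀ : ℝ} (hM : 1 ≤ M) (hw₀ : 0 < w₀)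
    (hW : w₀ ≤ Q.W) :
    Q.eGain d ν S ro j
      ≤ Q.κ * M * √(2 / w₀)
        + 4 * samE (aop n Q.β d) ν S (fun P : Sam n r => (n : ℝ)⁻¹ * Sᶜ.card
            * (1 - exp (-(Q.W * winGam (cellAt ro d P) (Q.kEnd r (Q.blk j)) (Q.blk j + Q.K * Q.H)
              (Q.blk j + Q.K * Q.H + Q.H) / (2 * M ^ 2)))))
        + 2 * Q.eMass d ν S r j := by
  set s := Q.blk j with hsd
  set G := fun θ : Coef (ncol r) => winGam θ (Q.kEnd r s) (s + Q.K * Q.H) (s + Q.K * Q.H + Q.H)
  set gam := fun θ : Coef (ncol r) => 1 - exp (-(Q.W * G θ / (2 * M ^ 2))) with hgam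
  set c := Q.κ * M * √(2 / w₀) with hc
  have hM0 : 0 < M := by linarith
  have hc0 : 0 ≤ c := mul_nonneg (mul_nonneg h.hκ.le hM0.le) (sqrt_nonneg _)
  have hgam0 : ∀ θ, 0 ≤ gam θ := fun θ => sub_nonneg.2 (exp_le_one_iff.2 (neg_nonpos.2
    (div_nonneg (mul_nonneg h.hW.le (winGam_nonneg _ _ _ _)) (by positivity))))
  have hmg : ∀ θ, Q.mg s θ ≤ c + 4 * gam θ := fun θ => by
    by_cases hg : 1 / 2 ≤ gam θ
    · linarith [(Q.mg_mem h.hκ s θ).2]
    · refine le_add_of_le_of_nonneg ((min_le_right _ _).trans ?_) (by linarith [hgam0 θ])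
      have h1 : 1 / 2 ≤ exp (-(Q.W * G θ / (2 * M ^ 2))) := by simp only [hgam] at hg; linarith
      have h2 : Q.W * G θ / (2 * M ^ 2) ≤ 1 := by
        have := log_le_log (by norm_num) h1
        rw [log_exp, one_div, log_inv] at this
        linarith [log_le_sub_one_of_pos (two_pos (α := ℝ))]
      rw [div_le_one (by positivity)] at h2
      have h3 : G θ ≤ M ^ 2 * (2 / w₀) := by
        rw [mul_div_assoc', le_div_iff₀ hw₀]
        have := mul_le_mul_of_nonneg_right hW (winGam_nonneg θ (Q.kEnd r s) (s + Q.K * Q.H)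
          (s + Q.K * Q.H + Q.H))
        linarith
      rw [hc, mul_assoc]
      refine mul_le_mul_of_nonneg_left ?_ h.hκ.le
      refine (sqrt_le_sqrt h3).trans_eq ?_
      rw [sqrt_mul (by positivity), sqrt_sq hM0.le]
  obtain ⟨hf0, hf1⟩ := frac_mem (S := S) h.hn
  set fr := (n : ℝ)⁻¹ * (Sᶜ.card : ℝ) with hfr
  set X := fun P : Sam n r => avgIB S (fun i b => Q.wp d S i b s P)
  have hX : BM X := bm_avgIB fun i hi b => h.bm_wp hi
  have hbg : BM fun P : Sam n r => fr * gam (cellAt ro d P) :=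
    bm_cell h.mem h.read (F := fun θ _ => fr * gam θ) fun θ _ => BM.const _
  have hbm : BM fun P : Sam n r => Q.mg s (cellAt ro d P) :=
    bm_cell h.mem h.read (F := fun θ _ => Q.mg s θ) fun θ _ => BM.const _
  have e : (fun P : Sam n r => avgIB S fun i b => Q.wp d S i b s P * Q.mg s (cellAt ro d P))
      = fun P => Q.mg s (cellAt ro d P) * X P := funext fun P => by
    rw [← avgIB_smul]
    exact congrArg _ (funext fun i => funext fun b => mul_comm _ _)
  rw [Par.eGain, ← hsd, e, Par.eMass, ← hsd]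
  have hpt : ∀ P : Sam n r, Q.mg s (cellAt ro d P) * X P
      ≤ c + 4 * (fr * gam (cellAt ro d P)) + 2 * |X P - fr| := fun P => by
    obtain ⟨m0, m2⟩ := Q.mg_mem h.hκ s (cellAt ro d P)
    have h1 := mul_le_mul_of_nonneg_right (hmg (cellAt ro d P)) hf0
    have h2 := mul_le_mul_of_nonneg_left (le_abs_self (X P - fr)) m0
    have h3 := mul_le_mul_of_nonneg_right m2 (abs_nonneg (X P - fr))
    have h4 := mul_le_of_le_one_right hc0 hf1
    linarith
  have hb4 : BM fun P => c + 4 * (fr * gam (cellAt ro d P)) := bm_add' (BM.const c) (bm_cmul hbg 4)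
  have hba : BM fun P => |X P - fr| := bm_abs (bm_sub' hX (BM.const fr))
  refine (samE_mono h.law (bm_mul' hbm hX) (bm_add' hb4 (bm_cmul hba 2)) hpt).trans (le_of_eq ?_)
  rw [samE_add h.law hb4 (bm_cmul hba 2), samE_add h.law (BM.const c) (bm_cmul hbg 4),
    samE_const h.law, samE_smul h.law hbg, samE_smul h.law hba]

theorem le_add_sq_div {l x : ℝ} (hl : 0 < l) : |x| ≤ l + x ^ 2 / (4 * l) := by
  rw [← sub_le_iff_le_add', le_div_iff₀ (by positivity), ← sq_abs x]
  linarith [sq_nonneg (|x| - 2 * l)]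

theorem abs_sqrt_sub_le (a b : ℝ) : |√a - √b| ≤ √|a - b| := by
  have key : ∀ a b : ℝ, √a ≤ √b + √|a - b| := fun a b => by
    rw [sqrt_le_iff]
    refine ⟨add_nonneg (sqrt_nonneg _) (sqrt_nonneg _), ?_⟩
    have h1 := mul_self_sqrt (abs_nonneg (a - b))
    have h2 := mul_nonneg (sqrt_nonneg b) (sqrt_nonneg |a - b|)
    rcases le_total 0 b with hb | hb
    · linarith [mul_self_sqrt hb, le_abs_self (a - b)]
    · nlinarith [sqrt_eq_zero_of_nonpos hb, le_abs_self (a - b)]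
  have h1 := key a b
  have h2 := key b a
  rw [abs_sub_comm b a] at h2
  rw [abs_le]
  constructor <;> linarith

/-- Normal means at one centre move at most like the root of the variance. -/
theorem nE_var_le {f : ℝ → ℝ} (hf : IsTest1 f) (a v R : ℝ) :
    |nE a v f - nE a R f| ≤ min 2 √|R - v| := by
  refine le_min ?_ ?_
  · exact (abs_sub _ _).trans (by linarith [abs_nE_le_one hf.1 a v, abs_nE_le_one hf.1 a R])
  · refine (Ladder.nE_shift_le hf a a v R).trans ?_
    rw [sub_self, abs_zero, zero_add, abs_sub_comm R v]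
    exact abs_sqrt_sub_le v R

theorem min_two_sqrt_sq (x : ℝ) : (min 2 √|x|) ^ 2 = min 4 |x| := by
  rcases le_total (2 : ℝ) √|x| with h | h
  · rw [min_eq_left h, min_eq_left]
    · norm_num
    · have := mul_self_le_mul_self zero_le_two h
      rw [mul_self_sqrt (abs_nonneg x)] at this
      linarith
  · rw [min_eq_right h, sq_sqrt (abs_nonneg x), min_eq_right]
    have := mul_self_le_mul_self (sqrt_nonneg |x|) h
    rw [mul_self_sqrt (abs_nonneg x)] at this
    linarith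

/-- **The cell error of a block.** -/
theorem Ctx.cell_block (h : Ctx Q d S ro ν net C L lam m₀) (Φs : Finset (ℝ → ℝ → ℝ))
    (hΦ : ∀ Φ ∈ Φs, IsTest2 Φ) {l : ℝ} (hl : 0 < l) (h0 : WinC (Q.K * Q.H) Q.R m₀ C₀)
    (hs : Q.blk j + Q.K * Q.H ≤ r) :
    coreErr Q.β d 0 Q.κ ν S Φs Q.H
      ≤ ∑ Φ ∈ Φs, Q.eVal d ν S ro (fun u => Φ u 0) j / (4 * l)
        + Φs.card * (2 * l + Q.eVar d ν S ro j / (4 * l) + 2 * Q.eMass d ν S r j
          + l * Q.eWin d ν S C₀ (Q.K * Q.H))
        + (2 * Φs.card + 1) * Q.eWin d ν S C₀ (Q.K * Q.H) := by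
  set s := Q.blk j with hsd
  set A := aop n Q.β d with hA
  set N : ℝ := 2 * Φs.card + 1 with hN
  have hN0 : 0 < N := by positivity
  have hf : ∀ Φ ∈ Φs, IsTest1 (fun u => Φ u 0) := fun Φ hΦ' =>
    ⟨fun u => (hΦ Φ hΦ').1 u 0, fun u v => ((hΦ Φ hΦ').2 u 0 v 0).trans (by simp)⟩
  set cell := fun (i : Fin n) (b : Bool) (z : Conf n) => cellErr Q.β d 0 Q.κ ν 0 S i b Φs Q.H z
  set sl := fun (Φ : ℝ → ℝ → ℝ) (i : Fin n) (b : Bool) (z : Conf n) =>
    slW A ν S Q.g i b Q.H (fun z => Φ (zField Q.β d z i) 0) z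
  have hle : ∀ i b z a, cell i b z
      ≤ ∑ Φ ∈ Φs, |sl Φ i b z - nE a (farR Q.β d 0 ν 0 S Q.H z) fun u => Φ u 0| := fun i b z a => by
    have hbd : BddBelow (Set.range fun a : ℝ => ∑ Φ ∈ Φs, |winW Q.β d 0 Q.κ ν 0 S i b Φ Q.H z
        - nE a (farR Q.β d 0 ν 0 S Q.H z) fun u => Φ u ((0 : Fin n → ℝ) i)|) :=
      ⟨0, by rintro _ ⟨a, rfl⟩; exact sum_nonneg fun _ _ => abs_nonneg _⟩
    refine (ciInf_le hbd a).trans (le_of_eq (sum_congr rfl fun Φ _ => ?_))
    rw [winW_eq Q.β d Q.κ h.law.one]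
    rfl
  have hcell : ∀ i, i ∉ S → ∀ b z, |cell i b z / N| ≤ 1 := fun i hi b z => by
    have h0' : 0 ≤ cell i b z := le_ciInf fun a => sum_nonneg fun _ _ => abs_nonneg _
    rw [abs_div, abs_of_nonneg h0', abs_of_pos hN0, div_le_one hN0]
    refine (hle i b z 0).trans ((sum_le_sum (g := fun _ => (2 : ℝ)) fun Φ hΦ' => ?_).trans ?_)
    · refine (abs_sub _ _).trans ?_
      have h1 : |sl Φ i b z| ≤ 1 := powOp_abs_le ((h.win hi).psd b) _ (fun _ => (hf Φ hΦ').1 _) _
      linarith [abs_nE_le_one (hf Φ hΦ').1 0 (farR Q.β d 0 ν 0 S Q.H z)]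
    · rw [sum_const, nsmul_eq_mul, hN]; linarith
  set hh := s + Q.K * Q.H with hhd
  set z0 := fun P : Sam n r => stAt P.1.1 P.1.2.2 hh
  -- the state of a held site is read through the past window
  have hpair : ∀ i, i ∉ S → ∀ b, ∑ x, onVal i b x * ν x * cell i b x
      ≤ samE A ν S (fun P : Sam n r => Q.wp d S i b s P * cell i b (z0 P))
        + N * Q.we d ν S C₀ (Q.K * Q.H) i b := by
    intro i hi b
    have hp := h.pair (b := b) hi h0 hs (le_refl (Q.K * Q.H)) le_rfl (a := fun z => cell i b z / N)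
      (c := fun _ => 1) (hcell i hi b) fun _ => by simp
    have e1 : (fun P : Sam n r => wgt A S Q.g Q.m₁ Q.R i b (stAt P.1.1 P.1.2.2 s)
        (winC P.1.1 P.1.2.2 s (Q.K * Q.H)) * (cell i b (stAt P.1.1 P.1.2.2 (s + Q.K * Q.H)) / N) * 1)
        = fun P => N⁻¹ * (Q.wp d S i b s P * cell i b (z0 P)) := funext fun P => by
      simp only [Par.wp, z0, hhd, hA]; ring
    rw [e1, samE_smul h.law (bm_mul' (h.bm_wp hi) (bm_state (cell i b) hh)), Nat.sub_self] at hp
    have e2 : ip (fun x => onVal i b x * ν x) (fun z => cell i b z / N)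
        (powOp (slK A ν S Q.g i b) 0 fun _ => 1) = N⁻¹ * ∑ x, onVal i b x * ν x * cell i b x := by
      simp only [ip, powOp, Function.iterate_zero, id, mul_one, mul_sum]
      exact sum_congr rfl fun x _ => by ring
    rw [e2, ← mul_sub, abs_mul, abs_of_pos (inv_pos.2 hN0), inv_mul_le_iff₀ hN0] at hp
    linarith [(abs_le.1 hp).1]
  have hco : coreErr Q.β d 0 Q.κ ν S Φs Q.H
      = avgIB S fun i b => ∑ x, onVal i b x * ν x * cell i b x := by
    simp only [coreErr, Ladder.fieldE_zero' h.law.one, priorAt_zero' _ h.law.one, avgIB, cell]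
  rw [hco]
  refine (avgIB_mono fun i hi b => hpair i hi b).trans ?_
  rw [avgIB_add, avgIB_smul]
  refine add_le_add ?_ le_rfl
  rw [← samE_avg h.law fun i hi b => bm_mul' (h.bm_wp hi) (bm_state (cell i b) hh)]
  -- pointwise, through the predicted values
  set X := fun P : Sam n r => avgIB S fun i b => Q.wp d S i b s P
  set V := fun (Φ : ℝ → ℝ → ℝ) (P : Sam n r) => avgIB S fun i b => Q.wp d S i b s P
    * (Q.val d S ν (fun u => Φ u 0) i b s P - atS d ro Q.β (Q.nm (fun u => Φ u 0) b s) i P) ^ 2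
  set Y := fun P : Sam n r => min 4 |farR Q.β d 0 ν 0 S Q.H (z0 P)
    - vWin Q.β (cellAt ro d P) hh (hh + Q.H) (Q.kEnd r s)|
  obtain ⟨hf0, hf1⟩ := frac_mem (S := S) h.hn
  set fr := (n : ℝ)⁻¹ * (Sᶜ.card : ℝ) with hfr
  have hwp : ∀ i b (P : Sam n r), 0 ≤ Q.wp d S i b s P := fun i b P => (h.wgt_le i b _ _).1
  have hpt : ∀ P : Sam n r, avgIB S (fun i b => Q.wp d S i b s P * cell i b (z0 P))
      ≤ ∑ Φ ∈ Φs, (l * X P + (4 * l)⁻¹ * V Φ P)
        + Φs.card * (l + (4 * l)⁻¹ * Y P + 2 * |X P - fr|) := by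
    intro P
    set θ := cellAt ro d P
    set y := min 2 √|farR Q.β d 0 ν 0 S Q.H (z0 P) - vWin Q.β θ hh (hh + Q.H) (Q.kEnd r s)|
    have hsite : ∀ i, i ∉ S → ∀ b, Q.wp d S i b s P * cell i b (z0 P)
        ≤ ∑ Φ ∈ Φs, (l * Q.wp d S i b s P + (4 * l)⁻¹ * (Q.wp d S i b s P
          * (Q.val d S ν (fun u => Φ u 0) i b s P - atS d ro Q.β (Q.nm (fun u => Φ u 0) b s) i P) ^ 2))
          + Φs.card * y * Q.wp d S i b s P := by
      intro i hi b
      set a := zSite θ (cutAt b hh (sDat Q.β ro d P i)) (Q.kEnd r s)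
      refine (mul_le_mul_of_nonneg_left (hle i b (z0 P) a) (hwp i b P)).trans ?_
      have hg : ∀ Φ ∈ Φs, |sl Φ i b (z0 P) - nE a (farR Q.β d 0 ν 0 S Q.H (z0 P)) fun u => Φ u 0|
          ≤ (l + (4 * l)⁻¹ * (Q.val d S ν (fun u => Φ u 0) i b s P
            - atS d ro Q.β (Q.nm (fun u => Φ u 0) b s) i P) ^ 2) + y := fun Φ hΦ' => by
        refine (abs_sub_le _ (atS d ro Q.β (Q.nm (fun u => Φ u 0) b s) i P) _).trans (add_le_add ?_ ?_)
        · exact (le_add_sq_div hl).trans (le_of_eq (by rw [div_eq_inv_mul]; rfl))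
        · exact nE_var_le (hf Φ hΦ') a (vWin Q.β θ hh (hh + Q.H) (Q.kEnd r s)) _
      refine (mul_le_mul_of_nonneg_left (sum_le_sum hg) (hwp i b P)).trans (le_of_eq ?_)
      rw [sum_add_distrib, sum_const, nsmul_eq_mul, mul_add, mul_sum]
      refine congrArg₂ (· + ·) (sum_congr rfl fun Φ _ => ?_) ?_ <;> ring
    refine (avgIB_mono hsite).trans ?_
    rw [avgIB_add, avgIB_smul]
    have e : avgIB S (fun i b => ∑ Φ ∈ Φs, (l * Q.wp d S i b s P + (4 * l)⁻¹ * (Q.wp d S i b s P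
          * (Q.val d S ν (fun u => Φ u 0) i b s P - atS d ro Q.β (Q.nm (fun u => Φ u 0) b s) i P) ^ 2)))
        = ∑ Φ ∈ Φs, avgIB S (fun i b => l * Q.wp d S i b s P + (4 * l)⁻¹ * (Q.wp d S i b s P
          * (Q.val d S ν (fun u => Φ u 0) i b s P - atS d ro Q.β (Q.nm (fun u => Φ u 0) b s) i P) ^ 2)) := by
      simp only [avgIB, mul_sum]
      rw [sum_congr rfl fun i _ => sum_comm, sum_comm]
    rw [e]
    simp only [avgIB_add, avgIB_smul]
    refine add_le_add le_rfl ?_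
    rw [mul_assoc]
    refine mul_le_mul_of_nonneg_left ?_ (Nat.cast_nonneg _)
    have y0 : 0 ≤ y := le_min zero_le_two (sqrt_nonneg _)
    have h1 : y * fr ≤ y := mul_le_of_le_one_right y0 hf1
    have h2 := mul_le_mul_of_nonneg_left (le_abs_self (X P - fr)) y0
    have h3 := mul_le_mul_of_nonneg_right (show y ≤ 2 from min_le_left _ _) (abs_nonneg (X P - fr))
    have h4 := (le_abs_self y).trans (le_add_sq_div (x := y) hl)
    rw [min_two_sqrt_sq, div_eq_inv_mul] at h4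
    simp only [X, Y] at h2 h3 ⊢
    linarith
  have hX : BM X := bm_avgIB fun i hi b => h.bm_wp hi
  have hV : ∀ Φ ∈ Φs, BM (V Φ) := fun Φ hΦ' => bm_avgIB fun i hi b => by
    have hn : BM (atS d ro Q.β (Q.nm (fun u => Φ u 0) b s) i) :=
      h.bm_atS (fun θ _ => (nm_facts (hf Φ hΦ') b s θ).1) i
    simp only [pow_two]
    exact bm_mul' (h.bm_wp hi) (bm_mul' (bm_sub' (bm_val _ s) hn) (bm_sub' (bm_val _ s) hn))
  have hY : BM Y := bm_cell h.mem h.read (F := fun θ P => min 4 |farR Q.β d 0 ν 0 S Q.H (z0 P)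
      - vWin Q.β θ hh (hh + Q.H) (Q.kEnd r s)|) fun θ _ =>
    ⟨measurable_const.min (bm_abs (bm_sub' (bm_state (farR Q.β d 0 ν 0 S Q.H) hh) (BM.const _))).1, 4,
      fun P => by rw [abs_of_nonneg (le_min (by norm_num) (abs_nonneg _))]; exact min_le_left _ _⟩
  have hA' : BM fun P => |X P - fr| := bm_abs (bm_sub' hX (BM.const fr))
  have hterm : ∀ Φ ∈ Φs, BM fun P => l * X P + (4 * l)⁻¹ * V Φ P := fun Φ hΦ' =>
    bm_add' (bm_cmul hX _) (bm_cmul (hV Φ hΦ') _)
  have hS1 : BM fun P => ∑ Φ ∈ Φs, (l * X P + (4 * l)⁻¹ * V Φ P) := BM.sum _ hterm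
  have hS2 : BM fun P => l + (4 * l)⁻¹ * Y P + 2 * |X P - fr| :=
    bm_add' (bm_add' (BM.const l) (bm_cmul hY _)) (bm_cmul hA' 2)
  refine (samE_mono h.law (bm_avgIB fun i hi b => bm_mul' (h.bm_wp hi) (bm_state (cell i b) hh))
    (bm_add' hS1 (bm_cmul hS2 _)) hpt).trans ?_
  rw [samE_add h.law hS1 (bm_cmul hS2 _), samE_smul h.law hS2, samE_sum h.law _ hterm,
    samE_add h.law (bm_add' (BM.const l) (bm_cmul hY _)) (bm_cmul hA' 2),
    samE_add h.law (BM.const l) (bm_cmul hY _), samE_const h.law, samE_smul h.law hY,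
    samE_smul h.law hA']
  have hXm : samE A ν S X ≤ 1 + Q.eWin d ν S C₀ (Q.K * Q.H) := by
    rw [samE_avg h.law fun i hi b => h.bm_wp hi]
    refine (avgIB_mono fun i hi b => (?_ : _ ≤ muB ν i b + Q.we d ν S C₀ (Q.K * Q.H) i b)).trans ?_
    · linarith [(abs_le.1 (h.mass_past (b := b) hi h0 hs)).2]
    · rw [avgIB_add]
      exact add_le_add (avg_muB_le h) le_rfl
  have hsum : ∑ Φ ∈ Φs, samE A ν S (fun P => l * X P + (4 * l)⁻¹ * V Φ P)
      ≤ ∑ Φ ∈ Φs, Q.eVal d ν S ro (fun u => Φ u 0) j / (4 * l)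
        + Φs.card * (l * (1 + Q.eWin d ν S C₀ (Q.K * Q.H))) := by
    rw [← nsmul_eq_mul, ← sum_const, ← sum_add_distrib]
    refine sum_le_sum fun Φ hΦ' => ?_
    rw [samE_add h.law (bm_cmul hX _) (bm_cmul (hV Φ hΦ') _), samE_smul h.law hX,
      samE_smul h.law (hV Φ hΦ'), div_eq_inv_mul, add_comm]
    exact add_le_add (le_of_eq rfl) (mul_le_mul_of_nonneg_left hXm hl.le)
  have e3 : Q.eVar d ν S ro j = samE A ν S Y := rfl
  have e4 : Q.eMass d ν S r j = samE A ν S fun P => |X P - fr| := rfl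
  rw [e3, e4, div_eq_inv_mul]
  linarith

end Vale.Agent.P150.Fast.Core
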