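import Mathlib
import Vale.Agent.P150.Fast.Cavity.Core.BlockModel

/-!
The bounded test of the noise gain: its normal means and the value of a free window in the model
(P150, core of M4).
-/

open MeasureTheory ProbabilityTheory Real Finset
open scoped Matrix

namespace Vale.Agent.P150.Fast.Core

variable {n r : ℕ}

/-- A bounded test that grows with the variance. -/
noncomputable def phiM (M u : ℝ) : ℝ := (1 - cos (u / M)) / 2

theorem phiM_mem (M u : ℝ) : 0 ≤ phiM M u ∧ phiM M u ≤ 1 := by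
  have := neg_one_le_cos (u / M)
  have := cos_le_one (u / M)
  unfold phiM
  constructor <;> linarith

theorem phiM_test {M : ℝ} (hM : 1 ≤ M) : IsTest1 (phiM M) := by
  refine ⟨fun u => by rw [abs_of_nonneg (phiM_mem M u).1]; exact (phiM_mem M u).2, fun u v => ?_⟩
  have h := abs_cos_sub_cos_le (u / M) (v / M)
  rw [← sub_div, abs_div, abs_of_pos (zero_lt_one.trans_le hM)] at h
  have h2 : |u - v| / M ≤ |u - v| := div_le_self (abs_nonneg _) hM
  rw [phiM, phiM, show (1 - cos (u / M)) / 2 - (1 - cos (v / M)) / 2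
    = -(cos (u / M) - cos (v / M)) / 2 by ring, abs_div, abs_neg, abs_two]
  linarith [abs_nonneg (u - v), abs_nonneg (cos (u / M) - cos (v / M))]

theorem phiM_le_sq (M u : ℝ) : phiM M u ≤ u ^ 2 / (4 * M ^ 2) := by
  have h : 1 - cos (u / M) = 2 * sin (u / M / 2) ^ 2 := by
    have := cos_two_mul (u / M / 2)
    rw [show 2 * (u / M / 2) = u / M by ring] at this
    linarith [sin_sq_add_cos_sq (u / M / 2)]
  have hs : sin (u / M / 2) ^ 2 ≤ (u / M / 2) ^ 2 := sq_le_sq.2 abs_sin_le_abs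
  rw [phiM, h, show u ^ 2 / (4 * M ^ 2) = (u / M / 2) ^ 2 by ring]
  linarith

/-- The normal mean of a cosine. -/
theorem nE_cos (a : ℝ) {v : ℝ} (hv : 0 ≤ v) (c : ℝ) :
    nE a v (fun u => cos (c * u)) = cos (c * a) * exp (-(c ^ 2 * v / 2)) := by
  have h := charFun_gaussianReal (μ := 0) (v := 1) (c * √v)
  rw [charFun_apply_real] at h
  have hi : ∀ F : ℝ → ℝ, Continuous F → (∀ x, |F x| ≤ 1) →
      Integrable F (gaussianReal 0 1) := fun F hF hb =>
    Integrable.of_bound hF.aestronglyMeasurable 1 (.of_forall hb)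
  have e : ∀ g : ℝ, Complex.exp ((c * √v : ℝ) * g * Complex.I)
      = (cos (c * √v * g) : ℂ) + (sin (c * √v * g) : ℂ) * Complex.I := fun g => by
    rw [← Complex.ofReal_mul, Complex.exp_mul_I, ← Complex.ofReal_cos, ← Complex.ofReal_sin]
  simp only [e] at h
  rw [integral_add ((hi _ (by fun_prop) fun _ => abs_cos_le_one _).ofReal)
      (((hi _ (by fun_prop) fun _ => abs_sin_le_one _).ofReal).mul_const _),
    integral_mul_const] at h
  simp only [integral_complex_ofReal, NNReal.coe_one] at h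
  have e2 : Complex.exp ((c * √v : ℝ) * (0 : ℝ) * Complex.I - (1 : ℝ) * (c * √v : ℝ) ^ 2 / 2)
      = (exp (-(c ^ 2 * v / 2)) : ℂ) := by
    rw [Complex.ofReal_exp]
    congr 1
    push_cast
    rw [mul_pow, ← Complex.ofReal_pow √v, sq_sqrt hv]
    ring
  rw [e2] at h
  have hc := congrArg Complex.re h
  have hs := congrArg Complex.im h
  simp only [Complex.add_re, Complex.add_im, Complex.mul_re, Complex.mul_im, Complex.ofReal_re,
    Complex.ofReal_im, Complex.I_re, Complex.I_im, mul_zero, mul_one, sub_zero, add_zero, zero_add] at hc hs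
  rw [nE, show (fun g => cos (c * (a + √v * g)))
    = fun g => cos (c * a) * cos (c * √v * g) - sin (c * a) * sin (c * √v * g) from
      funext fun g => by rw [← cos_add]; congr 1; ring]
  rw [integral_sub ((hi _ (by fun_prop) fun _ => abs_cos_le_one _).const_mul _)
      ((hi _ (by fun_prop) fun _ => abs_sin_le_one _).const_mul _),
    integral_const_mul, integral_const_mul, hc, hs, mul_zero, sub_zero]

/-- The normal mean of the test sees the variance at every centre. -/
theorem phiM_mean {M : ℝ} (a : ℝ) {u v : ℝ} (hu : 0 ≤ u) (huv : u ≤ v) :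
    1 - exp (-u / (2 * M ^ 2)) ≤ 2 * nE a v (phiM M) := by
  have hv : 0 ≤ v := hu.trans huv
  have hi : Integrable (fun g => cos (M⁻¹ * (a + √v * g))) (gaussianReal 0 1) :=
    Integrable.of_bound (Continuous.aestronglyMeasurable (by fun_prop)) 1
      (.of_forall fun g => abs_cos_le_one _)
  have e : nE a v (phiM M) = (1 - nE a v (fun g => cos (M⁻¹ * g))) / 2 := by
    simp only [nE, phiM, div_eq_inv_mul (b := M)]
    rw [integral_div, integral_sub (integrable_const 1) hi, integral_const]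
    simp
  have h1 : cos (M⁻¹ * a) * exp (-(M⁻¹ ^ 2 * v / 2)) ≤ exp (-u / (2 * M ^ 2)) := by
    refine (mul_le_of_le_one_left (exp_pos _).le (cos_le_one _)).trans (exp_le_exp.2 ?_)
    rw [show -u / (2 * M ^ 2) = -(M⁻¹ ^ 2 * u / 2) by ring]
    have := mul_le_mul_of_nonneg_left huv (sq_nonneg M⁻¹)
    linarith
  rw [e, nE_cos a hv]
  linarith

variable {Q : Par} {d : Dis n} {S : Finset (Fin n)} {ro : Readout n r} {ν : Conf n → ℝ}
  {net : Finset (Coef (ncol r))} {C L lam m₀ M : ℝ} {θ : Coef (ncol r)} {b : Bool} {s : ℕ}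

/-- The weight of the free window after the present, in the model. -/
noncomputable def Par.w1 (Q : Par) (b : Bool) (s : ℕ) (θ : Coef (ncol r)) (e : Site r) : ℝ :=
  mWin Q.β θ (fun _ => 1) 1 Q.R b (s + Q.K * Q.H) Q.H e

/-- What the bounded test sees of the noise gain of a block. -/
noncomputable def Par.gam (Q : Par) (M : ℝ) (s : ℕ) (θ : Coef (ncol r)) : ℝ :=
  1 - exp (-(Q.W * winGam θ (Q.kEnd r s) (s + Q.K * Q.H) (s + Q.K * Q.H + Q.H)) / (2 * M ^ 2))

theorem Ctx.gam_mem (h : Ctx Q d S ro ν net C L lam m₀) (M : ℝ) (s : ℕ) (θ : Coef (ncol r)) :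
    0 ≤ Q.gam M s θ ∧ Q.gam M s θ ≤ 1 := by
  refine ⟨sub_nonneg.2 (exp_le_one_iff.2 ?_), sub_le_self _ (exp_pos _).le⟩
  rw [neg_div, neg_nonpos]
  exact div_nonneg (mul_nonneg h.hW.le (winGam_nonneg θ _ _ _)) (by positivity)

/-- The bound of a free factor. -/
theorem free_fac_le (hR : 0 < Q.R) (b : Bool) (y : ℝ) :
    0 ≤ cutW Q.R b y ∧ cutW Q.R b y ≤ facB Q.R 1 :=
  ⟨(cutW_mem hR b y).1, (cutW_mem hR b y).2.trans (le_max_of_le_right (div_one (cutB Q.R)).ge)⟩

theorem Ctx.w1_mem (h : Ctx Q d S ro ν net C L lam m₀) (b : Bool) (hs : s + Q.K * Q.H + Q.H ≤ r)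
    (θ : Coef (ncol r)) (e : Site r) :
    0 ≤ Q.w1 b s θ e ∧ Q.w1 b s θ e ≤ facB Q.R 1 ^ Q.H := by
  rw [Par.w1, mWin_form θ b hs]
  have ha := atB_mem e (s + Q.K * Q.H) b
  have hf : ∀ (c y : ℝ), 0 ≤ c → c ≤ 1 →
      0 ≤ c * (1 / 1 * cutW Q.R b y) ∧ c * (1 / 1 * cutW Q.R b y) ≤ facB Q.R 1 := fun c y h0 h1 => by
    rw [div_one, one_mul]
    exact ⟨mul_nonneg h0 (free_fac_le h.hR b y).1,
      (mul_le_of_le_one_left (free_fac_le h.hR b y).1 h1).trans (free_fac_le h.hR b y).2⟩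
  refine ⟨mul_nonneg ha.1 (prod_nonneg fun t _ => (hf _ _ (by split <;> norm_num)
    (by split <;> norm_num)).1), ?_⟩
  refine (mul_le_of_le_one_left (prod_nonneg fun t _ => (hf _ _ (by split <;> norm_num)
    (by split <;> norm_num)).1) ha.2).trans ?_
  refine (prod_le_prod (g := fun _ => facB Q.R 1) (fun t _ => (hf _ _ (by split <;> norm_num)
    (by split <;> norm_num)).1) fun t _ => (hf _ _ (by split <;> norm_num)
      (by split <;> norm_num)).2).trans_eq (by simp)

theorem Ctx.free_ok (_h : Ctx Q d S ro ν net C L lam m₀) :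
    WinBase Q.W (fun _ => (1 : ℝ)) (chiR Q.R) :=
  WinBase.free _ (continuous_chiR _) (chiR_mem _)

theorem Ctx.bm_w1 (h : Ctx Q d S ro ν net C L lam m₀) (b : Bool) (hs : s + Q.K * Q.H + Q.H ≤ r)
    (θ : Coef (ncol r)) : BM (Q.w1 b s θ) := by
  refine ⟨?_, facB Q.R 1 ^ Q.H, fun e => ?_⟩
  · have e1 : Q.w1 b s θ = fun e => atB e (s + Q.K * Q.H) b
        * winWt (shift Q.β) 0 θ b (fun _ => 1) (chiR Q.R) (s + Q.K * Q.H)
            (s + Q.K * Q.H + Q.H) e := by
      funext e; simp [Par.w1, mWin]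
    rw [e1]
    exact (measurable_atB _ b).mul (measurable_winWt h.free_ok _ _ θ b _ _)
  · rw [abs_of_nonneg (h.w1_mem b hs θ e).1]; exact (h.w1_mem b hs θ e).2

theorem w1_upto (hθ : NetOK C θ) (b : Bool) (s : ℕ) :
    Upto (s + Q.K * Q.H + Q.H) (Q.w1 b s θ) := mWin_upto hθ _ _ b _ _

/-- The weight holds the site at the present. -/
theorem w1_held (b : Bool) (s : ℕ) (θ : Coef (ncol r)) (e : Site r) :
    atB e (s + Q.K * Q.H) b * Q.w1 b s θ e = Q.w1 b s θ e := by
  simp only [Par.w1, mWin]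
  unfold atB
  split <;> simp

/-- The value of a free window sees the noise gain. -/
theorem Ctx.free_value (h : Ctx Q d S ro ν net C L lam m₀) (hθ : θ ∈ net) (hM : 1 ≤ M)
    (hs : s + Q.K * Q.H + Q.H ≤ r) (b : Bool) (e : Site r) :
    atB e (s + Q.K * Q.H) b * Q.gam M s θ
      ≤ 2 * (atB e (s + Q.K * Q.H) b * (condM Q.β (shift Q.β) Q.W 0 θ true (s + Q.K * Q.H)
            (s + Q.K * Q.H + Q.H) (fun e => Q.w1 b s θ e * Q.zm (phiM M) s θ e) e)
          + atB e (s + Q.K * Q.H) b - atB e (s + Q.K * Q.H) b * condM Q.β (shift Q.β) Q.W 0 θ true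
            (s + Q.K * Q.H) (s + Q.K * Q.H + Q.H) (Q.w1 b s θ) e) := by
  set hh := s + Q.K * Q.H
  have hC := h.netOK θ hθ
  set w := winWt (shift Q.β) 0 θ b (fun _ => 1) (chiR Q.R) hh (hh + Q.H)
  set a : Site r → ℝ := fun e => atB e hh b
  have hw1 : Q.w1 b s θ = a * w := by funext e; simp [Par.w1, mWin, a, w, hh]
  have hw2 : (fun e => Q.w1 b s θ e * Q.zm (phiM M) s θ e) = a * (w * Q.zm (phiM M) s θ) := by
    funext e; simp [hw1, mul_assoc]
  rw [hw2, hw1, condM_pull _ _ _ _ θ true (atB_upto hh b), condM_pull _ _ _ _ θ true (atB_upto hh b)]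
  simp only [Pi.mul_apply]
  obtain ⟨-, -, h2⟩ := condM_window_free (β := Q.β) (κ := shift Q.β) (s := 0) (θ := θ) (h := hh)
    (Φ := fun u _ => phiM M u) (g := fun _ : Site r => (0 : ℝ)) hC b h.hW.le (continuous_chiR Q.R)
    (chiR_mem Q.R) (t := tm r (hh + Q.H)) (by rw [tm_val hs]; omega) (fun u _ => (phiM_test hM).1 u)
    (fun u v u' v' => ((phiM_test hM).2 u u').trans (le_add_of_nonneg_right (abs_nonneg _)))
    (upto_const _ _) measurable_const e
  rw [tm_val hs] at h2
  set c4 := condM Q.β (shift Q.β) Q.W 0 θ true hh (hh + Q.H) (w * Q.zm (phiM M) s θ) e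
  set c5 := condM Q.β (shift Q.β) Q.W 0 θ true hh (hh + Q.H) w e
  have h3 : Q.gam M s θ ≤ 2 * (c4 + 1 - c5) := by
    have hm := phiM_mean (M := M) (zSite θ (cutAt b hh e) (xcol (tm r (hh + Q.H))))
      (mul_nonneg h.hW.le (winGam_nonneg θ (xcol (tm r (hh + Q.H))) hh (hh + Q.H)))
      (le_add_of_nonneg_left (vWin_nonneg Q.β θ hh (hh + Q.H) (xcol (tm r (hh + Q.H)))))
    have h4 : nE (zSite θ (cutAt b hh e) (xcol (tm r (hh + Q.H))))
        (vWin Q.β θ hh (hh + Q.H) (xcol (tm r (hh + Q.H)))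
          + Q.W * winGam θ (xcol (tm r (hh + Q.H))) hh (hh + Q.H)) (phiM M) ≤ c4 + 1 - c5 := by
      have := (abs_le.1 h2).1
      change -(1 - c5) ≤ c4 - _ at this
      linarith
    exact hm.trans (mul_le_mul_of_nonneg_left h4 zero_le_two)
  have ha := atB_mem e hh b
  have haa : a e * a e = a e := by simp only [a, atB]; split <;> simp
  have h5 := mul_le_mul_of_nonneg_left h3 ha.1
  calc atB e hh b * Q.gam M s θ ≤ atB e hh b * (2 * (c4 + 1 - c5)) := h5
    _ = 2 * (a e * (a e * c4) + a e - a e * (a e * c5)) := by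
      rw [← mul_assoc (a e) (a e), ← mul_assoc (a e) (a e), haa]; ring

end Vale.Agent.P150.Fast.Core
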