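import Mathlib
import Vale.Agent.P150.Fast.Cavity.Core.GammaTest
import Vale.Agent.P150.Fast.Cavity.Core.Errors
import Vale.Agent.P150.Fast.Entropy.NormFacts

/-!
The noise gain of a block bounded through free windows: centred tests, window errors and the
second moment of the coupling field (P150, core of M4).
-/

open MeasureTheory Real Finset
open scoped Matrix

namespace Vale.Agent.P150.Fast.Core

variable {n r : ℕ} {Q : Par} {d : Dis n} {S : Finset (Fin n)} {ro : Readout n r} {ν : Conf n → ℝ}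
  {net : Finset (Coef (ncol r))} {C L lam m₀ M C₁ : ℝ} {b : Bool} {j : ℕ}

/-- The weight of the tests of the gain: the site is held at the present. -/
noncomputable def Par.phiG (Q : Par) (b : Bool) (_θ : Coef (ncol r)) (j : ℕ) (e : Site r) : ℝ :=
  atB e (Q.blk j + Q.K * Q.H) b

/-- The free windows of the tests of the gain: with the bounded test, without. -/
noncomputable def Par.zG (Q : Par) (M : ℝ) (b : Bool) : Fin 2 → Coef (ncol r) → ℕ → Site r → ℝ
  | 0, θ, j, e => Q.w1 b (Q.blk j) θ e * Q.zm (phiM M) (Q.blk j) θ e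
  | 1, θ, j, e => Q.w1 b (Q.blk j) θ e

/-- The centred test of a site for the gain of block `j`. -/
noncomputable def Par.cG (Q : Par) (M : ℝ) (b : Bool) (a : Fin 2) (j : ℕ) (θ : Coef (ncol r))
    (e : Site r) : ℝ :=
  Q.phiG b θ j e * (Q.zG M b a θ j e - condM Q.β (shift Q.β) Q.W 0 θ true (Q.blk j + Q.K * Q.H)
    (Q.blk j + Q.K * Q.H + Q.H) (Q.zG M b a θ j) e)

/-- The mean of one centred test of the gain of block `j`. -/
noncomputable def Par.tauG (Q : Par) (d : Dis n) (ν : Conf n → ℝ) (S : Finset (Fin n))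
    (ro : Readout n r) (M : ℝ) (b : Bool) (a : Fin 2) (j : ℕ) : ℝ :=
  samE (aop n Q.β d) ν S fun P => (n : ℝ)⁻¹ * ∑ i ∈ Sᶜ, atS d ro Q.β (Q.cG M b a j) i P

/-- The mean noise gain of block `j`, seen by the bounded test, over the free sites. -/
noncomputable def Par.eGam (Q : Par) (d : Dis n) (ν : Conf n → ℝ) (S : Finset (Fin n))
    (ro : Readout n r) (M : ℝ) (j : ℕ) : ℝ :=
  samE (aop n Q.β d) ν S fun P => (n : ℝ)⁻¹ * Sᶜ.card * Q.gam M (Q.blk j) (cellAt ro d P)

theorem Ctx.gammaTests (h : Ctx Q d S ro ν net C L lam m₀) (hM : 1 ≤ M) (b : Bool) {J : ℕ}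
    (hr : Q.blk J ≤ r) (a : Fin 2) :
    WinTests r J (facB Q.R 1 ^ Q.H) net (fun j => Q.blk j + Q.K * Q.H)
      (fun j => Q.blk j + Q.K * Q.H + Q.H) (Q.phiG b) (Q.zG M b a) := by
  have hW : ∀ θ ∈ net, ∀ j < J, BM (Q.w1 b (Q.blk j) θ)
      ∧ ∀ e, |Q.w1 b (Q.blk j) θ e| ≤ facB Q.R 1 ^ Q.H := fun θ _ j hj => by
    refine ⟨h.bm_w1 b (Q.blk_le hj hr) θ, fun e => ?_⟩
    rw [abs_of_nonneg (h.w1_mem b (Q.blk_le hj hr) θ e).1]
    exact (h.w1_mem b (Q.blk_le hj hr) θ e).2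
  have hZ : ∀ θ ∈ net, ∀ j < J, Measurable (Q.zG M b a θ j)
      ∧ Upto (Q.blk j + Q.K * Q.H + Q.H) (Q.zG M b a θ j)
      ∧ ∀ e, |Q.zG M b a θ j e| ≤ facB Q.R 1 ^ Q.H := by
    intro θ hθ j hj
    obtain ⟨w1, w3⟩ := hW θ hθ j hj
    have w2 := w1_upto (Q := Q) (h.netOK θ hθ) b (Q.blk j)
    have z2 := zm_upto (h.netOK θ hθ) (phiM M) (k := Q.blk j + Q.K * Q.H + Q.H) (Q.blk_le hj hr)
    fin_cases a
    · refine ⟨w1.1.mul (Ctx.bm_zm (phiM_test hM) _ θ).1, Upto.map₂ (fun x y => x * y) w2 z2,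
        fun e => ?_⟩
      show |_ * _| ≤ _
      rw [abs_mul]
      exact (mul_le_of_le_one_right (abs_nonneg _) ((phiM_test hM).1 _)).trans (w3 e)
    · exact ⟨w1.1, w2, w3⟩
  exact ⟨fun j _ => Nat.le_add_right _ _,
    fun j _ => show _ ≤ _ from (Q.blk_succ j).symm.trans_le (Nat.le_add_right _ _),
    fun j hj => Q.blk_le hj hr, pow_nonneg (zero_le_one.trans (le_max_left _ _)) _,
    fun θ _ j _ => atB_upto _ b, fun θ _ j _ => measurable_atB _ b,
    fun θ _ j _ e => by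
      rw [Par.phiG, abs_of_nonneg (atB_mem e _ b).1]; exact (atB_mem e _ b).2,
    fun θ hθ j hj => (hZ θ hθ j hj).2.1, fun θ hθ j hj => (hZ θ hθ j hj).1,
    fun θ hθ j hj => (hZ θ hθ j hj).2.2⟩

theorem Ctx.bm_cG (h : Ctx Q d S ro ν net C L lam m₀) (hM : 1 ≤ M) (b : Bool) (a : Fin 2)
    (hs : Q.blk j + Q.K * Q.H + Q.H ≤ r) (i : Fin n) :
    BM fun P => atS d ro Q.β (Q.cG M b a j) i P := by
  refine h.bm_atS (fun θ hθ => ?_) i
  have hz : BM (Q.zG M b a θ j) := by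
    fin_cases a
    · exact (h.bm_w1 b hs θ).mul (Ctx.bm_zm (phiM_test hM) _ θ)
    · exact h.bm_w1 b hs θ
  exact bm_mul' ⟨measurable_atB _ b, 1, fun e => by
    rw [Par.phiG, abs_of_nonneg (atB_mem e _ b).1]; exact (atB_mem e _ b).2⟩
    (bm_sub' hz ((condM_posOp _ _ _ _ θ true _ _).bm hz))

/-- The centred sum over blocks, in expectation, is the sum of the named means. -/
theorem Ctx.tauG_sum (h : Ctx Q d S ro ν net C L lam m₀) (hM : 1 ≤ M) (b : Bool) (a : Fin 2)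
    {J : ℕ} (hr : Q.blk J ≤ r) :
    samE (aop n Q.β d) ν S (fun P => (n : ℝ)⁻¹ * ∑ i ∈ Sᶜ,
        centred Q.β Q.W J (fun j => Q.blk j + Q.K * Q.H) (fun j => Q.blk j + Q.K * Q.H + Q.H)
          (Q.phiG b) (Q.zG M b a) (cellAt ro d P) (sDat Q.β ro d P i))
      = ∑ j ∈ range J, Q.tauG d ν S ro M b a j := by
  have e : (fun P => (n : ℝ)⁻¹ * ∑ i ∈ Sᶜ,
      centred Q.β Q.W J (fun j => Q.blk j + Q.K * Q.H) (fun j => Q.blk j + Q.K * Q.H + Q.H)
        (Q.phiG b) (Q.zG M b a) (cellAt ro d P) (sDat Q.β ro d P i))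
      = fun P => ∑ j ∈ range J, (n : ℝ)⁻¹ * ∑ i ∈ Sᶜ, atS d ro Q.β (Q.cG M b a j) i P := by
    funext P
    simp only [centred, mul_sum]
    rw [sum_comm]
    rfl
  rw [e, samE_sum h.law _ fun j hj => bm_cmul (BM.sum _ fun i _ =>
    h.bm_cG hM b a (Q.blk_le (mem_range.1 hj) hr) i) _]
  rfl

theorem Ctx.free_win (h : Ctx Q d S ro ν net C L lam m₀) {i : Fin n} (hi : i ∉ S) :
    Win (aop n Q.β d) ν S (fun _ => 1) 1 1 Q.R i :=
  ⟨h.law, hi, continuous_const, fun _ => ⟨zero_le_one, le_rfl⟩, by simp [nE], one_pos, le_rfl, h.hR⟩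

/-- The cap of the reconstruction error of a free window. -/
noncomputable def Par.gaB (Q : Par) : ℝ := 2 * facB Q.R 1 ^ Q.H

/-- The slope of the reconstruction error of a free window. -/
noncomputable def Par.gaL (Q : Par) : ℝ := winLip Q.R 1 Q.H + facB Q.R 1 ^ Q.H

theorem gaL_nonneg (hR : 0 < Q.R) : 0 ≤ Q.gaB ∧ 0 ≤ Q.gaL := by
  unfold Par.gaB Par.gaL winLip facB cutL cutB
  constructor <;> positivity

/-- The gain at one site and value. -/
theorem Ctx.gamma_site (h : Ctx Q d S ro ν net C L lam m₀) (hM : 1 ≤ M)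
    (hs : Q.blk j + Q.K * Q.H + Q.H ≤ r) {i : Fin n} (hi : i ∉ S) (h1 : WinC Q.H Q.R 1 C₁)
    (b : Bool) :
    samE (aop n Q.β d) ν S (fun P =>
        onVal i b (stAt P.1.1 P.1.2.2 (Q.blk j + Q.K * Q.H)) * Q.gam M (Q.blk j) (cellAt ro d P))
      ≤ 2 * ∑ x, onVal i b x * ν x * phiM M (zField Q.β d x i)
        + 4 * wErr (aop n Q.β d) ν S (fun _ => 1) 1 Q.R C₁ Q.H i b
        + 2 * (samE (aop n Q.β d) ν S (fun P => atS d ro Q.β (Q.cG M b 1 j) i P)
          - samE (aop n Q.β d) ν S (fun P => atS d ro Q.β (Q.cG M b 0 j) i P))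
        + 4 * samE (aop n Q.β d) ν S (fun P => min Q.gaB (Q.gaL * zErr Q.β ro d P i)) := by
  set s := Q.blk j
  set hh := s + Q.K * Q.H with hhd
  set A := aop n Q.β d
  set φ : Conf n → ℝ := fun z => phiM M (zField Q.β d z i)
  set wg : Sam n r → ℝ := fun P =>
    wgt A S (fun _ => 1) 1 Q.R i b (stAt P.1.1 P.1.2.2 hh) (winC P.1.1 P.1.2.2 hh Q.H)
  have w := h.free_win hi
  set B := facB Q.R 1 ^ Q.H
  have hB : 1 ≤ B := one_le_pow₀ (le_max_left _ _)
  have hwg : ∀ x (ω : Om n Q.H), 0 ≤ wgt A S (fun _ => 1) 1 Q.R i b x ω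
      ∧ wgt A S (fun _ => 1) 1 Q.R i b x ω ≤ B := fun x ω => by
    refine ⟨(w.wgt_mem b x ω).1, (w.wgt_mem b x ω).2.trans (pow_le_pow_left₀ (by positivity) ?_ _)⟩
    rw [div_one, one_mul]
    exact le_max_of_le_right (div_one (cutB Q.R)).ge
  have hwb : BM wg := by
    refine bm_path (G := fun x ω => wgt A S (fun _ => 1) 1 Q.R i b (stAt x ω hh) (winC x ω hh Q.H))
      (fun x => ?_) (B := B) fun x ω => ?_
    · exact (measurable_from_prod_countable_right (f := fun p : Conf n × Om n Q.H =>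
        wgt A S (fun _ => 1) 1 Q.R i b p.1 p.2) fun z => w.measurable_wgt b z).comp
          ((measurable_stAt x hh).prodMk (measurable_winC x hh Q.H))
    · rw [abs_of_nonneg (hwg _ _).1]; exact (hwg _ _).2
  have hpt : ∀ P, onVal i b (stAt P.1.1 P.1.2.2 hh) * Q.gam M s (cellAt ro d P)
      ≤ 2 * (wg P * φ (stAt P.1.1 P.1.2.2 (hh + Q.H)) + (onVal i b (stAt P.1.1 P.1.2.2 hh) - wg P)
        + (atS d ro Q.β (Q.cG M b 1 j) i P - atS d ro Q.β (Q.cG M b 0 j) i P))
        + 4 * min Q.gaB (Q.gaL * zErr Q.β ro d P i) := fun P => by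
    set θ := cellAt ro d P
    set e := sDat Q.β ro d P i
    have he : 0 ≤ zErr Q.β ro d P i := sum_nonneg fun _ _ => abs_nonneg _
    have ha : atB e hh b = onVal i b (stAt P.1.1 P.1.2.2 hh) := atB_eq P i hh b
    have hfv := h.free_value (θ := θ) (M := M) (h.mem P.1) hM hs b e
    rw [ha] at hfv
    have hm5 : |Q.w1 b s θ e - wg P| ≤ winLip Q.R 1 Q.H * zErr Q.β ro d P i := by
      simp only [Par.w1, wg, θ, e]
      rw [winC_eq _ _ hs]
      exact mWin_err h.law.pd (fun _ => ⟨zero_le_one, le_rfl⟩) h.hR one_pos le_rfl P i b _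
    obtain ⟨z0, z1⟩ := hwg (stAt P.1.1 P.1.2.2 hh) (winC P.1.1 P.1.2.2 hh Q.H)
    obtain ⟨y0, y1⟩ := h.w1_mem b hs θ e
    have hd5 : |Q.w1 b s θ e - wg P| ≤ B := abs_sub_le_of_nonneg_of_le y0 y1 z0 z1
    have hz : |Q.zm (phiM M) s θ e - φ (stAt P.1.1 P.1.2.2 (hh + Q.H))| ≤ zErr Q.β ro d P i := by
      refine ((phiM_test hM).2 _ _).trans ?_
      rw [← stateAt_tm P.1 (hh + Q.H)]
      exact z_err P i _
    have hz2 : |Q.zm (phiM M) s θ e - φ (stAt P.1.1 P.1.2.2 (hh + Q.H))| ≤ 1 :=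
      abs_sub_le_of_nonneg_of_le (phiM_mem M _).1 (phiM_mem M _).2 (phiM_mem M _).1 (phiM_mem M _).2
    have hdec : |Q.w1 b s θ e * Q.zm (phiM M) s θ e - wg P * φ (stAt P.1.1 P.1.2.2 (hh + Q.H))|
        ≤ |Q.w1 b s θ e - wg P| + B * |Q.zm (phiM M) s θ e - φ (stAt P.1.1 P.1.2.2 (hh + Q.H))| := by
      rw [show Q.w1 b s θ e * Q.zm (phiM M) s θ e - wg P * φ (stAt P.1.1 P.1.2.2 (hh + Q.H))
        = (Q.w1 b s θ e - wg P) * Q.zm (phiM M) s θ e
          + wg P * (Q.zm (phiM M) s θ e - φ (stAt P.1.1 P.1.2.2 (hh + Q.H))) by ring]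
      refine (abs_add_le _ _).trans ?_
      rw [abs_mul, abs_mul, abs_of_nonneg z0]
      exact add_le_add (mul_le_of_le_one_right (abs_nonneg _) ((phiM_test hM).1 _))
        (mul_le_mul_of_nonneg_right z1 (abs_nonneg _))
    have hB0 : 0 ≤ B := zero_le_one.trans hB
    have hBe : 0 ≤ B * zErr Q.β ro d P i := mul_nonneg hB0 he
    have hm5' : |Q.w1 b s θ e - wg P| ≤ min Q.gaB (Q.gaL * zErr Q.β ro d P i) :=
      le_min (hd5.trans (by simp only [Par.gaB, B]; linarith))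
        (hm5.trans (by simp only [Par.gaL, add_mul, B] at hBe ⊢; linarith))
    have hm4' : |Q.w1 b s θ e * Q.zm (phiM M) s θ e - wg P * φ (stAt P.1.1 P.1.2.2 (hh + Q.H))|
        ≤ min Q.gaB (Q.gaL * zErr Q.β ro d P i) := by
      refine le_min (hdec.trans ?_) (hdec.trans ?_)
      · have := mul_le_mul_of_nonneg_left hz2 hB0
        simp only [Par.gaB, B] at this hd5 ⊢
        linarith
      · have := mul_le_mul_of_nonneg_left hz hB0
        simp only [Par.gaL, add_mul, B] at this hm5 ⊢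
        linarith
    have hh5 : onVal i b (stAt P.1.1 P.1.2.2 hh) * Q.w1 b s θ e = Q.w1 b s θ e := by
      rw [← ha]; exact w1_held b s θ e
    have k4 := congrArg (fun t => t * Q.zm (phiM M) s θ e) hh5
    simp only [atS, Par.cG, Par.phiG]
    have e0 : Q.zG M b 0 θ j = fun e => Q.w1 b s θ e * Q.zm (phiM M) s θ e := rfl
    have e1 : Q.zG M b 1 θ j = Q.w1 b s θ := rfl
    rw [e0, e1, ha]
    rw [abs_le] at hm4' hm5'
    linarith
  have hc0 := h.bm_cG hM b 0 hs i
  have hc1 := h.bm_cG hM b 1 hs i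
  have hon : BM fun P : Sam n r => onVal i b (stAt P.1.1 P.1.2.2 hh) := bm_state (onVal i b) hh
  have hwφ := bm_mul' hwb (bm_state φ (hh + Q.H) (r := r))
  have hE := bm_err (β := Q.β) h.mem h.read i (gaL_nonneg h.hR).1 (gaL_nonneg h.hR).2
  have hX := bm_add' (bm_add' hwφ (bm_sub' hon hwb)) (bm_sub' hc1 hc0)
  have hL : BM fun P : Sam n r =>
      onVal i b (stAt P.1.1 P.1.2.2 hh) * Q.gam M s (cellAt ro d P) :=
    bm_mul' hon (bm_cell h.mem h.read (F := fun θ _ => Q.gam M s θ) fun θ _ => BM.const _)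
  refine (samE_mono h.law hL (bm_add' (bm_cmul hX 2) (bm_cmul hE 4)) hpt).trans ?_
  rw [samE_add h.law (bm_cmul hX 2) (bm_cmul hE 4), samE_smul h.law hX, samE_smul h.law hE,
    samE_add h.law (bm_add' hwφ (bm_sub' hon hwb)) (bm_sub' hc1 hc0),
    samE_add h.law hwφ (bm_sub' hon hwb), samE_sub h.law hon hwb, samE_sub h.law hc1 hc0]
  have hwin : ∀ (c : Conf n → ℝ), (∀ x, |c x| ≤ 1) →
      |samE A ν S (fun P : Sam n r => wg P * c (stAt P.1.1 P.1.2.2 (hh + Q.H)))
        - ∑ x, onVal i b x * ν x * c x| ≤ wErr A ν S (fun _ => 1) 1 Q.R C₁ Q.H i b := fun c hc => by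
    have e : (fun P : Sam n r => wg P * c (stAt P.1.1 P.1.2.2 (hh + Q.H)))
        = fun P => (fun x ω => wgt A S (fun _ => 1) 1 Q.R i b x ω * c (endAt x ω))
            (stAt P.1.1 P.1.2.2 hh) (winC P.1.1 P.1.2.2 hh Q.H) := by
      funext P
      simp only [wg, endAt_winC _ _ hs]
    rw [e, samE_win h hs (G := fun x ω => wgt A S (fun _ => 1) 1 Q.R i b x ω * c (endAt x ω))
      (fun x => (w.measurable_wgt b x).mul ((measurable_of_finite c).comp (measurable_endAt x)))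
      (B := B) fun x ω => by
        rw [abs_mul, abs_of_nonneg (hwg x ω).1]
        exact (mul_le_of_le_one_right (hwg x ω).1 (hc _)).trans (hwg x ω).2]
    have := win_two h1 w b (le_refl Q.H) le_rfl (a := c) (c := fun _ => 1) hc fun _ => by simp
    simpa [stAt_end, ip, powOp] using this
  have h4 := (abs_le.1 (hwin φ fun x => (phiM_test hM).1 _)).2
  have h5 := (abs_le.1 (hwin (fun _ => 1) fun _ => by simp)).1
  simp only [mul_one] at h5
  have hmu : samE A ν S (fun P : Sam n r => onVal i b (stAt P.1.1 P.1.2.2 hh))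
      = ∑ x, onVal i b x * ν x := by
    have e : (fun P : Sam n r => onVal i b (stAt P.1.1 P.1.2.2 hh))
        = fun P => (fun x _ => onVal i b x) (stAt P.1.1 P.1.2.2 hh) (winC P.1.1 P.1.2.2 hh Q.H) := rfl
    rw [e, samE_win h hs (G := fun x _ => onVal i b x) (fun _ => measurable_const) (B := 1)
      fun x _ => by rw [abs_of_nonneg (onVal_nonneg i b x)]; exact onVal_le_one i b x]
    simp only [lawE, pathE_const _ (h.law.ok S)]
    exact sum_congr rfl fun x _ => mul_comm _ _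
  rw [hmu]
  linarith

/-- **The noise gain of a block.** -/
theorem Ctx.gamma_block (h : Ctx Q d S ro ν net C L lam m₀) (hM : 1 ≤ M)
    (hs : Q.blk j + Q.K * Q.H + Q.H ≤ r) (h1 : WinC Q.H Q.R 1 C₁) :
    Q.eGam d ν S ro M j
      ≤ L ^ 2 / (2 * M ^ 2) + 4 * avgIB S (wErr (aop n Q.β d) ν S (fun _ => 1) 1 Q.R C₁ Q.H)
        + 2 * ∑ b : Bool, (Q.tauG d ν S ro M b 1 j - Q.tauG d ν S ro M b 0 j)
        + 8 * eBr Q.β d ν S ro Q.gaB Q.gaL := by
  have hn0 : (0 : ℝ) < n := by exact_mod_cast h.hn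
  set s := Q.blk j
  have hX : ∀ i, i ∉ S → ∀ b, BM fun P : Sam n r =>
      onVal i b (stAt P.1.1 P.1.2.2 (s + Q.K * Q.H)) * Q.gam M s (cellAt ro d P) := fun i _ b =>
    bm_mul' (bm_state _ _) (bm_cell h.mem h.read (F := fun θ _ => Q.gam M s θ) fun θ _ => BM.const _)
  have hsum : Q.eGam d ν S ro M j = avgIB S fun i b => samE (aop n Q.β d) ν S (fun P : Sam n r =>
      onVal i b (stAt P.1.1 P.1.2.2 (s + Q.K * Q.H)) * Q.gam M s (cellAt ro d P)) := by
    rw [← samE_avg h.law hX, Par.eGam]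
    congr 1
    funext P
    simp only [avgIB, ← sum_mul]
    rw [sum_congr rfl (g := fun _ => (1 : ℝ)) fun i _ => by
      rw [Fintype.sum_bool]
      cases hx : stAt P.1.1 P.1.2.2 (s + Q.K * Q.H) i <;> simp [onVal, hx]]
    simp only [sum_const, nsmul_eq_mul, mul_one]
    rw [mul_assoc]
  rw [hsum]
  refine (avgIB_mono fun i hi b => h.gamma_site hM hs hi h1 b).trans ?_
  simp only [avgIB_add, avgIB_smul, avgIB_sub]
  have hn1 : (0 : ℝ) ≤ (n : ℝ)⁻¹ := inv_nonneg.2 hn0.le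
  have hsites : ∀ (a : Fin 2), avgIB S (fun i b => samE (aop n Q.β d) ν S
      (fun P => atS d ro Q.β (Q.cG M b a j) i P)) = ∑ b : Bool, Q.tauG d ν S ro M b a j := fun a => by
    rw [avgIB, sum_comm, mul_sum]
    refine sum_congr rfl fun b _ => ?_
    rw [Par.tauG, samE_smul h.law (BM.sum _ fun i _ => h.bm_cG hM b a hs i),
      samE_sum h.law _ fun i _ => h.bm_cG hM b a hs i]
  have hE : avgIB S (fun i _ => samE (aop n Q.β d) ν S
      (fun P => min Q.gaB (Q.gaL * zErr Q.β ro d P i))) = 2 * eBr Q.β d ν S ro Q.gaB Q.gaL := by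
    have hb := fun i => bm_err (β := Q.β) h.mem h.read i (gaL_nonneg h.hR).1 (gaL_nonneg h.hR).2
    rw [eBr, samE_smul h.law (BM.sum _ fun i _ => hb i), samE_sum h.law _ fun i _ => hb i, avgIB]
    simp only [Fintype.sum_bool, sum_add_distrib]
    ring
  have hfield : avgIB S (fun i b => ∑ x, onVal i b x * ν x * phiM M (zField Q.β d x i))
      ≤ L ^ 2 / (4 * M ^ 2) := by
    have e : ∀ i, ∑ b : Bool, ∑ x, onVal i b x * ν x * phiM M (zField Q.β d x i)
        = ∑ x, ν x * phiM M (zField Q.β d x i) := fun i => by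
      rw [sum_comm]
      refine sum_congr rfl fun x _ => ?_
      rw [Fintype.sum_bool]
      cases hx : x i <;> simp [onVal, hx]
    simp only [avgIB, e]
    have hL : 0 < L := by
      obtain ⟨i⟩ : Nonempty (Fin n) := ⟨⟨0, by have := h.hn; omega⟩⟩
      have hh := h.norm.upper (Pi.single i 1)
      rw [coord_quad] at hh
      have hd := h.law.pd.diag_pos (i := i)
      simp [Pi.single_apply] at hh
      linarith
    have hq : ∀ v, |Ent.qform (kmat n Q.β d) v| ≤ L * ∑ i, v i ^ 2 := fun v => by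
      rw [qform_eq_dot]; exact h.norm.form v
    have hvx : ∀ x : Conf n, ∑ i, vec x i ^ 2 = (n : ℝ) := fun x => by
      have : ∀ i, vec x i ^ 2 = 1 := fun i => by cases hb : x i <;> simp [vec, spin, hb]
      simp [this]
    rw [inv_mul_le_iff₀ hn0, sum_comm]
    calc ∑ x, ∑ i ∈ Sᶜ, ν x * phiM M (zField Q.β d x i)
        ≤ ∑ x, ν x * (n * (L ^ 2 / (4 * M ^ 2))) := sum_le_sum fun x _ => by
          rw [← mul_sum]
          refine mul_le_mul_of_nonneg_left ?_ (h.law.pos x).le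
          refine (sum_le_univ_sum_of_nonneg fun i => (phiM_mem M _).1).trans
            ((sum_le_sum fun i _ => phiM_le_sq M _).trans ?_)
          rw [← sum_div, mul_div_assoc']
          refine div_le_div_of_nonneg_right ?_ (by positivity)
          have := Entropy.mulVec_sq_le (kmat_isSymm Q.β d) hL hq (vec x)
          rw [hvx, mul_comm] at this
          exact this
      _ = _ := by rw [← sum_mul, h.law.one, one_mul]
  rw [hE, hsites, hsites, sum_sub_distrib]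
  have e2 : L ^ 2 / (2 * M ^ 2) = 2 * (L ^ 2 / (4 * M ^ 2)) := by ring
  linarith

end Vale.Agent.P150.Fast.Core
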