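import Mathlib
import Vale.Agent.P150.Fast.DomStmt

/-!
Consequences of `Fits`: the squared coefficients of a column on the early combinations are the
squared length of its projection on the early columns, up to the error (P150, core of M4).
-/

open Real Finset
open scoped Matrix

namespace Vale.Agent.P150.Fast.Core

variable {n M : ℕ}

/-- The combinations of a family of vectors. -/
noncomputable def comb (θ : Coef M) (v : Fin M → Fin n → ℝ) (l : Fin M) : Fin n → ℝ :=
  ∑ j, θ.R l j • v j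

/-- The normalised inner product. -/
noncomputable def dn (a b : Fin n → ℝ) : ℝ := (n : ℝ)⁻¹ * (a ⬝ᵥ b)

/-- Coefficients that describe the geometry of a family up to `ε`, without reference to a path. -/
structure Geo (θ : Coef M) (v : Fin M → Fin n → ℝ) (ε : ℝ) : Prop where
  al_eq : ∀ k l, |θ.al k l - dn (v k) (comb θ v l)| ≤ ε
  cross : ∀ l m, l ≠ m → |dn (comb θ v l) (comb θ v m)| ≤ ε
  unit : ∀ l, (∀ j, θ.R l j = 0) ∨ |dn (comb θ v l) (comb θ v l) - 1| ≤ ε
  res : ∀ k, dn (v k - ∑ l, θ.al k l • comb θ v l) (v k - ∑ l, θ.al k l • comb θ v l) ≤ ε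
  eps0 : 0 ≤ ε
  eps1 : ε ≤ 1

variable {θ : Coef M} {v : Fin M → Fin n → ℝ} {ε : ℝ}

theorem dn_comm (a b : Fin n → ℝ) : dn a b = dn b a := by rw [dn, dn, dotProduct_comm]

theorem dn_nonneg (a : Fin n → ℝ) : 0 ≤ dn a a :=
  mul_nonneg (inv_nonneg.2 n.cast_nonneg) (sum_nonneg fun _ _ => mul_self_nonneg _)

theorem abs_dn_le (a b : Fin n → ℝ) : |dn a b| ≤ √(dn a a) * √(dn b b) := by
  rw [← sqrt_mul (dn_nonneg a)]
  refine abs_le_sqrt ?_
  have h : (a ⬝ᵥ b) ^ 2 ≤ (a ⬝ᵥ a) * (b ⬝ᵥ b) := by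
    have := sum_mul_sq_le_sq_mul_sq univ a b
    simp only [dotProduct, ← pow_two]
    exact this
  simp only [dn, mul_pow]
  have := mul_le_mul_of_nonneg_left h (sq_nonneg ((n : ℝ)⁻¹))
  linarith

theorem dn_add_left (a b c : Fin n → ℝ) : dn (a + b) c = dn a c + dn b c := by
  rw [dn, dn, dn, add_dotProduct, mul_add]

theorem dn_smul_left (x : ℝ) (a c : Fin n → ℝ) : dn (x • a) c = x * dn a c := by
  rw [dn, dn, smul_dotProduct, smul_eq_mul]; ring

theorem dn_sum_left {α : Type*} (s : Finset α) (f : α → Fin n → ℝ) (c : Fin n → ℝ) :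
    dn (∑ a ∈ s, f a) c = ∑ a ∈ s, dn (f a) c := by
  simp only [dn, sum_dotProduct, mul_sum]

theorem dn_sum_right {α : Type*} (s : Finset α) (f : α → Fin n → ℝ) (c : Fin n → ℝ) :
    dn c (∑ a ∈ s, f a) = ∑ a ∈ s, dn c (f a) := by
  rw [dn_comm, dn_sum_left]; exact sum_congr rfl fun a _ => dn_comm _ _

theorem Geo.comb_le (h : Geo θ v ε) (l : Fin M) : dn (comb θ v l) (comb θ v l) ≤ 2 := by
  rcases h.unit l with h0 | h0
  · simp [comb, h0, dn]
  · linarith [abs_le.1 h0, h.eps1]

theorem Geo.al_le (h : Geo θ v ε) {k : Fin M} (hk : dn (v k) (v k) ≤ 1) (l : Fin M) :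
    |θ.al k l| ≤ 3 := by
  have h1 := abs_dn_le (v k) (comb θ v l)
  have h2 : √(dn (v k) (v k)) ≤ 1 := sqrt_le_one.2 hk
  have h3 : √(dn (comb θ v l) (comb θ v l)) ≤ 2 := by
    rw [sqrt_le_left (by norm_num)]; linarith [h.comb_le l]
  have h4 := mul_le_mul h2 h3 (sqrt_nonneg _) zero_le_one
  have h5 := abs_sub_abs_le_abs_sub (θ.al k l) (dn (v k) (comb θ v l))
  linarith [h.al_eq k l, h.eps1]

/-- The Gram matrix of combinations acts as the identity on coefficients supported on them. -/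
theorem Geo.quad (h : Geo θ v ε) (S : Finset (Fin M)) (a b : Fin M → ℝ) {A : ℝ}
    (ha : ∀ l, |a l| ≤ A) (hb : ∀ l, |b l| ≤ A) (hb0 : ∀ l, (∀ j, θ.R l j = 0) → |b l| ≤ ε) :
    |dn (∑ l ∈ S, a l • comb θ v l) (∑ l ∈ S, b l • comb θ v l) - ∑ l ∈ S, a l * b l|
      ≤ (M : ℝ) ^ 2 * ((A ^ 2 + A) * ε) + (M : ℝ) * ((A ^ 2 + A) * ε) := by
  have hcard : ((S.card : ℕ) : ℝ) ≤ M := by
    have := card_le_univ S
    simp only [Fintype.card_fin] at this
    exact_mod_cast this
  rw [dn_sum_left]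
  simp only [dn_smul_left, dn_sum_right, dn_comm (comb θ v _) (b _ • _),
    ← sum_sub_distrib]
  refine (abs_sum_le_sum_abs _ _).trans ((sum_le_sum (g := fun _ => (M : ℝ) * ((A ^ 2 + A) * ε)
    + (A ^ 2 + A) * ε) fun l hl => ?_).trans ?_)
  · have hA : 0 ≤ A := (abs_nonneg _).trans (ha l)
    rw [← add_sum_erase _ _ hl]
    have hdiag : |a l * (b l * dn (comb θ v l) (comb θ v l)) - a l * b l| ≤ (A ^ 2 + A) * ε := by
      rw [show a l * (b l * dn (comb θ v l) (comb θ v l)) - a l * b l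
        = a l * (b l * (dn (comb θ v l) (comb θ v l) - 1)) by ring, abs_mul]
      refine (mul_le_mul_of_nonneg_right (ha l) (abs_nonneg _)).trans ?_
      rw [show (A ^ 2 + A) * ε = A * (A * ε + ε) by ring]
      refine mul_le_mul_of_nonneg_left ?_ hA
      rw [abs_mul]
      rcases h.unit l with h0 | h0
      · have e1 : dn (comb θ v l) (comb θ v l) = 0 := by simp [comb, h0, dn]
        rw [e1, zero_sub, abs_neg, abs_one, mul_one]
        exact (hb0 l h0).trans (le_add_of_nonneg_left (mul_nonneg hA h.eps0))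
      · exact (mul_le_mul (hb l) h0 (abs_nonneg _) hA).trans (le_add_of_nonneg_right h.eps0)
    have hoff : |∑ m ∈ S.erase l, a l * (b m * dn (comb θ v m) (comb θ v l))|
        ≤ (M : ℝ) * ((A ^ 2 + A) * ε) := by
      refine (abs_sum_le_sum_abs _ _).trans ((sum_le_sum (g := fun _ => (A ^ 2 + A) * ε)
        fun m hm => ?_).trans ?_)
      · rw [abs_mul, abs_mul]
        refine (mul_le_mul (ha l) (mul_le_mul (hb m) (h.cross m l (ne_of_mem_erase hm))
          (abs_nonneg _) hA) (mul_nonneg (abs_nonneg _) (abs_nonneg _)) hA).trans ?_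
        linarith [mul_nonneg hA h.eps0]
      · rw [sum_const, nsmul_eq_mul]
        refine mul_le_mul_of_nonneg_right ?_
          (mul_nonneg (add_nonneg (sq_nonneg A) hA) h.eps0)
        have hc : (S.erase l).card ≤ S.card := card_le_card (erase_subset _ _)
        exact le_trans (by exact_mod_cast hc) hcard
    have := abs_add_le (a l * (b l * dn (comb θ v l) (comb θ v l)) - a l * b l)
      (∑ m ∈ S.erase l, a l * (b m * dn (comb θ v m) (comb θ v l)))
    rw [show a l * (b l * dn (comb θ v l) (comb θ v l))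
      + ∑ m ∈ S.erase l, a l * (b m * dn (comb θ v m) (comb θ v l)) - a l * b l
      = a l * (b l * dn (comb θ v l) (comb θ v l)) - a l * b l
        + ∑ m ∈ S.erase l, a l * (b m * dn (comb θ v m) (comb θ v l)) by ring]
    linarith
  · rw [sum_const, nsmul_eq_mul]
    rcases S.eq_empty_or_nonempty with rfl | ⟨l, hl⟩
    · simp only [card_empty, Nat.cast_zero, zero_mul]
      rcases isEmpty_or_nonempty (Fin M) with hM | ⟨⟨l⟩⟩
      · simp [Fintype.card_eq_zero_iff.2 hM |> (Fintype.card_fin M).symm.trans]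
      · have hA : 0 ≤ A := (abs_nonneg _).trans (ha l)
        have := h.eps0
        positivity
    · have hA : 0 ≤ A := (abs_nonneg _).trans (ha l)
      have h0 : 0 ≤ (M : ℝ) * ((A ^ 2 + A) * ε) + (A ^ 2 + A) * ε := by
        have := h.eps0
        positivity
      refine (mul_le_mul_of_nonneg_right hcard h0).trans (le_of_eq ?_)
      ring

theorem Geo.al_zero (h : Geo θ v ε) (k l : Fin M) (h0 : ∀ j, θ.R l j = 0) : |θ.al k l| ≤ ε := by
  have := h.al_eq k l
  simpa [comb, h0, dn] using this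

/-- The part of column `k` on the combinations up to `T`. -/
noncomputable def earlyPart (θ : Coef M) (v : Fin M → Fin n → ℝ) (T : ℕ) (k : Fin M) : Fin n → ℝ :=
  ∑ l ∈ univ.filter (fun l : Fin M => l.1 ≤ T), θ.al k l • comb θ v l

/-- Its squared coefficients. -/
noncomputable def earlySq (θ : Coef M) (T : ℕ) (k : Fin M) : ℝ :=
  ∑ l ∈ univ.filter (fun l : Fin M => l.1 ≤ T), θ.al k l ^ 2

/-- The constant of the errors. -/
noncomputable def geoC (M : ℕ) : ℝ := 40 * ((M : ℝ) + 1) ^ 2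

theorem Geo.quad3 (h : Geo θ v ε) (S : Finset (Fin M)) (a b : Fin M → ℝ) (ha : ∀ l, |a l| ≤ 3)
    (hb : ∀ l, |b l| ≤ 3) (hb0 : ∀ l, (∀ j, θ.R l j = 0) → |b l| ≤ ε) :
    |dn (∑ l ∈ S, a l • comb θ v l) (∑ l ∈ S, b l • comb θ v l) - ∑ l ∈ S, a l * b l|
      ≤ geoC M * ε := by
  refine (h.quad S a b ha hb hb0).trans ?_
  have := mul_nonneg h.eps0 (sq_nonneg ((M : ℝ) + 1))
  have := mul_nonneg h.eps0 (sq_nonneg (M : ℝ))
  have := mul_nonneg h.eps0 (M.cast_nonneg (α := ℝ))
  unfold geoC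
  nlinarith

/-- The early part has squared length `earlySq` and the same inner product with the column. -/
theorem Geo.early (h : Geo θ v ε) (T : ℕ) {k : Fin M} (hk : dn (v k) (v k) ≤ 1) :
    |dn (earlyPart θ v T k) (earlyPart θ v T k) - earlySq θ T k| ≤ geoC M * ε ∧
    |dn (earlyPart θ v T k) (v k) - earlySq θ T k| ≤ geoC M * ε := by
  constructor
  · simp only [earlySq, pow_two]
    exact h.quad3 _ _ _ (h.al_le hk) (h.al_le hk) (h.al_zero k)
  · rw [earlyPart, dn_sum_left, earlySq, ← sum_sub_distrib]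
    refine (abs_sum_le_sum_abs _ _).trans ((sum_le_sum (g := fun _ => 3 * ε) fun l _ => ?_).trans ?_)
    · rw [dn_smul_left, pow_two, ← mul_sub, abs_mul, dn_comm, abs_sub_comm]
      exact mul_le_mul (h.al_le hk l) (h.al_eq k l) (abs_nonneg _) (by norm_num)
    · rw [sum_const, nsmul_eq_mul]
      have hc : ((univ.filter fun l : Fin M => l.1 ≤ T).card : ℝ) ≤ M := by
        have := card_le_univ (univ.filter fun l : Fin M => l.1 ≤ T)
        simp only [Fintype.card_fin] at this
        exact_mod_cast this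
      have := h.eps0
      have := sq_nonneg (M : ℝ)
      have := M.cast_nonneg (α := ℝ)
      unfold geoC
      nlinarith [mul_le_mul_of_nonneg_right hc (by positivity : (0 : ℝ) ≤ 3 * ε)]

/-- The squared coefficients of a normalised column add to one. -/
theorem Geo.total (h : Geo θ v ε) {k : Fin M} (hk : dn (v k) (v k) = 1) :
    |∑ l, θ.al k l ^ 2 - 1| ≤ geoC M * ε + 7 * ((M : ℝ) + 1) * √ε := by
  set s := ∑ l, θ.al k l • comb θ v l with hs
  set e := v k - s
  have he : dn e e ≤ ε := h.res k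
  have h2 : |dn s s - ∑ l, θ.al k l * θ.al k l| ≤ geoC M * ε :=
    h.quad3 univ _ _ (h.al_le hk.le) (h.al_le hk.le) (h.al_zero k)
  have hx : dn (v k) (v k) = dn s s + 2 * dn (v k) e - dn e e := by
    simp only [e, dn, sub_dotProduct, dotProduct_sub, dotProduct_comm s (v k)]
    ring
  have hc := abs_dn_le (v k) e
  rw [hk, sqrt_one, one_mul] at hc
  have hse : √(dn e e) ≤ √ε := sqrt_le_sqrt he
  have heq : ε ≤ √ε := by
    have := mul_self_sqrt h.eps0
    nlinarith [sqrt_nonneg ε, sqrt_le_one.2 h.eps1]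
  have hM : (0 : ℝ) ≤ (M : ℝ) * √ε := mul_nonneg M.cast_nonneg (sqrt_nonneg _)
  simp only [pow_two]
  rw [abs_le] at h2 hc ⊢
  constructor <;> linarith [dn_nonneg e, sqrt_nonneg ε]

/-- A combination of early columns does not beat the early coefficients as a regressor. -/
theorem Geo.lower (h : Geo θ v ε) (tri : ∀ m l : Fin M, m < l → θ.al m l = 0) (T : ℕ) {k : Fin M}
    (hk : dn (v k) (v k) ≤ 1) (c : Fin M → ℝ) (hc : ∑ m, |c m| ≤ 1)
    (hsupp : ∀ m, c m ≠ 0 → m.1 ≤ T ∧ dn (v m) (v m) ≤ 1) :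
    2 * dn (∑ m, c m • v m) (v k) - dn (∑ m, c m • v m) (∑ m, c m • v m)
      ≤ earlySq θ T k + 4 * geoC M * √ε := by
  set S := univ.filter fun l : Fin M => l.1 ≤ T with hS
  set a : Fin M → ℝ := fun l => ∑ m, c m * θ.al m l with ha
  set w := ∑ m, c m • v m with hw
  set s := ∑ l ∈ S, a l • comb θ v l with hs
  have ha3 : ∀ l, |a l| ≤ 3 := fun l => by
    refine (abs_sum_le_sum_abs _ _).trans ((sum_le_sum (g := fun m => |c m| * 3) fun m _ => ?_).trans ?_)
    · rw [abs_mul]
      by_cases hm : c m = 0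
      · simp [hm]
      · exact mul_le_mul_of_nonneg_left (h.al_le (hsupp m hm).2 l) (abs_nonneg _)
    · rw [← sum_mul]; linarith
  have ha0 : ∀ l, (∀ j, θ.R l j = 0) → |a l| ≤ ε := fun l hl => by
    refine (abs_sum_le_sum_abs _ _).trans ((sum_le_sum (g := fun m => |c m| * ε) fun m _ => ?_).trans ?_)
    · rw [abs_mul]; exact mul_le_mul_of_nonneg_left (h.al_zero m l hl) (abs_nonneg _)
    · rw [← sum_mul]; exact mul_le_of_le_one_left h.eps0 hc
  have es : w - s = ∑ m, c m • (v m - ∑ l, θ.al m l • comb θ v l) := by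
    have e1 : s = ∑ m, c m • ∑ l, θ.al m l • comb θ v l := by
      simp only [hs, ha, sum_smul, smul_sum, smul_smul]
      rw [sum_comm]
      refine sum_congr rfl fun m _ => sum_subset (subset_univ _) fun l _ hl => ?_
      by_cases hm : c m = 0
      · simp [hm]
      · have hl' : T < l.1 := by simpa [hS] using hl
        rw [tri m l (Fin.lt_def.2 ((hsupp m hm).1.trans_lt hl')), mul_zero, zero_smul]
    rw [e1, hw, ← sum_sub_distrib]
    exact sum_congr rfl fun m _ => (smul_sub _ _ _).symm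
  have hres : ∀ u : Fin n → ℝ, |dn (w - s) u| ≤ √ε * √(dn u u) := fun u => by
    rw [es, dn_sum_left]
    refine (abs_sum_le_sum_abs _ _).trans ((sum_le_sum (g := fun m => |c m| * (√ε * √(dn u u)))
      fun m _ => ?_).trans ?_)
    · rw [dn_smul_left, abs_mul]
      exact mul_le_mul_of_nonneg_left ((abs_dn_le _ _).trans
        (mul_le_mul_of_nonneg_right (sqrt_le_sqrt (h.res m)) (sqrt_nonneg _))) (abs_nonneg _)
    · rw [← sum_mul]; exact mul_le_of_le_one_left (by positivity) hc
  have hq : |dn s s - ∑ l ∈ S, a l * a l| ≤ geoC M * ε := h.quad3 S a a ha3 ha3 ha0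
  have hcr : |dn s (v k) - ∑ l ∈ S, a l * θ.al k l| ≤ geoC M * ε := by
    rw [hs, dn_sum_left, ← sum_sub_distrib]
    refine (abs_sum_le_sum_abs _ _).trans ((sum_le_sum (g := fun _ => 3 * ε) fun l _ => ?_).trans ?_)
    · rw [dn_smul_left, ← mul_sub, abs_mul, dn_comm, abs_sub_comm]
      exact mul_le_mul (ha3 l) (h.al_eq k l) (abs_nonneg _) (by norm_num)
    · rw [sum_const, nsmul_eq_mul]
      have hc' : (S.card : ℝ) ≤ M := by
        have := card_le_univ S
        simp only [Fintype.card_fin] at this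
        exact_mod_cast this
      have := h.eps0
      have := sq_nonneg (M : ℝ)
      have := M.cast_nonneg (α := ℝ)
      unfold geoC
      nlinarith [mul_le_mul_of_nonneg_right hc' (by positivity : (0 : ℝ) ≤ 3 * ε)]
  have heq : ε ≤ √ε := by
    have := mul_self_sqrt h.eps0
    nlinarith [sqrt_nonneg ε, sqrt_le_one.2 h.eps1]
  have hCS : 2 * ∑ l ∈ S, a l * θ.al k l - ∑ l ∈ S, a l * a l ≤ earlySq θ T k := by
    rw [mul_sum, ← sum_sub_distrib, earlySq]
    exact sum_le_sum fun l _ => by linarith [sq_nonneg (a l - θ.al k l)]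
  have hsbd : dn s s ≤ geoC M ^ 2 / 16 := by
    have h9 : ∑ l ∈ S, a l * a l ≤ 9 * M := by
      refine (sum_le_sum (g := fun _ => (9 : ℝ)) fun l _ => ?_).trans ?_
      · nlinarith [abs_le.1 (ha3 l)]
      · rw [sum_const, nsmul_eq_mul, mul_comm]
        refine mul_le_mul_of_nonneg_left ?_ (by norm_num)
        have := card_le_univ S
        simp only [Fintype.card_fin] at this
        exact_mod_cast this
    have hgC : (40 : ℝ) * ((M : ℝ) + 1) ≤ geoC M := by
      unfold geoC; nlinarith [M.cast_nonneg (α := ℝ)]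
    have := abs_le.1 hq
    nlinarith [mul_le_mul_of_nonneg_left h.eps1 (show 0 ≤ geoC M by linarith [M.cast_nonneg (α := ℝ)]),
      M.cast_nonneg (α := ℝ)]
  have e2 : dn w w = dn s s + 2 * dn (w - s) s + dn (w - s) (w - s) := by
    simp only [dn, sub_dotProduct, dotProduct_sub, dotProduct_comm s w]; ring
  have e3 : dn w (v k) = dn s (v k) + dn (w - s) (v k) := by
    rw [← dn_add_left, add_sub_cancel]
  have r1 := hres (v k)
  have r2 := hres s
  have hs1 : √(dn (v k) (v k)) ≤ 1 := sqrt_le_one.2 hk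
  have hgC0 : (40 : ℝ) ≤ geoC M := by unfold geoC; nlinarith [M.cast_nonneg (α := ℝ)]
  have hs2 : √(dn s s) ≤ geoC M / 4 := by
    rw [sqrt_le_left (by linarith)]; linarith
  have := mul_le_mul_of_nonneg_left hs1 (sqrt_nonneg ε)
  have := mul_le_mul_of_nonneg_left hs2 (sqrt_nonneg ε)
  have := mul_le_mul_of_nonneg_left heq (show 0 ≤ geoC M by linarith)
  rw [abs_le] at hq hcr r1 r2
  nlinarith [dn_nonneg (w - s), sqrt_nonneg ε]

end Vale.Agent.P150.Fast.Core
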