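import Mathlib
import Vale.Agent.P150.Fast.Cavity.Core.Causal
import Vale.Agent.P150.Fast.Cavity.Core.Geom
import Vale.Agent.P150.Fast.Cavity.Core.Past
import Vale.Agent.P150.Fast.ChainPower
import Vale.Agent.P150.Fast.Cavity.Transfer

/-!
The variance of the window is `β² (1 - q)`: the squared early coefficients of a column against the
overlap of its mean from the past (P150, core of M4).
-/

open MeasureTheory Real Finset
open scoped Matrix

namespace Vale.Agent.P150.Fast.Core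

variable {n r : ℕ} {β : ℝ} {d : Dis n} {ro : Readout n r} {S : Finset (Fin n)}
  {ν : Conf n → ℝ} {net : Finset (Coef (ncol r))}

/-- The mean spins `H` steps later. -/
noncomputable def mAt (A : Matrix (Fin n) (Fin n) ℝ) (ν : Conf n → ℝ) (S : Finset (Fin n)) (H : ℕ)
    (x : Conf n) : Fin n → ℝ :=
  fun i => powOp (kerOf (pR ν) (step0 A S)) H (fun z => vec z i) x

/-- The potential of the spins without side field. -/
noncomputable def potS (A : Matrix (Fin n) (Fin n) ℝ) (ν : Conf n → ℝ) (S : Finset (Fin n))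
    (k : ℕ) : ℝ :=
  (n : ℝ)⁻¹ * ∑ i, ip ν (fun x => vec x i) (powOp (kerOf (pR ν) (step0 A S)) k fun x => vec x i)

theorem powOp_sum {ι α : Type*} [Fintype ι] (K : ι → ι → ℝ) (s : Finset α) (a : α → ℝ)
    (f : α → ι → ℝ) : ∀ k, powOp K k (fun z => ∑ i ∈ s, a i * f i z)
      = fun x => ∑ i ∈ s, a i * powOp K k (f i) x
  | 0 => rfl
  | k + 1 => by
    rw [powOp_succ, powOp_sum K s a f k]
    funext x
    have h1 : ∀ g : ι → ℝ, powOp K 1 g x = ∑ z, K x z * g z := fun _ => rfl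
    simp only [h1, powOp_succ K k, mul_sum]
    rw [sum_comm]
    exact sum_congr rfl fun i _ => sum_congr rfl fun z _ => by ring

theorem powOp_dn (K : Conf n → Conf n → ℝ) (k : ℕ) (c : Fin n → ℝ) (x : Conf n) :
    powOp K k (fun z => dn c (vec z)) x = dn c fun i => powOp K k (fun z => vec z i) x := by
  have e : (fun z : Conf n => dn c (vec z)) = fun z => ∑ i, ((n : ℝ)⁻¹ * c i) * vec z i := by
    funext z; simp only [dn, dotProduct, mul_sum]; exact sum_congr rfl fun i _ => by ring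
  rw [e, powOp_sum]
  simp only [dn, dotProduct, mul_sum]
  exact sum_congr rfl fun i _ => by ring

theorem ker0 (h : Law (aop n β d) ν) : IsPsdKer ν (kerOf (pR ν) (step0 (aop n β d) S)) :=
  (kerThm n ν _ h.pos h.pd).1

theorem potS_nonneg_anti (h : Law (aop n β d) ν) :
    (∀ k, 0 ≤ potS (aop n β d) ν S k) ∧ Antitone (potS (aop n β d) ν S) :=
  ⟨fun k => mul_nonneg (inv_nonneg.2 n.cast_nonneg)
      (sum_nonneg fun _ _ => (powerThm _ ν _ (ker0 h) _).1 k),
    fun _ _ hkl => mul_le_mul_of_nonneg_left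
      (sum_le_sum fun _ _ => (powerThm _ ν _ (ker0 h) _).2.1 hkl) (inv_nonneg.2 n.cast_nonneg)⟩

theorem mAt_abs (h : Law (aop n β d) ν) (H : ℕ) (x : Conf n) (i : Fin n) :
    |mAt (aop n β d) ν S H x i| ≤ 1 :=
  powOp_abs_le (ker0 h) H (fun z => by cases hz : z i <;> simp [vec, spin, hz]) x

theorem dn_le_one {v : Fin n → ℝ} (hv : ∀ i, |v i| ≤ 1) : dn v v ≤ 1 := by
  rcases Nat.eq_zero_or_pos n with rfl | hn
  · simp [dn]
  rw [dn, inv_mul_le_iff₀ (by exact_mod_cast hn), mul_one]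
  refine (sum_le_sum (g := fun _ => (1 : ℝ)) fun i _ => ?_).trans_eq (by simp)
  rw [← pow_two]
  exact (sq_le_one_iff_abs_le_one _).2 (hv i)

theorem dn_vec (hn : 1 ≤ n) (x : Conf n) : dn (vec x) (vec x) = 1 := by
  have : (n : ℝ) ≠ 0 := by exact_mod_cast (by omega : n ≠ 0)
  have e : vec x ⬝ᵥ vec x = n := by
    refine (sum_congr rfl fun i _ => (?_ : vec x i * vec x i = 1)).trans (by simp)
    cases hz : x i <;> simp [vec, spin, hz]
  rw [dn, e]
  field_simp

/-- The mean of the past states at the times `hh - K H + k H`, as coefficients of columns. -/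
noncomputable def pastCoef (r hh K H : ℕ) (m : Fin (ncol r)) : ℝ :=
  ∑ k ∈ range K, if m = xcol (tm r (hh - K * H + k * H)) then (K : ℝ)⁻¹ else 0

/-- The mean of the past states. -/
noncomputable def pastBar (hh K H : ℕ) (x : Conf n) (ω : Om n r) : Fin n → ℝ :=
  ∑ k ∈ range K, (K : ℝ)⁻¹ • vec (stAt x ω (hh - K * H + k * H))

theorem pastCoef_comb (hh K H : ℕ) (P : Traj n r) :
    ∑ m, pastCoef r hh K H m • colVec (aop n β d) P m = pastBar hh K H P.1 P.2.2 := by
  simp only [pastCoef, sum_smul, pastBar]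
  rw [sum_comm]
  refine sum_congr rfl fun k _ => ?_
  rw [sum_eq_single (xcol (tm r (hh - K * H + k * H))) (fun m _ hm => by simp [hm]) (by simp),
    if_pos rfl, colVec_xcol, stateAt_tm]

/-- The early part of the column of time `t`, cut when it is too long. -/
noncomputable def earlyCut (β : ℝ) (d : Dis n) (hh t : ℕ) (θ : Coef (ncol r)) (P : Sam n r) :
    Fin n → ℝ :=
  if dn (earlyPart θ (colVec (aop n β d) P.1) (2 * hh + 1) (xcol (tm r t)))
      (earlyPart θ (colVec (aop n β d) P.1) (2 * hh + 1) (xcol (tm r t))) ≤ 4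
  then (1 / 2 : ℝ) • earlyPart θ (colVec (aop n β d) P.1) (2 * hh + 1) (xcol (tm r t)) else 0

theorem geo_of_fits {ε : ℝ} {P : Traj n r} (hf : Fits β ro d ε P) (hε : 0 ≤ ε) (hε1 : ε ≤ 1) :
    Geo (ro.cell d P) (colVec (aop n β d) P) ε := by
  have e : ∀ l, comb (ro.cell d P) (colVec (aop n β d) P) l
      = combVec (aop n β d) (ro.cell d P) P l := fun l => by
    funext i; simp [comb, combVec]
  obtain ⟨h1, h2, h3, h4⟩ := hf
  refine ⟨fun k l => ?_, fun l m hlm => ?_, fun l => ?_, fun k => ?_, hε, hε1⟩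
  · rw [e]; exact h1 k l
  · rw [e, e]; exact h2 l m hlm
  · rw [e]; exact h3 l
  · refine le_trans (le_of_eq ?_) (h4 k)
    simp only [dn, dotProduct, Pi.sub_apply, Finset.sum_apply, Pi.smul_apply, smul_eq_mul, e, pow_two]

theorem vWin_split {C : ℝ} {θ : Coef (ncol r)} (hθ : NetOK C θ) {hh t : ℕ}
    (htr : t ≤ r) :
    vWin β θ hh t (xcol (tm r t))
      = β ^ 2 * (∑ l, θ.al (xcol (tm r t)) l ^ 2 - earlySq θ (2 * hh + 1) (xcol (tm r t))) := by
  rw [vWin, earlySq, eq_comm]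
  congr 1
  rw [← sum_filter_add_sum_filter_not univ (fun l : Fin (ncol r) => l.1 ≤ 2 * hh + 1),
    add_sub_cancel_left]
  symm
  refine sum_subset (fun l hl => by simp at hl ⊢; omega) fun l hl' hl => ?_
  have h2 : xcol (tm r t) < l := by
    rw [Fin.lt_def]
    simp [xcol, tm_val htr] at hl hl' ⊢
    omega
  simp [(hθ.2 _ l h2).2.2]

/-- What one sample says about the variance. -/
theorem var_point {C ε : ℝ} (hn : 1 ≤ n) {hh t K H : ℕ}
    (htr : t ≤ r) (hKH : K * H ≤ hh) (hε : 0 ≤ ε) (hε1 : ε ≤ 1)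
    (hg : 2 * geoC (ncol r) * √ε ≤ 1) (P : Sam n r) (hθ : NetOK C (cellAt ro d P))
    (hf : Fits β ro d ε P.1) :
    |β ^ 2 * (1 - dn (mAt (aop n β d) ν S H (stAt P.1.1 P.1.2.2 hh))
          (mAt (aop n β d) ν S H (stAt P.1.1 P.1.2.2 hh)))
        - vWin β (cellAt ro d P) hh t (xcol (tm r t))|
      ≤ β ^ 2 * (8 * |dn (earlyCut β d hh t (cellAt ro d P) P) (vec (stAt P.1.1 P.1.2.2 t))
            - dn (earlyCut β d hh t (cellAt ro d P) P)
                (mAt (aop n β d) ν S H (stAt P.1.1 P.1.2.2 hh))|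
        + (dn (mAt (aop n β d) ν S H (stAt P.1.1 P.1.2.2 hh))
            (mAt (aop n β d) ν S H (stAt P.1.1 P.1.2.2 hh))
          - 2 * dn (pastBar hh K H P.1.1 P.1.2.2) (vec (stAt P.1.1 P.1.2.2 t))
          + dn (pastBar hh K H P.1.1 P.1.2.2) (pastBar hh K H P.1.1 P.1.2.2))
        + 12 * geoC (ncol r) * √ε) := by
  set θ := cellAt ro d P
  set xt := vec (stAt P.1.1 P.1.2.2 t)
  set m := mAt (aop n β d) ν S H (stAt P.1.1 P.1.2.2 hh)
  set v := colVec (aop n β d) P.1
  set k := xcol (tm r t)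
  set T := 2 * hh + 1
  set u := earlyPart θ v T k with hu
  have hG : Geo θ v ε := geo_of_fits hf hε hε1
  have hk : v k = xt := by simp only [v, k, colVec_xcol, stateAt_tm, xt]
  have hk1 : dn (v k) (v k) = 1 := by rw [hk]; exact dn_vec hn _
  obtain ⟨e1, e2⟩ := hG.early T hk1.le
  have e3 := hG.total hk1
  have hM0 : (0 : ℝ) ≤ ncol r := Nat.cast_nonneg _
  have hg0 : 40 ≤ geoC (ncol r) := by unfold geoC; nlinarith
  have hsq : ε ≤ √ε := by
    have := mul_self_sqrt hε
    nlinarith [sqrt_nonneg ε, sqrt_le_one.2 hε1]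
  have hgε : geoC (ncol r) * ε ≤ geoC (ncol r) * √ε := mul_le_mul_of_nonneg_left hsq (by linarith)
  have h7 : 7 * ((ncol r : ℝ) + 1) * √ε ≤ geoC (ncol r) * √ε :=
    mul_le_mul_of_nonneg_right (by unfold geoC; nlinarith) (sqrt_nonneg _)
  have hcut : earlyCut β d hh t θ P = (1 / 2 : ℝ) • u := if_pos (by
    show dn u u ≤ 4
    have : earlySq θ T k ≤ ∑ l, θ.al k l ^ 2 :=
      sum_le_sum_of_subset_of_nonneg (subset_univ _) fun _ _ _ => sq_nonneg _
    rw [abs_le] at e1 e3
    linarith)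
  have hlow := hG.lower (fun a b hab => (hθ.2 a b hab).2.2) T hk1.le (pastCoef r hh K H) ?_ ?_
  · rw [pastCoef_comb, hk] at hlow
    simp only [hcut, dn_smul_left]
    have hY : 2 * dn u m - dn u u ≤ dn m m := by
      have := dn_nonneg (u - m)
      simp only [dn, sub_dotProduct, dotProduct_sub, dotProduct_comm m u] at this ⊢
      linarith
    rw [hk] at e2
    rw [vWin_split hθ htr, show β ^ 2 * (1 - dn m m) - β ^ 2 * (∑ l, θ.al k l ^ 2 - earlySq θ T k)
      = β ^ 2 * ((earlySq θ T k - dn m m) + (1 - ∑ l, θ.al k l ^ 2)) by ring, abs_mul,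
      abs_of_nonneg (sq_nonneg β)]
    refine mul_le_mul_of_nonneg_left ?_ (sq_nonneg β)
    rw [← mul_sub, abs_mul, abs_of_pos (by norm_num : (0 : ℝ) < 1 / 2)]
    obtain ⟨hd1, hd2⟩ := abs_le.1 (le_refl |dn u xt - dn u m|)
    rw [abs_le] at e1 e2 e3
    have := sqrt_nonneg ε
    have := mul_nonneg (show (0 : ℝ) ≤ geoC (ncol r) by linarith) (sqrt_nonneg ε)
    refine abs_le.2 ⟨?_, ?_⟩ <;> linarith [abs_nonneg (dn u xt - dn u m)]
  · rcases Nat.eq_zero_or_pos K with rfl | hK
    · simp [pastCoef]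
    refine (sum_le_sum (g := fun m => ∑ k ∈ range K,
      if m = xcol (tm r (hh - K * H + k * H)) then (K : ℝ)⁻¹ else 0) fun m _ => ?_).trans ?_
    · rw [pastCoef, abs_of_nonneg (sum_nonneg fun _ _ => by split <;> positivity)]
    · rw [sum_comm]
      simp [mul_inv_cancel₀ (by exact_mod_cast hK.ne' : (K : ℝ) ≠ 0)]
  · intro c hc
    by_contra hne
    refine hc (sum_eq_zero fun j hj => if_neg fun e => hne ?_)
    have hj' := mem_range.1 hj
    have : (j + 1) * H ≤ K * H := Nat.mul_le_mul_right _ hj'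
    rw [Nat.succ_mul] at this
    refine ⟨?_, ?_⟩
    · rw [e]
      simp [xcol, tm, T]
      omega
    · rw [e]
      simp only [v, colVec_xcol]
      exact (dn_vec hn _).le

end Vale.Agent.P150.Fast.Core
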