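import Mathlib
import Vale.Agent.P150.Fast.Cavity.Core.Var

/-!
The mean of the error of the variance of a window: the concentration of the early coefficients and
the drop of the potential of the spins (P150, core of M4).
-/

open MeasureTheory Real Finset
open scoped Matrix

namespace Vale.Agent.P150.Fast.Core

variable {n r : ℕ} {β : ℝ} {d : Dis n} {ro : Readout n r} {S : Finset (Fin n)}
  {ν : Conf n → ℝ} {net : Finset (Coef (ncol r))}

theorem bm_stAt {A : Conf n → ℝ} (s : ℕ) : BM fun P : Sam n r => A (stAt P.1.1 P.1.2.2 s) :=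
  ⟨(measurable_of_finite A).comp ((measurable_from_prod_countable_right
      (f := fun p : Conf n × Om n r => stAt p.1 p.2 s) fun x => measurable_stAt x s).comp
        ((measurable_fst.comp measurable_fst).prodMk
          (measurable_snd.comp (measurable_snd.comp measurable_fst)))),
    ∑ z, |A z|, fun _ => abs_le_sum_abs A _⟩

theorem bm_corr (p q : ℕ) :
    BM fun P : Sam n r => dn (vec (stAt P.1.1 P.1.2.2 p)) (vec (stAt P.1.1 P.1.2.2 q)) := by
  have e : (fun P : Sam n r => dn (vec (stAt P.1.1 P.1.2.2 p)) (vec (stAt P.1.1 P.1.2.2 q)))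
      = fun P => (n : ℝ)⁻¹ * ∑ i, vec (stAt P.1.1 P.1.2.2 p) i * vec (stAt P.1.1 P.1.2.2 q) i := rfl
  rw [e]
  exact bm_cmul (BM.sum _ fun i _ => bm_mul' (bm_stAt (A := fun z => vec z i) p)
    (bm_stAt (A := fun z => vec z i) q)) _

/-- Two-time overlaps of the spins. -/
theorem samE_corr (h : Law (aop n β d) ν) {p q : ℕ} (hpq : p ≤ q) (hq : q ≤ r) :
    samE (aop n β d) ν S (fun P : Sam n r =>
        dn (vec (stAt P.1.1 P.1.2.2 p)) (vec (stAt P.1.1 P.1.2.2 q)))
      = potS (aop n β d) ν S (q - p) := by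
  simp only [dn, dotProduct]
  have hb : ∀ i, BM fun P : Sam n r =>
      vec (stAt P.1.1 P.1.2.2 p) i * vec (stAt P.1.1 P.1.2.2 q) i := fun i =>
    bm_mul' (bm_stAt (A := fun z => vec z i) p) (bm_stAt (A := fun z => vec z i) q)
  rw [samE_smul h (BM.sum _ fun i _ => hb i), samE_sum h _ fun i _ => hb i, potS]
  congr 1
  refine sum_congr rfl fun i _ => ?_
  rw [samE_path h (G := fun x ω => vec (stAt x ω p) i * vec (stAt x ω q) i)
      (fun x => ((measurable_of_finite fun z : Conf n => vec z i).comp (measurable_stAt x p)).mul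
        ((measurable_of_finite fun z : Conf n => vec z i).comp (measurable_stAt x q)))
      (B := 1) (fun x ω => by
        cases h1 : stAt x ω p i <;> cases h2 : stAt x ω q i <;> simp [vec, spin, h1, h2])]
  exact law_two h hpq hq (fun z => vec z i) fun z => vec z i

/-- The mean squared magnetisation given the state. -/
theorem samE_mag (h : Law (aop n β d) ν) {s : ℕ} (hs : s ≤ r) (H : ℕ) :
    samE (aop n β d) ν S (fun P : Sam n r =>
        dn (mAt (aop n β d) ν S H (stAt P.1.1 P.1.2.2 s))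
          (mAt (aop n β d) ν S H (stAt P.1.1 P.1.2.2 s)))
      = potS (aop n β d) ν S (H + H) := by
  set f : Conf n → ℝ := fun z => dn (mAt (aop n β d) ν S H z) (mAt (aop n β d) ν S H z)
  rw [samE_path h (G := fun x ω => f (stAt x ω s))
    (fun x => (measurable_of_finite f).comp (measurable_stAt x s)) (B := ∑ z, |f z|)
    fun x ω => abs_le_sum_abs f _]
  have e := law_two h (S := S) le_rfl hs f (fun _ => 1)
  simp only [mul_one, Nat.sub_self] at e
  rw [e, potS]
  simp only [ip, powOp, Function.iterate_zero, id, f, dn, dotProduct, mul_sum, mul_one]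
  rw [sum_comm]
  refine sum_congr rfl fun i _ => ?_
  have h2 := (powerThm _ ν _ (ker0 (S := S) h) fun x => vec x i).2.2.1 H H
  simp only [ip, powOp] at h2
  rw [← mul_sum, ← h2, mul_sum]
  exact sum_congr rfl fun z _ => by simp only [mAt, powOp]; ring

theorem potS_zero_le (h : Law (aop n β d) ν) : potS (aop n β d) ν S 0 ≤ 1 := by
  rw [potS]
  have e : ∀ i, ip ν (fun x : Conf n => vec x i)
      (powOp (kerOf (pR ν) (step0 (aop n β d) S)) 0 fun x => vec x i) = 1 := fun i => by
    refine (sum_congr rfl fun x _ => ?_).trans h.one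
    cases hz : x i <;> simp [powOp, vec, spin, hz]
  simp only [e, sum_const, card_univ, Fintype.card_fin, nsmul_eq_mul, mul_one]
  rcases Nat.eq_zero_or_pos n with rfl | hn
  · simp
  · rw [inv_mul_cancel₀ (by exact_mod_cast hn.ne')]

theorem samE_pastBar_state (h : Law (aop n β d) ν) {hh K H : ℕ} (hK : 1 ≤ K) (hKH : K * H ≤ hh)
    (ht : hh + H ≤ r) :
    potS (aop n β d) ν S ((K + 1) * H) ≤ samE (aop n β d) ν S (fun P : Sam n r =>
      dn (pastBar hh K H P.1.1 P.1.2.2) (vec (stAt P.1.1 P.1.2.2 (hh + H)))) := by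
  simp only [pastBar, dn_sum_left, dn_smul_left]
  rw [samE_sum h _ fun k _ => bm_cmul (bm_corr _ _) _]
  calc potS (aop n β d) ν S ((K + 1) * H)
      = ∑ k ∈ range K, (K : ℝ)⁻¹ * potS (aop n β d) ν S ((K + 1) * H) := by
        rw [sum_const, card_range, nsmul_eq_mul, ← mul_assoc,
          mul_inv_cancel₀ (by exact_mod_cast (by omega : K ≠ 0)), one_mul]
    _ ≤ _ := sum_le_sum fun k hk => by
        have hk' : (k + 1) * H ≤ K * H := Nat.mul_le_mul_right _ (mem_range.1 hk)
        rw [Nat.succ_mul] at hk'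
        rw [samE_smul h (bm_corr _ _), samE_corr h (by omega) ht]
        exact mul_le_mul_of_nonneg_left
          ((potS_nonneg_anti h).2 (by rw [Nat.succ_mul]; omega)) (inv_nonneg.2 K.cast_nonneg)

theorem samE_pastBar_sq (h : Law (aop n β d) ν) {hh K H : ℕ} (hKH : K * H ≤ hh) (ht : hh ≤ r) :
    samE (aop n β d) ν S (fun P : Sam n r =>
      dn (pastBar hh K H P.1.1 P.1.2.2) (pastBar hh K H P.1.1 P.1.2.2))
      ≤ potS (aop n β d) ν S H + 1 / K := by
  simp only [pastBar, dn_sum_left, dn_smul_left, dn_sum_right]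
  simp only [dn_comm (vec _) ((K : ℝ)⁻¹ • vec _), dn_smul_left]
  rw [samE_sum h _ fun j _ => BM.sum _ fun k _ => bm_cmul (bm_cmul (bm_corr _ _) _) _]
  obtain ⟨hp0, hpa⟩ := potS_nonneg_anti (S := S) h
  refine (sum_le_sum (g := fun j => (K : ℝ)⁻¹ * ((K : ℝ)⁻¹ * 1
      + potS (aop n β d) ν S H)) fun j hj => ?_).trans ?_
  · rw [samE_sum h _ fun k _ => bm_cmul (bm_cmul (bm_corr _ _) _) _]
    simp only [samE_smul h (bm_cmul (bm_corr _ _) _), samE_smul h (bm_corr _ _)]
    rw [← mul_sum, ← mul_sum]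
    refine mul_le_mul_of_nonneg_left ?_ (inv_nonneg.2 K.cast_nonneg)
    have hj' : (j + 1) * H ≤ K * H := Nat.mul_le_mul_right _ (mem_range.1 hj)
    rw [Nat.succ_mul] at hj'
    have hb : ∀ k ∈ range K, samE (aop n β d) ν S (fun P : Sam n r =>
        dn (vec (stAt P.1.1 P.1.2.2 (hh - K * H + j * H)))
          (vec (stAt P.1.1 P.1.2.2 (hh - K * H + k * H))))
        ≤ (if k = j then (1 : ℝ) else 0) + potS (aop n β d) ν S H := fun k hk => by
      have hk' : (k + 1) * H ≤ K * H := Nat.mul_le_mul_right _ (mem_range.1 hk)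
      rw [Nat.succ_mul] at hk'
      rcases lt_trichotomy j k with hkj | hkj | hkj
      · have : (j + 1) * H ≤ k * H := Nat.mul_le_mul_right _ hkj
        rw [Nat.succ_mul] at this
        rw [samE_corr h (by omega) (by omega), if_neg (by omega), zero_add]
        exact hpa (by omega)
      · subst hkj
        rw [samE_corr h le_rfl (by omega), Nat.sub_self, if_pos rfl]
        exact le_add_of_le_of_nonneg (potS_zero_le h) (hp0 H)
      · have : (k + 1) * H ≤ j * H := Nat.mul_le_mul_right _ hkj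
        rw [Nat.succ_mul] at this
        have ec : (fun P : Sam n r => dn (vec (stAt P.1.1 P.1.2.2 (hh - K * H + j * H)))
            (vec (stAt P.1.1 P.1.2.2 (hh - K * H + k * H))))
            = fun P => dn (vec (stAt P.1.1 P.1.2.2 (hh - K * H + k * H)))
              (vec (stAt P.1.1 P.1.2.2 (hh - K * H + j * H))) := funext fun P => dn_comm _ _
        rw [ec, samE_corr h (by omega) (by omega), if_neg (by omega), zero_add]
        exact hpa (by omega)
    refine (mul_le_mul_of_nonneg_left (sum_le_sum hb) (inv_nonneg.2 K.cast_nonneg)).trans ?_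
    rw [sum_add_distrib, sum_ite_eq', if_pos hj, sum_const, card_range, nsmul_eq_mul, mul_add,
      ← mul_assoc (K : ℝ)⁻¹ (K : ℝ), inv_mul_cancel₀ (by
        exact_mod_cast (Nat.pos_of_ne_zero (by rintro rfl; simp at hj)).ne' : (K : ℝ) ≠ 0), one_mul]
  · rw [sum_const, card_range, nsmul_eq_mul, ← mul_assoc]
    rcases Nat.eq_zero_or_pos K with rfl | hK
    · simpa using hp0 H
    · rw [mul_inv_cancel₀ (by exact_mod_cast hK.ne'), one_mul, mul_one, one_div, add_comm]

/-- The spins of the last step as a window test. -/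
def lastSpin (H : ℕ) (b : Fin H) (_ : Fin n) (_ _ : ℝ) (s : Bool) : ℝ :=
  if b.1 + 1 = H then spin s else 1

theorem lastSpin_bd (H : ℕ) (b : Fin H) (i : Fin n) : SmoothBd2 1 (lastSpin H b i) := by
  refine ⟨fun _ _ _ => 0, fun _ _ _ => 0, fun _ => continuous_const, fun _ => continuous_const,
    fun u v s => ⟨hasDerivAt_const u _, hasDerivAt_const v _, ?_, by simp, by simp⟩⟩
  unfold lastSpin
  split <;> cases s <;> simp [spin]

theorem pastTest_last {H : ℕ} (hH : 1 ≤ H) (c : Fin n → ℝ) (z : Conf n) (w : Om n H) :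
    pastTest β d S (lastSpin H) (fun _ _ => 1) c z w = dn c (vec (endAt z w)) := by
  obtain ⟨H, rfl⟩ : ∃ k, H = k + 1 := ⟨H - 1, by omega⟩
  simp only [pastTest, siteTest, dn, dotProduct, mul_one]
  refine congrArg _ (sum_congr rfl fun i _ => ?_)
  congr 1
  rw [prod_eq_single (Fin.last H) (fun b _ hb => ?_) (by simp)]
  · simp [lastSpin, vec, endAt, ← Fin.succ_last]
  · rw [lastSpin, if_neg]
    intro e
    exact hb (Fin.ext (by simp at e ⊢; omega))

theorem pastMean_last (h : Law (aop n β d) ν) {H : ℕ} (hH : 1 ≤ H) (c : Fin n → ℝ) (z : Conf n) :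
    pastMean β d ν S (lastSpin H) (fun _ _ => 1) c z
      = dn c (mAt (aop n β d) ν S H z) := by
  rw [pastMean, funext (pastTest_last (β := β) (d := d) (S := S) hH c z),
    pathE_pow h H (fun y => dn c (vec y)) z, powOp_dn]
  rfl

theorem earlyCut_le (hn : 1 ≤ n) (hh t : ℕ) (θ : Coef (ncol r)) (P : Sam n r) :
    ∑ i, earlyCut β d hh t θ P i ^ 2 ≤ n := by
  have hn0 : (0 : ℝ) < n := by exact_mod_cast hn
  set c := earlyCut β d hh t θ P
  have h1 : dn c c ≤ 1 := by
    simp only [c, earlyCut]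
    split
    · rw [dn_smul_left, dn_comm, dn_smul_left]; linarith
    · simp [dn]
  rw [dn, inv_mul_le_iff₀ hn0, mul_one] at h1
  exact le_trans (le_of_eq (sum_congr rfl fun i _ => pow_two _)) h1

theorem earlyCut_past {C : ℝ} {θ : Coef (ncol r)} (hθ : NetOK C θ) (hh t : ℕ) (x : Conf n)
    (g : Fin n → ℝ) (ω ω' : Om n r) (q : Fin (ncol r) × Fin n → ℝ) (ha : 0 + hh ≤ r)
    (hw : winAt ha ω = winAt ha ω') :
    earlyCut β d hh t θ ((x, g, ω), q) = earlyCut β d hh t θ ((x, g, ω'), q) := by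
  have e : earlyPart θ (colVec (aop n β d) (x, g, ω)) (2 * hh + 1) (xcol (tm r t))
      = earlyPart θ (colVec (aop n β d) (x, g, ω')) (2 * hh + 1) (xcol (tm r t)) := by
    refine sum_congr rfl fun l hl => congrArg _ (sum_congr rfl fun j _ => ?_)
    rcases le_or_gt j l with hjl | hjl
    · rw [col_past _ ha hw ((Fin.le_def.1 hjl).trans (mem_filter.1 hl).2)]
    · simp [(hθ.2 l j hjl).1]
  simp only [earlyCut, e]

theorem measurable_earlyCut (hh t : ℕ) (θ : Coef (ncol r)) (i : Fin n) :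
    Measurable fun P : Sam n r => earlyCut β d hh t θ P i := by
  have hu : ∀ j, Measurable fun P : Sam n r =>
      earlyPart θ (colVec (aop n β d) P.1) (2 * hh + 1) (xcol (tm r t)) j := fun j => by
    simp only [earlyPart, comb, Finset.sum_apply, Pi.smul_apply, smul_eq_mul]
    exact Finset.measurable_fun_sum _ fun l _ => (Finset.measurable_fun_sum _ fun c _ =>
      ((measurable_colVec _ c j).comp measurable_fst).const_mul _).const_mul _
  simp only [earlyCut, ite_apply, Pi.smul_apply, Pi.zero_apply, smul_eq_mul]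
  refine Measurable.ite (measurableSet_le ?_ measurable_const) ((hu i).const_mul _) measurable_const
  simp only [dn, dotProduct]
  exact (Finset.measurable_fun_sum _ fun j _ => (hu j).mul (hu j)).const_mul _

theorem bm_notFits (hnet : ∀ P, ro.cell d P ∈ net) (hro : ReadOK β ro) (ε : ℝ) :
    BM fun P : Sam n r => ({P | ¬ Fits β ro d ε P} : Set (Traj n r)).indicator 1 P.1 := by
  classical
  have hc : ∀ θ : Coef (ncol r), MeasurableSet {P : Traj n r |
      (∀ k l, |θ.al k l
          - (n : ℝ)⁻¹ * (colVec (aop n β d) P k ⬝ᵥ combVec (aop n β d) θ P l)| ≤ ε) ∧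
      (∀ l m, l ≠ m → |(n : ℝ)⁻¹ * (combVec (aop n β d) θ P l
          ⬝ᵥ combVec (aop n β d) θ P m)| ≤ ε) ∧
      (∀ l, (∀ j, θ.R l j = 0) ∨ |(n : ℝ)⁻¹ * (combVec (aop n β d) θ P l
          ⬝ᵥ combVec (aop n β d) θ P l) - 1| ≤ ε) ∧
      (∀ k, (n : ℝ)⁻¹ * ∑ i, (colVec (aop n β d) P k i
          - ∑ l, θ.al k l * combVec (aop n β d) θ P l i) ^ 2 ≤ ε)} := fun θ => by
    have hcol : ∀ k i, Measurable fun P : Traj n r => colVec (aop n β d) P k i :=
      measurable_colVec _
    have hcv : ∀ l i, Measurable fun P : Traj n r => combVec (aop n β d) θ P l i := fun l i =>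
      Finset.measurable_fun_sum _ fun j _ => (hcol j i).const_mul _
    simp only [dotProduct, Set.ofPred_and, Set.ofPred_forall, Set.ofPred_or]
    refine MeasurableSet.inter ?_ (MeasurableSet.inter ?_ (MeasurableSet.inter ?_ ?_))
    · exact MeasurableSet.iInter fun k => MeasurableSet.iInter fun l => measurableSet_le (by fun_prop) measurable_const
    · exact MeasurableSet.iInter fun l => MeasurableSet.iInter fun m => MeasurableSet.iInter fun _ =>
        measurableSet_le (by fun_prop) measurable_const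
    · exact MeasurableSet.iInter fun l => (MeasurableSet.iInter fun j => MeasurableSet.const _).union
        (measurableSet_le (by fun_prop) measurable_const)
    · exact MeasurableSet.iInter fun k => measurableSet_le (by fun_prop) measurable_const
  have e : {P : Traj n r | ¬ Fits β ro d ε P}
      = ⋃ θ ∈ net, {P : Traj n r | ro.cell d P = θ} \ {P : Traj n r |
      (∀ k l, |θ.al k l
          - (n : ℝ)⁻¹ * (colVec (aop n β d) P k ⬝ᵥ combVec (aop n β d) θ P l)| ≤ ε) ∧
      (∀ l m, l ≠ m → |(n : ℝ)⁻¹ * (combVec (aop n β d) θ P l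
          ⬝ᵥ combVec (aop n β d) θ P m)| ≤ ε) ∧
      (∀ l, (∀ j, θ.R l j = 0) ∨ |(n : ℝ)⁻¹ * (combVec (aop n β d) θ P l
          ⬝ᵥ combVec (aop n β d) θ P l) - 1| ≤ ε) ∧
      (∀ k, (n : ℝ)⁻¹ * ∑ i, (colVec (aop n β d) P k i
          - ∑ l, θ.al k l * combVec (aop n β d) θ P l i) ^ 2 ≤ ε)} := by
    ext P
    simp only [Set.mem_iUnion, Set.mem_sdiff, Set.mem_ofPred_eq, exists_prop]
    constructor
    · intro hP
      exact ⟨_, hnet P, rfl, hP⟩
    · rintro ⟨θ, -, rfl, hP⟩
      exact hP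
  refine ⟨((measurable_const (a := (1 : ℝ))).indicator ?_).comp measurable_fst, 1, fun P => ?_⟩
  · rw [e]
    exact MeasurableSet.biUnion net.countable_toSet fun θ _ => (hro.1 d θ).diff (hc θ)
  · by_cases hp : P.1 ∈ {P : Traj n r | ¬ Fits β ro d ε P} <;> simp [Set.indicator, hp]

/-- **The mean error of the variance of a window.** -/
theorem var_mean {C C₁ L lam l ε εf : ℝ} {hh K H : ℕ} (h : Law (aop n β d) ν) (hn : 1 ≤ n)
    (hd : NormGood β L lam d) (hnet : ∀ P, ro.cell d P ∈ net) (hro : ReadOK β ro)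
    (hC : ∀ θ ∈ net, NetOK C θ) (hε : 0 ≤ ε) (hε1 : ε ≤ 1)
    (hg : 2 * geoC (ncol r) * √ε ≤ 1) (hC1 : ConcAt H L lam 1 C₁) (hl : 0 < l) (hK : 1 ≤ K)
    (hH : 1 ≤ H) (hKH : K * H ≤ hh) (ht : hh + H ≤ r)
    (hf : trajE (aop n β d) 0 ν S ({P : Traj n r | ¬ Fits β ro d ε P}.indicator 1) ≤ εf) :
    samE (aop n β d) ν S (fun P : Sam n r => min 4
        |β ^ 2 * (1 - dn (mAt (aop n β d) ν S H (stAt P.1.1 P.1.2.2 hh))
              (mAt (aop n β d) ν S H (stAt P.1.1 P.1.2.2 hh)))
          - vWin β (cellAt ro d P) hh (hh + H) (xcol (tm r (hh + H)))|)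
      ≤ (4 + 4 * β ^ 2) * εf
        + β ^ 2 * (8 * (net.card * concErr C₁ l hh H ν (step0 (aop n β d) S))
          + (2 * (potS (aop n β d) ν S H - potS (aop n β d) ν S ((K + 1) * H)) + 1 / K)
          + 12 * geoC (ncol r) * √ε) := by
  set A := aop n β d
  set mm : Sam n r → ℝ := fun P => dn (mAt A ν S H (stAt P.1.1 P.1.2.2 hh))
    (mAt A ν S H (stAt P.1.1 P.1.2.2 hh))
  set bx : Sam n r → ℝ := fun P =>
    dn (pastBar hh K H P.1.1 P.1.2.2) (vec (stAt P.1.1 P.1.2.2 (hh + H)))
  set bb : Sam n r → ℝ := fun P =>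
    dn (pastBar hh K H P.1.1 P.1.2.2) (pastBar hh K H P.1.1 P.1.2.2)
  set T : Sam n r → ℝ := fun P =>
    |dn (earlyCut β d hh (hh + H) (cellAt ro d P) P) (vec (stAt P.1.1 P.1.2.2 (hh + H)))
      - dn (earlyCut β d hh (hh + H) (cellAt ro d P) P) (mAt A ν S H (stAt P.1.1 P.1.2.2 hh))|
  set I : Sam n r → ℝ := fun P => {P : Traj n r | ¬ Fits β ro d ε P}.indicator 1 P.1
  set c := 12 * geoC (ncol r) * √ε
  have hmm : BM mm :=
    bm_stAt (A := fun z => dn (mAt A ν S H z) (mAt A ν S H z)) hh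
  have hbx : BM bx := by
    simp only [bx, pastBar, dn_sum_left, dn_smul_left]
    exact BM.sum _ fun k _ => bm_cmul (bm_corr _ _) _
  have hbb : BM bb := by
    simp only [bb, pastBar, dn_sum_left, dn_smul_left, dn_sum_right]
    simp only [dn_comm (vec _) ((K : ℝ)⁻¹ • vec _), dn_smul_left]
    exact BM.sum _ fun k _ => BM.sum _ fun j _ => bm_cmul (bm_cmul (bm_corr _ _) _) _
  have hI : BM I := bm_notFits hnet hro ε
  have hT : BM T := by
    refine bm_cell hnet hro
      (F := fun θ P => |dn (earlyCut β d hh (hh + H) θ P) (vec (stAt P.1.1 P.1.2.2 (hh + H)))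
        - dn (earlyCut β d hh (hh + H) θ P) (mAt A ν S H (stAt P.1.1 P.1.2.2 hh))|) fun θ hθ => ?_
    have hec : ∀ i, BM fun P : Sam n r => earlyCut β d hh (hh + H) θ P i := fun i =>
      ⟨measurable_earlyCut hh (hh + H) θ i, √n, fun P =>
        abs_le_sqrt ((single_le_sum (f := fun j => earlyCut β d hh (hh + H) θ P j ^ 2)
          (fun j _ => sq_nonneg _) (mem_univ i)).trans (earlyCut_le hn hh (hh + H) θ P))⟩
    refine bm_abs (bm_sub' ?_ ?_) <;> simp only [dn, dotProduct]
    · exact bm_cmul (BM.sum _ fun i _ => bm_mul' (hec i) (bm_stAt (A := fun z => vec z i) _)) _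
    · exact bm_cmul (BM.sum _ fun i _ => bm_mul' (hec i) (bm_stAt (A := fun z => mAt A ν S H z i) _)) _
  have hlhs : BM fun P : Sam n r => min 4 |β ^ 2 * (1 - mm P)
      - vWin β (cellAt ro d P) hh (hh + H) (xcol (tm r (hh + H)))| := by
    refine bm_cell hnet hro (F := fun θ P => min 4 |β ^ 2 * (1 - mm P)
      - vWin β θ hh (hh + H) (xcol (tm r (hh + H)))|) fun θ _ => ?_
    have hb := bm_abs (bm_sub' (bm_cmul (bm_sub' (BM.const (1 : ℝ)) hmm) (β ^ 2))
      (BM.const (vWin β θ hh (hh + H) (xcol (tm r (hh + H))))))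
    exact ⟨measurable_const.min hb.1, 4, fun P => by
      rw [abs_of_nonneg (le_min (by norm_num) (abs_nonneg _))]; exact min_le_left _ _⟩
  have hbar1 : ∀ P : Sam n r, dn (pastBar hh K H P.1.1 P.1.2.2)
      (pastBar hh K H P.1.1 P.1.2.2) ≤ 1 := fun P => by
    refine dn_le_one fun i => ?_
    simp only [pastBar, Finset.sum_apply, Pi.smul_apply, smul_eq_mul]
    refine (abs_sum_le_sum_abs _ _).trans ((sum_le_sum (g := fun _ => (K : ℝ)⁻¹) fun k _ => ?_).trans ?_)
    · cases hz : stAt P.1.1 P.1.2.2 (hh - K * H + k * H) i <;> simp [vec, spin, hz]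
    · rw [sum_const, card_range, nsmul_eq_mul, mul_inv_cancel₀ (by exact_mod_cast (by omega : K ≠ 0))]
  have hc0 : 0 ≤ c :=
    mul_nonneg (mul_nonneg (by norm_num) (by unfold geoC; positivity)) (sqrt_nonneg _)
  have hpt : ∀ P : Sam n r, min 4 |β ^ 2 * (1 - mm P)
      - vWin β (cellAt ro d P) hh (hh + H) (xcol (tm r (hh + H)))|
      ≤ (4 + 4 * β ^ 2) * I P + β ^ 2 * (8 * T P + (mm P - 2 * bx P + bb P) + c) := fun P => by
    by_cases hP : Fits β ro d ε P.1
    · have e : I P = 0 := Set.indicator_of_notMem (by simpa using hP) _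
      rw [e, mul_zero, zero_add]
      exact (min_le_right _ _).trans
        (var_point hn ht hKH hε hε1 hg P (hC _ (hnet P.1)) hP)
    · have e : I P = 1 :=
        (Set.indicator_of_mem (by simpa using hP) _).trans rfl
      rw [e]
      have h1 : bx P ≤ 1 := by
        refine (le_abs_self _).trans ((abs_dn_le _ _).trans ?_)
        exact mul_le_one₀ (sqrt_le_one.2 (hbar1 P)) (sqrt_nonneg _)
          (sqrt_le_one.2 (dn_vec hn _).le)
      have h2 : 0 ≤ mm P := dn_nonneg _
      have h3 : 0 ≤ bb P := dn_nonneg _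
      have h4 : 0 ≤ T P := abs_nonneg _
      have h5 : -(2 * β ^ 2) ≤ β ^ 2 * (8 * T P + (mm P - 2 * bx P + bb P) + c) := by
        nlinarith [sq_nonneg β]
      linarith [min_le_left (4 : ℝ) |β ^ 2 * (1 - mm P)
        - vWin β (cellAt ro d P) hh (hh + H) (xcol (tm r (hh + H)))|, sq_nonneg β]
  have hD : BM fun P => mm P - 2 * bx P + bb P := bm_add' (bm_sub' hmm (bm_cmul hbx 2)) hbb
  have hR : BM fun P => 8 * T P + (mm P - 2 * bx P + bb P) + c :=
    bm_add' (bm_add' (bm_cmul hT 8) hD) (BM.const c)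
  refine (samE_mono h hlhs (bm_add' (bm_cmul hI _) (bm_cmul hR _)) hpt).trans ?_
  rw [samE_add h (bm_cmul hI _) (bm_cmul hR _), samE_smul h hI, samE_smul h hR,
    samE_add h (bm_add' (bm_cmul hT 8) hD) (BM.const c), samE_const h,
    samE_add h (bm_cmul hT 8) hD, samE_smul h hT, samE_add h (bm_sub' hmm (bm_cmul hbx 2)) hbb,
    samE_sub h hmm (bm_cmul hbx 2), samE_smul h hbx]
  have eI : samE A ν S I = trajE A 0 ν S ({P : Traj n r | ¬ Fits β ro d ε P}.indicator 1) := by
    simp [samE, I]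
  have eT : samE A ν S T ≤ net.card * concErr C₁ l hh H ν (step0 A S) := by
    refine le_trans (le_of_eq ?_) (conc_net hC1 hl h hn hd hnet hro ht zero_le_one
      (ψ := lastSpin H) (F := fun _ _ => (1 : ℝ)) (lastSpin_bd H)
      (fun i => ⟨fun _ => 0, fun _ => 0, fun u => hasDerivAt_const u _, fun u => hasDerivAt_const u _,
        continuous_const, fun u => by simp⟩)
      (fun θ P => earlyCut β d hh (hh + H) θ P) (fun θ _ i => measurable_earlyCut hh _ θ i)
      (fun θ _ P => earlyCut_le hn hh _ θ P)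
      (fun θ hθ x g ω ω' q hw => earlyCut_past (hC θ hθ) hh _ x g ω ω' q _ hw))
    congr 1
    funext P
    rw [pastTest_last hH, pastMean_last h hH, endAt_win]
  have e1 : samE A ν S mm ≤ potS A ν S H := by
    rw [samE_mag h (by omega) H]
    exact (potS_nonneg_anti h).2 (Nat.le_add_right H H)
  have e2 : potS A ν S ((K + 1) * H) ≤ samE A ν S bx := samE_pastBar_state h hK hKH ht
  have e3 : samE A ν S bb ≤ potS A ν S H + 1 / K := samE_pastBar_sq h hKH (by omega)
  rw [eI]
  refine add_le_add (mul_le_mul_of_nonneg_left hf (by positivity))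
    (mul_le_mul_of_nonneg_left ?_ (sq_nonneg β))
  linarith

theorem potX_eq (h1 : ∑ x, ν x = 1) (β : ℝ) (d : Dis n) (S : Finset (Fin n)) (k : ℕ) :
    potX β d 0 ν 0 S k = potS (aop n β d) ν S k := by
  simp [potX, potS, farOp, priorAt_zero' _ h1, step0]

theorem farR_eq (h1 : ∑ x, ν x = 1) (β : ℝ) (d : Dis n) (S : Finset (Fin n)) (H : ℕ) (x : Conf n) :
    farR β d 0 ν 0 S H x
      = β ^ 2 * (1 - dn (mAt (aop n β d) ν S H x) (mAt (aop n β d) ν S H x)) := by
  simp [farR, farQ, farMag, farOp, mAt, dn, dotProduct, priorAt_zero' _ h1, step0, pow_two]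

end Vale.Agent.P150.Fast.Core
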