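import Mathlib
import Vale.Agent.P150.Fast.Cavity.Core.Errors
import Vale.Agent.P150.Fast.Cavity.Core.VarMean

/-!
Sums over the blocks: the tests against the master inequality, and the potentials of the statement
against those of the blocks (P150, core of M4).
-/

open MeasureTheory Real Finset
open scoped Matrix

namespace Vale.Agent.P150.Fast.Core

variable {n r : ℕ} {Q : Par} {d : Dis n} {S : Finset (Fin n)} {ro : Readout n r} {ν : Conf n → ℝ}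
  {net : Finset (Coef (ncol r))} {C L lam m₀ : ℝ} {f : ℝ → ℝ}

theorem fieldE_zero' (G : (Fin n → ℝ) → ℝ) (h1 : ∑ x, ν x = 1) : fieldE 0 ν G = G 0 := by
  simp [fieldE, sideField_zero, ← sum_mul, h1]

theorem trajD_zero (A : Matrix (Fin n) (Fin n) ℝ) (h1 : ∑ x, ν x = 1) (S : Finset (Fin n)) (r : ℕ) :
    trajD A 0 ν S r = r * freeD ν (step0 A S) := by
  simp [trajD, sideField_zero, priorAt_zero' A h1, ← sum_mul, h1, step0]

/-- A centred sum over the blocks as the sum of the tests of the blocks. -/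
theorem samE_centred (h : Ctx Q d S ro ν net C L lam m₀) {J : ℕ} {B : ℝ} {s t : ℕ → ℕ}
    {φ Z : Coef (ncol r) → ℕ → Site r → ℝ} (hT : WinTests r J B net s t φ Z) :
    ∑ j ∈ range J, samE (aop n Q.β d) ν S (fun P => (n : ℝ)⁻¹ * ∑ i ∈ Sᶜ,
      atS d ro Q.β (fun θ e => φ θ j e
        * (Z θ j e - condM Q.β (shift Q.β) Q.W 0 θ true (s j) (t j) (Z θ j) e)) i P)
    = samE (aop n Q.β d) ν S (fun P => (n : ℝ)⁻¹ * ∑ i ∈ Sᶜ,
        centred Q.β Q.W J s t φ Z (cellAt ro d P) (sDat Q.β ro d P i)) := by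
  have hF : ∀ j ∈ range J, ∀ i, BM (atS d ro Q.β (fun θ e => φ θ j e
      * (Z θ j e - condM Q.β (shift Q.β) Q.W 0 θ true (s j) (t j) (Z θ j) e)) i) := fun j hj i => by
    have hj := mem_range.1 hj
    refine h.bm_atS (fun θ hθ => ?_) i
    have hZ : BM (Z θ j) := ⟨hT.Zm θ hθ j hj, B, hT.Zb θ hθ j hj⟩
    exact bm_mul' ⟨hT.φm θ hθ j hj, 1, hT.φb θ hθ j hj⟩
      (bm_sub' hZ ((condM_posOp Q.β (shift Q.β) Q.W 0 θ true _ _).bm hZ))
  rw [← samE_sum h.law _ fun j hj => bm_cmul (BM.sum _ fun i _ => hF j hj i) _]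
  congr 1
  funext P
  rw [← mul_sum, sum_comm]
  rfl

/-- The tests of the blocks, summed. -/
theorem Ctx.tau_total (h : Ctx Q d S ro ν net C L lam m₀) (hf : IsTest1 f) (b : Bool) (a : Fin 3)
    {J : ℕ} (hr : Q.blk J ≤ r) {lam' Dt : ℝ} (hl : 0 < lam')
    (hp : trajE (aop n Q.β d) 0 ν S (siteAvg Q.β ro d S (martF Q.β Q.W (Q.bw m₀ Q.H) lam' J net
      (fun j => Q.blk j + Q.K * Q.H) (fun j => Q.blk j + Q.K * Q.H + Q.H)
      (Q.phiT m₀ f b a) (Q.zT f b a))) ≤ Dt)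
    (hm : trajE (aop n Q.β d) 0 ν S (siteAvg Q.β ro d S (martF Q.β Q.W (Q.bw m₀ Q.H) (-lam') J net
      (fun j => Q.blk j + Q.K * Q.H) (fun j => Q.blk j + Q.K * Q.H + Q.H)
      (Q.phiT m₀ f b a) (Q.zT f b a))) ≤ Dt) :
    |∑ j ∈ range J, Q.tau d ν S ro m₀ f b a j|
      ≤ Q.bw m₀ (Q.K * Q.H) * ((Dt + J * (2 * Q.bw m₀ Q.H * lam') ^ 2) / lam') := by
  have hT := h.tests hf b hr a
  simp only [Par.tau, ← mul_sum]
  rw [samE_centred h hT, abs_mul, abs_of_pos (zero_lt_one.trans_le (one_le_bw _ _))]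
  exact mul_le_mul_of_nonneg_left (test_bound h.law h.mem h.read hT h.netOK hl hp hm)
    (zero_le_one.trans (one_le_bw _ _))

/-- The potential of the tests is the sum of the potentials of the blocks. -/
theorem potW_eq (h1 : ∑ x, ν x = 1) (Φs : Finset (ℝ → ℝ → ℝ)) (k : ℕ) :
    potW Q.β d 0 Q.κ ν 0 S Φs k
      = ∑ Φ ∈ Φs, avgIB S (fun i b => Q.pw d ν S (fun u => Φ u 0) i b k) := by
  simp only [potW, avgIB, ← mul_sum, priorAt_zero' _ h1, qFrz_eq _ _ _ h1]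
  congr 1
  rw [sum_comm (s := Φs)]
  refine sum_congr rfl fun i _ => ?_
  rw [sum_comm (s := Φs)]
  rfl

theorem pw_anti (h : Ctx Q d S ro ν net C L lam m₀) {i : Fin n} (hi : i ∉ S) (b : Bool) :
    Antitone (Q.pw d ν S f i b) :=
  (powerThm _ _ _ ((h.win hi).psd b) _).2.1

/-- A small drop of both potentials bounds the drops of one block. -/
theorem Ctx.drops (h : Ctx Q d S ro ν net C L lam m₀) (Φs : Finset (ℝ → ℝ → ℝ)) {ϑ : ℝ}
    (hd : potDrop Q.β d 0 Q.κ ν S Φs Q.H ((Q.K + 2) * Q.H) ≤ ϑ) :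
    potS (aop n Q.β d) ν S Q.H - potS (aop n Q.β d) ν S ((Q.K + 1) * Q.H) ≤ ϑ
    ∧ ∀ Φ ∈ Φs, avgIB S (fun i b => 2 * (Q.pw d ν S (fun u => Φ u 0) i b Q.H
        - Q.pw d ν S (fun u => Φ u 0) i b ((Q.K + 1) * Q.H))) ≤ 2 * ϑ := by
  have h1 := h.law.one
  rw [potDrop, fieldE_zero' _ h1] at hd
  simp only [potX_eq h1, potW_eq h1, ← sum_sub_distrib, ← avgIB_sub] at hd
  set A := aop n Q.β d
  have e1 : (Q.K + 1) * Q.H ≤ (Q.K + 2) * Q.H := Nat.mul_le_mul_right _ (Nat.le_succ _)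
  have e2 : Q.H ≤ (Q.K + 2) * Q.H := Nat.le_mul_of_pos_left _ (Nat.succ_pos _)
  have e3 : Q.H ≤ (Q.K + 1) * Q.H := Nat.le_mul_of_pos_left _ (Nat.succ_pos _)
  have hX := (potS_nonneg_anti (S := S) h.law).2
  set g : (ℝ → ℝ → ℝ) → ℕ → ℝ := fun Φ k => avgIB S fun i b =>
    Q.pw d ν S (fun u => Φ u 0) i b Q.H - Q.pw d ν S (fun u => Φ u 0) i b k
  have hg : ∀ Φ, ∀ k, Q.H ≤ k → 0 ≤ g Φ k := fun Φ k hk =>
    mul_nonneg (inv_nonneg.2 n.cast_nonneg) (sum_nonneg fun i hi => sum_nonneg fun b _ =>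
      sub_nonneg.2 (pw_anti h (mem_compl.1 hi) b hk))
  have hmono : ∀ Φ, g Φ ((Q.K + 1) * Q.H) ≤ g Φ ((Q.K + 2) * Q.H) := fun Φ =>
    avgIB_mono fun i hi b => sub_le_sub_left (pw_anti h hi b e1) _
  have hsum : 0 ≤ ∑ Φ ∈ Φs, g Φ ((Q.K + 2) * Q.H) := sum_nonneg fun Φ _ => hg Φ _ e2
  refine ⟨?_, fun Φ hΦ => ?_⟩
  · linarith [hX e1]
  · rw [avgIB_smul]
    have := single_le_sum (f := fun Φ => g Φ ((Q.K + 2) * Q.H)) (fun Φ _ => hg Φ _ e2) hΦ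
    linarith [hX e2, hmono Φ]

end Vale.Agent.P150.Fast.Core
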