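import Mathlib
import Vale.Agent.P150.Fast.Cavity.Core.BlockIdent
import Vale.Agent.P150.Fast.Cavity.Core.VarMean
import Vale.Agent.P150.Fast.Cavity.Core.MainSum

/-!
The errors of all blocks against one small number (P150, core of M4).
-/

open MeasureTheory Real Finset
open scoped Matrix

namespace Vale.Agent.P150.Fast.Core

variable {n r : ℕ} {Q : Par} {d : Dis n} {S : Finset (Fin n)} {ro : Readout n r} {ν : Conf n → ℝ}
  {net : Finset (Coef (ncol r))} {C L lam m₀ : ℝ}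

/-- All the numbers of the blocks are below `e`. -/
structure Budget (Q : Par) (d : Dis n) (S : Finset (Fin n)) (ro : Readout n r) (ν : Conf n → ℝ)
    (net : Finset (Coef (ncol r))) (L lam m₀ : ℝ) (Φs : Finset (ℝ → ℝ → ℝ)) (J : ℕ)
    (C₀ C₂ Cc C₁ B δ l εg e : ℝ) : Prop where
  hr : Q.blk J ≤ r
  J1 : 1 ≤ J
  K1 : 1 ≤ Q.K
  H1 : 1 ≤ Q.H
  invK : 1 / (Q.K : ℝ) ≤ e
  e1 : e ≤ 1
  drop : potDrop Q.β d 0 Q.κ ν S Φs Q.H ((Q.K + 2) * Q.H) ≤ e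
  win₀ : WinC (Q.K * Q.H) Q.R m₀ C₀
  win₂ : WinC (Q.K * Q.H + Q.H) Q.R m₀ C₂
  e₀ : Q.eWin d ν S C₀ (Q.K * Q.H) ≤ e
  e₂ : Q.eWin d ν S C₂ (Q.K * Q.H + Q.H) ≤ e
  conc : ConcAt Q.H L lam B Cc
  conc₁ : ConcAt Q.H L lam 1 C₁
  hB : (1 + 4 / Q.κ) / m₀ * (cutB Q.R + cutL Q.R) ≤ B
  hBδ : max 1 (2 / δ) ≤ B
  δ0 : 0 < δ
  δe : δ ≤ e
  l0 : 0 < l
  small : ∀ a, a + Q.H ≤ r → Q.bw m₀ (Q.K * Q.H)
      * (net.card * concErr Cc l a Q.H ν (step0 (aop n Q.β d) S)) ≤ e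
  small₁ : ∀ a, a + Q.H ≤ r → net.card * concErr C₁ l a Q.H ν (step0 (aop n Q.β d) S) ≤ e
  bridge : eBr Q.β d ν S ro (Q.brB m₀) (Q.brL m₀) ≤ e
  eg0 : 0 ≤ εg
  eg1 : εg ≤ 1
  geo : 12 * geoC (ncol r) * √εg ≤ e
  fits : trajE (aop n Q.β d) 0 ν S ({P : Traj n r | ¬ Fits Q.β ro d εg P}.indicator 1) ≤ e
  tau : ∀ Φ ∈ Φs, ∀ b a, |∑ j ∈ range J, Q.tau d ν S ro m₀ (fun u => Φ u 0) b a j| ≤ e * J

variable {Φs : Finset (ℝ → ℝ → ℝ)} {J : ℕ} {C₀ C₂ Cc C₁ B δ l εg e : ℝ}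

/-- The variance of every block. -/
theorem Budget.var_le (bu : Budget Q d S ro ν net L lam m₀ Φs J C₀ C₂ Cc C₁ B δ l εg e)
    (h : Ctx Q d S ro ν net C L lam m₀) (hβ0 : 0 ≤ Q.β) (hβ1 : Q.β ≤ 1) {j : ℕ} (hj : j < J) :
    Q.eVar d ν S ro j ≤ 22 * e := by
  have hs := Q.blk_le hj bu.hr
  have hg : 2 * geoC (ncol r) * √εg ≤ 1 := by
    have hg0 : 0 ≤ geoC (ncol r) * √εg := mul_nonneg (by unfold geoC; positivity) (sqrt_nonneg _)
    linarith [bu.geo, bu.e1]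
  have hv := var_mean (β := Q.β) h.law h.hn h.norm h.mem h.read h.netOK bu.eg0 bu.eg1 hg bu.conc₁ bu.l0
    bu.K1 bu.H1 (Nat.le_add_left _ (Q.blk j)) hs bu.fits
  have e1 : Q.eVar d ν S ro j = samE (aop n Q.β d) ν S (fun P : Sam n r => min 4
      |Q.β ^ 2 * (1 - dn (mAt (aop n Q.β d) ν S Q.H (stAt P.1.1 P.1.2.2 (Q.blk j + Q.K * Q.H)))
            (mAt (aop n Q.β d) ν S Q.H (stAt P.1.1 P.1.2.2 (Q.blk j + Q.K * Q.H))))
        - vWin Q.β (cellAt ro d P) (Q.blk j + Q.K * Q.H) (Q.blk j + Q.K * Q.H + Q.H)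
          (xcol (tm r (Q.blk j + Q.K * Q.H + Q.H)))|) := by
    simp only [Par.eVar, farR_eq h.law.one, Par.kEnd]
  rw [e1]
  have he : 0 ≤ e := bu.δ0.le.trans bu.δe
  have hb2 : Q.β ^ 2 ≤ 1 := pow_le_one₀ hβ0 hβ1
  have hc := bu.small₁ (Q.blk j + Q.K * Q.H) hs
  have hX := (h.drops Φs bu.drop).1
  have hge := bu.geo
  have hK := bu.invK
  refine hv.trans ?_
  have hb := sq_nonneg Q.β
  nlinarith [mul_le_mul_of_nonneg_left hc hb, mul_le_mul_of_nonneg_left hX hb,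
    mul_le_mul_of_nonneg_left hK hb, mul_le_mul_of_nonneg_left hge hb, mul_le_mul_of_nonneg_right hb2 he]

/-- The value of every block, up to its tests and the gain of the noises. -/
theorem Budget.val_le (bu : Budget Q d S ro ν net L lam m₀ Φs J C₀ C₂ Cc C₁ B δ l εg e)
    (h : Ctx Q d S ro ν net C L lam m₀) {Φ : ℝ → ℝ → ℝ} (hΦ : Φ ∈ Φs) (hT : IsTest2 Φ) {j : ℕ}
    (hj : j < J) :
    Q.eVal d ν S ro (fun u => Φ u 0) j
      ≤ 80 * e + 4 * Q.eGain d ν S ro j + Q.tauSum d ν S ro m₀ (fun u => Φ u 0) j := by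
  have hs := Q.blk_le hj bu.hr
  have hf : IsTest1 fun u => Φ u 0 := ⟨fun u => hT.1 u 0, fun u v => by simpa using hT.2 u 0 v 0⟩
  have hv := h.block_ident bu.conc bu.hB bu.hBδ bu.l0 bu.δ0 hf hs bu.K1 bu.win₀ bu.win₂
  have he : 0 ≤ e := bu.δ0.le.trans bu.δe
  have h2 : δ * (1 + Q.eWin d ν S C₂ (Q.K * Q.H + Q.H)) ≤ 2 * e := by
    have := mul_le_mul_of_nonneg_left bu.e₂ bu.δ0.le
    have := mul_le_mul_of_nonneg_left bu.e1 bu.δ0.le
    linarith [bu.δe]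
  linarith [(h.drops Φs bu.drop).2 Φ hΦ, bu.invK, bu.e₀, bu.e₂, bu.bridge,
    bu.small (Q.blk j + Q.K * Q.H) hs]

/-- The tests of one function, summed over the blocks. -/
theorem Budget.tauSum_le (bu : Budget Q d S ro ν net L lam m₀ Φs J C₀ C₂ Cc C₁ B δ l εg e)
    {Φ : ℝ → ℝ → ℝ} (hΦ : Φ ∈ Φs) :
    ∑ j ∈ range J, Q.tauSum d ν S ro m₀ (fun u => Φ u 0) j ≤ 16 * e * J := by
  simp only [Par.tauSum, Fintype.sum_bool, sum_add_distrib, ← mul_sum]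
  have h := fun b a => abs_le.1 (bu.tau Φ hΦ b a)
  linarith [(h true 0).1, (h true 1).2, (h true 2).2, (h false 0).1, (h false 1).2, (h false 2).2]

/-- A bound in every block, averaged. -/
theorem le_of_blocks {J : ℕ} (hJ : 1 ≤ J) {x a b : ℝ} {T : ℕ → ℝ} (h : ∀ j < J, x ≤ a + T j)
    (hT : ∑ j ∈ range J, T j ≤ b * J) : x ≤ a + b := by
  have hJ0 : (0 : ℝ) < J := by exact_mod_cast hJ
  have h1 := sum_le_sum fun j (hj : j ∈ range J) => h j (mem_range.1 hj)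
  simp only [sum_const, card_range, nsmul_eq_mul, sum_add_distrib] at h1
  refine le_of_mul_le_mul_left ?_ hJ0
  linarith

/-- **All blocks together.** -/
theorem Budget.core_le (bu : Budget Q d S ro ν net L lam m₀ Φs J C₀ C₂ Cc C₁ B δ l εg e)
    (h : Ctx Q d S ro ν net C L lam m₀) (hΦs : ∀ Φ ∈ Φs, IsTest2 Φ) (hβ0 : 0 ≤ Q.β) (hβ1 : Q.β ≤ 1)
    {F : ℕ → ℝ} {s : ℝ} (hs0 : 0 < s) (hs1 : s ≤ 1) {x : ℝ}
    (hgain : ∀ j < J, Q.eGain d ν S ro j ≤ 200 * e + F j) (hF : ∑ j ∈ range J, F j ≤ 200 * e * J)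
    (hcell : ∀ j < J, x ≤ ∑ Φ ∈ Φs, (s + Q.eVal d ν S ro (fun u => Φ u 0) j / (4 * s))
      + Φs.card * (Q.eVar d ν S ro j / (4 * s)) + (Φs.card + 1) * (100 * (e + s))) :
    x ≤ (Φs.card + 1) * (1000 * (s + e / s)) := by
  have he : 0 ≤ e := bu.δ0.le.trans bu.δe
  have hes : e ≤ e / s := by rw [le_div_iff₀ hs0]; exact mul_le_of_le_one_right he hs1
  refine (le_of_blocks bu.J1 (x := x) (a := Φs.card * (101 * s + 100 * e + (880 + 22) * e / (4 * s))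
    + 100 * (e + s))
    (b := Φs.card * ((800 + 16) * e / (4 * s))) (T := fun j => ∑ Φ ∈ Φs,
      (4 * F j + Q.tauSum d ν S ro m₀ (fun u => Φ u 0) j) / (4 * s))
    (fun j hj => (hcell j hj).trans ?_) ?_).trans ?_
  · have h1 := mul_le_mul_of_nonneg_left (div_le_div_of_nonneg_right (bu.var_le h hβ0 hβ1 hj)
      (by positivity : (0 : ℝ) ≤ 4 * s)) (Φs.card.cast_nonneg (α := ℝ))
    have h2 : ∀ Φ ∈ Φs, s + Q.eVal d ν S ro (fun u => Φ u 0) j / (4 * s) ≤ s + 880 * e / (4 * s)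
        + (4 * F j + Q.tauSum d ν S ro m₀ (fun u => Φ u 0) j) / (4 * s) := fun Φ hΦ => by
      rw [add_assoc, ← add_div]
      refine add_le_add le_rfl (div_le_div_of_nonneg_right ?_ (by positivity))
      linarith [bu.val_le h hΦ (hΦs Φ hΦ) hj, hgain j hj]
    have h3 := sum_le_sum h2
    simp only [sum_add_distrib, sum_const, nsmul_eq_mul] at h3 ⊢
    linarith [show (Φs.card : ℝ) * (101 * s + 100 * e + (880 + 22) * e / (4 * s))
      = Φs.card * s + Φs.card * (880 * e / (4 * s)) + Φs.card * (22 * e / (4 * s))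
        + Φs.card * (100 * (e + s)) by ring]
  · rw [sum_comm, show (Φs.card : ℝ) * ((800 + 16) * e / (4 * s)) * J
      = ∑ _Φ ∈ Φs, (800 + 16) * e * J / (4 * s) by rw [sum_const, nsmul_eq_mul]; ring]
    refine sum_le_sum fun Φ hΦ => ?_
    rw [← sum_div, sum_add_distrib, ← mul_sum]
    refine div_le_div_of_nonneg_right ?_ (by positivity)
    linarith [bu.tauSum_le hΦ]
  · have he0 : 0 ≤ e / s := he.trans hes
    have h0 : 0 ≤ (Φs.card : ℝ) := Φs.card.cast_nonneg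
    rw [show (880 + 22) * e / (4 * s) = 225.5 * (e / s) by ring,
      show (800 + 16) * e / (4 * s) = 204 * (e / s) by ring]
    nlinarith [mul_nonneg h0 he0, mul_nonneg h0 hs0.le, mul_le_mul_of_nonneg_left hes h0]

end Vale.Agent.P150.Fast.Core
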