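import Mathlib
import Vale.Agent.P150.Fast.Cavity.Core.Window
import Vale.Agent.P150.Fast.Entropy.NormFacts
import Vale.Agent.P150.Fast.Entropy.Approx

/-!
The mean error of the window weights over the sites (P150, core of M4).
-/

open MeasureTheory ProbabilityTheory Real Finset
open scoped Matrix

namespace Vale.Agent.P150.Fast.Core

variable {n : ℕ} {A : Matrix (Fin n) (Fin n) ℝ} {ν : Conf n → ℝ}

theorem chiR_ge (R v : ℝ) : 1 - chiR R v ≤ 2 * v ^ 2 / R ^ 2 := by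
  have h := bumpC_ge (v / R)
  rw [div_pow] at h
  rw [chiR, mul_div_assoc]
  linarith

/-- The clipped part of the field at a site is at most its second moment over `R²`. -/
theorem clip_site (h : Law A ν) (S : Finset (Fin n)) (R : ℝ) (i : Fin n) :
    0 ≤ clipTail ν (step0 A S) (chiR R) i ∧
    clipTail ν (step0 A S) (chiR R) i
      ≤ ∑ x, ν x * (2 / R ^ 2 * ((A *ᵥ vec x) i ^ 2 + A i i)) := by
  have hχ : ∀ v, 0 ≤ 1 - chiR R v := fun v => sub_nonneg.2 (bumpC_mem _).2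
  refine ⟨sum_nonneg fun x _ => mul_nonneg (h.pos x).le (integral_nonneg fun y =>
    mul_nonneg (chanV_pos h.pd _ _).le (hχ _)), sum_le_sum fun x _ =>
      mul_le_mul_of_nonneg_left ?_ (h.pos x).le⟩
  set a := (A *ᵥ vec x) i with ha
  set G : ℝ → ℝ := fun u => 1 - chiR R (a + u) with hG
  have hGm : Measurable G :=
    measurable_const.sub ((continuous_chiR R).measurable.comp (measurable_const.add measurable_id))
  have e : ∫ y, chan A x y * (1 - chiR R (y i + 0)) = nE 0 (A i i) G := by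
    rw [← coord_quad (A := A) i, ← chanV_lin h.pd (A *ᵥ vec x) _ hGm]
    refine integral_congr_ae (ae_of_all _ fun y => ?_)
    simp [hG, chan_eq, dot_single, ha]
  simp only [step0, Pi.zero_apply]
  rw [e]
  obtain ⟨hi, hv⟩ := Entropy.nE_sq a h.pd.diag_pos.le
  rw [nE] at hv ⊢
  rw [← hv, ← integral_const_mul]
  refine integral_mono_of_nonneg (ae_of_all _ fun u => hχ _) (hi.const_mul _)
    (ae_of_all _ fun u => ?_)
  simp only [hG, zero_add]
  exact (chiR_ge R _).trans_eq (by ring)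

/-- The clipped parts over all sites. -/
theorem clip_sum (h : Law A ν) (S : Finset (Fin n)) (R : ℝ) {L : ℝ} (hL : 0 < L)
    (hA : ∀ v : Fin n → ℝ, v ⬝ᵥ (A *ᵥ v) ≤ L * ∑ i, v i ^ 2) :
    ∑ i, clipTail ν (step0 A S) (chiR R) i ≤ n * (2 / R ^ 2 * (L ^ 2 + L)) := by
  refine (sum_le_sum fun i _ => (clip_site h S R i).2).trans ?_
  rw [sum_comm]
  have hx : ∀ x : Conf n, ∑ i, vec x i ^ 2 = (n : ℝ) := fun x => by
    have e : ∀ i, vec x i ^ 2 = 1 := fun i => by cases hb : x i <;> simp [vec, spin, hb]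
    simp [e]
  have hd : ∀ i, A i i ≤ L := fun i => by
    have hh := hA (Pi.single i 1)
    rw [coord_quad] at hh
    simpa [Pi.single_apply] using hh
  have hq : ∀ v, |Ent.qform A v| ≤ L * ∑ i, v i ^ 2 := fun v => by
    rw [qform_eq_dot, abs_le]
    have h0 : 0 ≤ v ⬝ᵥ (A *ᵥ v) := by simpa using h.pd.posSemidef.dotProduct_mulVec_nonneg v
    have h1 := hA v
    constructor <;> linarith [mul_nonneg hL.le (sum_nonneg fun i (_ : i ∈ univ) => sq_nonneg (v i))]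
  calc ∑ x, ∑ i, ν x * (2 / R ^ 2 * ((A *ᵥ vec x) i ^ 2 + A i i))
      ≤ ∑ x, ν x * (n * (2 / R ^ 2 * (L ^ 2 + L))) := sum_le_sum fun x _ => by
        rw [← mul_sum, ← mul_sum]
        refine mul_le_mul_of_nonneg_left ?_ (h.pos x).le
        rw [mul_left_comm]
        refine mul_le_mul_of_nonneg_left ?_ (by positivity)
        rw [sum_add_distrib, mul_add]
        refine add_le_add ?_ ((sum_le_sum fun i _ => hd i).trans (by simp))
        have := Entropy.mulVec_sq_le (posDef_symm h.pd) hL hq (vec x)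
        rw [hx, mul_comm] at this
        exact this
    _ = _ := by rw [← sum_mul, h.one, one_mul]

/-- The mean error of the window weights over free sites and both values. -/
theorem avg_wErr (h : Law A ν) (S : Finset (Fin n)) {L : ℝ} (hL : 0 < L)
    (hA : ∀ v : Fin n → ℝ, v ⬝ᵥ (A *ᵥ v) ≤ L * ∑ i, v i ^ 2) {g : ℝ → ℝ} {p₀ : ℝ} (hp : 0 < p₀)
    (hP : ∀ i, i ∉ S → p₀ ≤ nE 0 (A⁻¹ i i) g) (m₁ R : ℝ) {C : ℝ} (hC : 0 ≤ C) (m : ℕ) {t : ℝ}
    (ht : 0 < t) :
    avgIB S (wErr A ν S g m₁ R C m)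
      ≤ m / p₀ * (4 * (L ^ 2 + L) / R ^ 2)
        + C * (2 * (t + freeD ν (step0 A S) / (2 * n * t))
          + 2 * ((n : ℝ)⁻¹ * ∑ i, |nE 0 (A⁻¹ i i) g / m₁ - 1|)) := by
  set K := clipTail ν (step0 A S) (chiR R)
  set D := fun i => |nE 0 (A⁻¹ i i) g / m₁ - 1|
  set F := freeD ν (step0 A S)
  have hn : (0 : ℝ) ≤ (n : ℝ)⁻¹ := inv_nonneg.2 n.cast_nonneg
  have hK : ∀ i, 0 ≤ K i := fun i => (clip_site h S R i).1
  have hnn : ∀ X : ℝ, 0 ≤ X → (n : ℝ)⁻¹ * (n * X) ≤ X := fun X hX => by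
    rcases Nat.eq_zero_or_pos n with hn0 | hn0
    · subst hn0; simpa using hX
    · rw [← mul_assoc, inv_mul_cancel₀ (by exact_mod_cast hn0.ne'), one_mul]
  have hσ : ∀ b, ∑ i ∈ Sᶜ, sigErr ν (step0 A S) i b ≤ n * t + F / (2 * t) := fun b =>
    sigErrThm n ν (step0 A S) b h.pos h.one h.pd t ht
  have h1 : ∀ b, ∑ i ∈ Sᶜ, wErr A ν S g m₁ R C m i b
      ≤ m * (1 / p₀ * (n * (2 / R ^ 2 * (L ^ 2 + L))))
        + C * ((n * t + F / (2 * t)) + ∑ i, D i) := fun b => by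
    simp only [wErr, sum_add_distrib, ← mul_sum]
    refine add_le_add (mul_le_mul_of_nonneg_left ?_ m.cast_nonneg)
      (mul_le_mul_of_nonneg_left (add_le_add (hσ b) (sum_le_univ_sum_of_nonneg fun i => abs_nonneg _)) hC)
    calc ∑ i ∈ Sᶜ, 1 / nE 0 (A⁻¹ i i) g * K i
        ≤ ∑ i ∈ Sᶜ, 1 / p₀ * K i := sum_le_sum fun i hi => mul_le_mul_of_nonneg_right
          (one_div_le_one_div_of_le hp (hP i (mem_compl.1 hi))) (hK i)
      _ ≤ _ := by
        rw [← mul_sum]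
        exact mul_le_mul_of_nonneg_left ((sum_le_univ_sum_of_nonneg hK).trans
          (clip_sum h S R hL hA)) (by positivity)
  refine (mul_le_mul_of_nonneg_left (show ∑ i ∈ Sᶜ, ∑ b : Bool, wErr A ν S g m₁ R C m i b
      ≤ 2 * (m * (1 / p₀ * (n * (2 / R ^ 2 * (L ^ 2 + L))))
        + C * ((n * t + F / (2 * t)) + ∑ i, D i)) by
    rw [sum_comm, Fintype.sum_bool]; linarith [h1 true, h1 false]) hn).trans ?_
  have hm : 0 ≤ (m : ℝ) / p₀ * (4 * (L ^ 2 + L) / R ^ 2) := by positivity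
  calc (n : ℝ)⁻¹ * (2 * (m * (1 / p₀ * (n * (2 / R ^ 2 * (L ^ 2 + L))))
        + C * ((n * t + F / (2 * t)) + ∑ i, D i)))
      = (n : ℝ)⁻¹ * (n * (m / p₀ * (4 * (L ^ 2 + L) / R ^ 2)))
        + C * (2 * ((n : ℝ)⁻¹ * (n * t) + F / (2 * n * t)) + 2 * ((n : ℝ)⁻¹ * ∑ i, D i)) := by ring
    _ ≤ _ := add_le_add (hnn _ hm) (mul_le_mul_of_nonneg_left (add_le_add
        (mul_le_mul_of_nonneg_left (add_le_add (hnn t ht.le) le_rfl) zero_le_two) le_rfl) hC)

end Vale.Agent.P150.Fast.Core
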