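import Mathlib
import Vale.Agent.P150.Fast.Cavity.Core.WinAvg
import Vale.Agent.P150.Fast.Cavity.Core.Errors
import Vale.Agent.P150.Fast.Cavity.Ladder.Event

/-!
The disorder used by the core and the quantities that are made small by the choice of the constants
(P150, core of M4).
-/

open MeasureTheory ProbabilityTheory Real Finset
open scoped Matrix

namespace Vale.Agent.P150.Fast.Core

variable {n r : ℕ} {β : ℝ} {d : Dis n}

theorem slG_lip {κ : ℝ} (hκ : 0 < κ) (u v : ℝ) : |slG κ u - slG κ v| ≤ 4 / κ * |u - v| := by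
  have h := Convex.norm_image_sub_le_of_norm_hasDerivWithin_le (C := 4) (s := Set.univ)
    (f := bumpC) (fun x _ => (bumpC_deriv x).hasDerivWithinAt) (fun x _ => bumpC_deriv_bdd x)
    convex_univ (Set.mem_univ (v / κ)) (Set.mem_univ (u / κ))
  simp only [Real.norm_eq_abs] at h
  rw [← sub_div, abs_div, abs_of_pos hκ] at h
  exact h.trans (le_of_eq (by ring))

/-- The mass of a slice as a function of the variance. -/
theorem slG_mass_lip {κ w₀ a W : ℝ} (hκ : 0 < κ) (hκ1 : κ ≤ 1) (hw₀ : 0 < w₀) (ha : 0 ≤ a)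
    (hW : w₀ ≤ W) :
    |nE 0 a (slG κ) - nE 0 W (slG κ)| ≤ 4 / (κ * √w₀) * |a - W| := by
  set F : ℝ → ℝ := fun u => κ / 4 * slG κ u with hF
  have hF1 : IsTest1 F := by
    refine ⟨fun u => ?_, fun u v => ?_⟩
    · rw [abs_mul, abs_of_pos (by positivity : (0 : ℝ) < κ / 4), abs_of_nonneg (slG_mem κ u).1]
      exact mul_le_one₀ (by linarith) (slG_mem κ u).1 (slG_mem κ u).2
    · rw [hF, ← mul_sub, abs_mul, abs_of_pos (by positivity : (0 : ℝ) < κ / 4)]
      refine (mul_le_mul_of_nonneg_left (slG_lip hκ u v) (by positivity)).trans (le_of_eq ?_)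
      field_simp
  have h := Ladder.nE_shift_le hF1 0 0 a W
  have e : ∀ v, nE 0 v F = κ / 4 * nE 0 v (slG κ) := fun v => integral_const_mul _ _
  rw [sub_self, abs_zero, zero_add, e, e, ← mul_sub, abs_mul,
    abs_of_pos (by positivity : (0 : ℝ) < κ / 4)] at h
  have hs : √w₀ * |√a - √W| ≤ |a - W| := by
    have e2 : (√a - √W) * (√a + √W) = a - W := by
      have h1 := mul_self_sqrt ha
      have h2 := mul_self_sqrt (hw₀.le.trans hW)
      linear_combination h1 - h2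
    rw [← e2, abs_mul, abs_of_nonneg (by positivity : 0 ≤ √a + √W), mul_comm]
    exact mul_le_mul_of_nonneg_left
      ((sqrt_le_sqrt hW).trans (le_add_of_nonneg_left (sqrt_nonneg a))) (abs_nonneg _)
  have hw : 0 < √w₀ := sqrt_pos.2 hw₀
  have h2 := (mul_le_mul_of_nonneg_left h hw.le).trans hs
  rw [div_mul_eq_mul_div, le_div_iff₀ (by positivity)]
  linarith [show √w₀ * (κ / 4 * |nE 0 a (slG κ) - nE 0 W (slG κ)|)
    = |nE 0 a (slG κ) - nE 0 W (slG κ)| * (κ * √w₀) / 4 by ring]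

/-- What the core uses of the disorder: the norm and a flat diagonal of the inverse. -/
structure DisGood (β W εA : ℝ) (d : Dis n) : Prop where
  pd : (aop n β d).PosDef
  norm : NormGood β 6 (1 / 2) d
  inv0 : ∀ i, 0 ≤ (aop n β d)⁻¹ i i
  inv2 : ∀ i, (aop n β d)⁻¹ i i ≤ 2
  flat : (n : ℝ)⁻¹ * ∑ i, |(aop n β d)⁻¹ i i - W| ≤ εA

theorem disGood_of (hβ0 : 0 ≤ β) (hβ1 : β < 1) {W εA : ℝ}
    (h : ∀ v, |Ent.qform (kmat n β d) v| ≤ (2 * β + 1 / 2) * ∑ i, v i ^ 2)
    (hf : (n : ℝ)⁻¹ * ∑ i, |(aop n β d)⁻¹ i i - W| ≤ εA) : DisGood β W εA d := by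
  obtain ⟨hA, hup, -⟩ := Entropy.norm_facts hβ0 hβ1 h
  have hlo : ∀ v : Fin n → ℝ, 1 / 2 * ∑ i, v i ^ 2 ≤ v ⬝ᵥ (aop n β d *ᵥ v) := fun v => by
    rw [aop, Matrix.add_mulVec, Matrix.smul_mulVec, Matrix.one_mulVec, dotProduct_add, dotProduct_smul,
      smul_eq_mul, ← qform_eq_dot, shift]
    have := (abs_le.1 (h v)).1
    have e : v ⬝ᵥ v = ∑ i, v i ^ 2 := by simp [dotProduct, pow_two]
    rw [e]
    linarith
  have hform : ∀ v : Fin n → ℝ, |v ⬝ᵥ (kmat n β d *ᵥ v)| ≤ 6 * ∑ i, v i ^ 2 := fun v => by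
    rw [← qform_eq_dot]
    exact (h v).trans (mul_le_mul_of_nonneg_right (by linarith) (sum_nonneg fun _ _ => sq_nonneg _))
  have h6 : ∀ i, aop n β d i i ≤ 6 := fun i => by
    have := hup (Pi.single i 1)
    rw [coord_quad] at this
    simpa [Pi.single_apply] using this
  exact ⟨hA, ⟨hup, hlo, hform⟩, fun i => hA.inv.diag_pos.le,
    fun i => (Ladder.inv_bounds hA hlo i (h6 i)).2, hf⟩

/-- The lower bound of the mass of a slice. -/
theorem DisGood.mass {W εA κ : ℝ} (h : DisGood β W εA d) (hκ : 0 < κ) (i : Fin n) :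
    Ladder.slLow κ ≤ nE 0 ((aop n β d)⁻¹ i i) (slG κ) :=
  Ladder.slLow_le hκ (h.inv2 i)

/-- The normalisers of the sites against the common one. -/
theorem DisGood.mass_dev {W εA κ w₀ : ℝ} (h : DisGood β W εA d) (hκ : 0 < κ) (hκ1 : κ ≤ 1)
    (hw₀ : 0 < w₀) (hW : w₀ ≤ W) (hW2 : W ≤ 2) :
    (n : ℝ)⁻¹ * ∑ i, |nE 0 ((aop n β d)⁻¹ i i) (slG κ) / nE 0 W (slG κ) - 1|
      ≤ 4 / (κ * √w₀ * Ladder.slLow κ) * εA := by
  set c := 4 / (κ * √w₀ * Ladder.slLow κ) with hc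
  have hp := Ladder.slLow_pos hκ
  have hm : Ladder.slLow κ ≤ nE 0 W (slG κ) := Ladder.slLow_le hκ hW2
  have hc0 : 0 ≤ c := by positivity
  refine le_trans ?_ (mul_le_mul_of_nonneg_left h.flat hc0)
  rw [mul_left_comm c, mul_sum (a := c)]
  refine mul_le_mul_of_nonneg_left ?_ (inv_nonneg.2 (Nat.cast_nonneg (α := ℝ) n))
  refine sum_le_sum fun i _ => ?_
  set x := nE 0 ((aop n β d)⁻¹ i i) (slG κ)
  set y := nE 0 W (slG κ)
  have hy : 0 < y := hp.trans_le hm
  rw [show x / y - 1 = (x - y) / y by field_simp, abs_div, abs_of_pos hy]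
  refine (div_le_div₀ (by positivity) (slG_mass_lip hκ hκ1 hw₀ (h.inv0 i) hW) hp hm).trans
    (le_of_eq ?_)
  rw [hc]
  field_simp

variable {ν : Conf n → ℝ} {S : Finset (Fin n)}

/-- The mean error of a window with the slice weight. -/
theorem eWin_le {Q : Par} {εA w₀ η C : ℝ} (h : DisGood Q.β Q.W εA d) (hl : Law (aop n Q.β d) ν)
    (hκ : 0 < Q.κ) (hκ1 : Q.κ ≤ 1) (hw₀ : 0 < w₀) (hW : w₀ ≤ Q.W) (hW2 : Q.W ≤ 2) (hC : 0 ≤ C) (hn : 1 ≤ n)
    (m : ℕ) {t : ℝ} (ht : 0 < t) (hη : freeD ν (step0 (aop n Q.β d) S) ≤ η * n) :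
    Q.eWin d ν S C m
      ≤ m / Ladder.slLow Q.κ * (168 / Q.R ^ 2)
        + C * (2 * (t + η / (2 * t)) + 2 * (4 / (Q.κ * √w₀ * Ladder.slLow Q.κ) * εA)) := by
  refine (avg_wErr hl S (by norm_num : (0 : ℝ) < 6) h.norm.upper (Ladder.slLow_pos hκ)
    (fun i _ => h.mass hκ i) Q.m₁ Q.R hC m ht).trans (add_le_add (le_of_eq (by norm_num))
      (mul_le_mul_of_nonneg_left ?_ hC))
  refine add_le_add (mul_le_mul_of_nonneg_left (add_le_add le_rfl ?_) zero_le_two)
    (mul_le_mul_of_nonneg_left (h.mass_dev hκ hκ1 hw₀ hW hW2) zero_le_two)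
  have hn0 : (0 : ℝ) < n := by exact_mod_cast hn
  rw [show 2 * (n : ℝ) * t = n * (2 * t) by ring, ← div_div]
  exact div_le_div_of_nonneg_right ((div_le_iff₀ hn0).2 hη) (by positivity)

/-- The mean error of a free window. -/
theorem eFree_le {εA W η C R : ℝ} (h : DisGood β W εA d) (hl : Law (aop n β d) ν) (hn : 1 ≤ n)
    (hC : 0 ≤ C) (m : ℕ) {t : ℝ} (ht : 0 < t) (hη : freeD ν (step0 (aop n β d) S) ≤ η * n) :
    avgIB S (wErr (aop n β d) ν S (fun _ => 1) 1 R C m)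
      ≤ m * (168 / R ^ 2) + C * (2 * (t + η / (2 * t))) := by
  have e : ∀ v, nE 0 v (fun _ => (1 : ℝ)) = 1 := fun v => by simp [nE]
  refine (avg_wErr hl S (by norm_num : (0 : ℝ) < 6) h.norm.upper one_pos
    (fun i _ => (e _).ge) 1 R hC m ht).trans (add_le_add (le_of_eq (by norm_num))
      (mul_le_mul_of_nonneg_left ?_ hC))
  have hn0 : (0 : ℝ) < n := by exact_mod_cast hn
  simp only [e, div_one, sub_self, abs_zero, sum_const_zero, mul_zero, add_zero]
  refine mul_le_mul_of_nonneg_left (add_le_add le_rfl ?_) zero_le_two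
  rw [show 2 * (n : ℝ) * t = n * (2 * t) by ring, ← div_div]
  exact div_le_div_of_nonneg_right ((div_le_iff₀ hn0).2 hη) (by positivity)

/-- The error of a concentration step, summed over the net. -/
theorem card_concErr_le {C l η : ℝ} {a m N : ℕ} (st : Step n) (hn : 1 ≤ n) (hl : 0 < l)
    (ha : a + m ≤ r) (h0 : 0 ≤ η) (hη : freeD ν st ≤ η * n) :
    (N : ℝ) * concErr C l a m ν st ≤ N * (2 * ((r * η + log 2 / n) / l + C * l)) := by
  refine mul_le_mul_of_nonneg_left (mul_le_mul_of_nonneg_left (add_le_add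
    (div_le_div_of_nonneg_right (add_le_add ?_ le_rfl) hl.le) le_rfl) zero_le_two) N.cast_nonneg
  rw [div_le_iff₀ (by exact_mod_cast hn), mul_assoc]
  have h1 : ((a + m : ℕ) : ℝ) ≤ r := by exact_mod_cast ha
  push_cast at h1
  exact (mul_le_mul_of_nonneg_left hη (by positivity)).trans
    (mul_le_mul_of_nonneg_right h1 (by positivity))

end Vale.Agent.P150.Fast.Core
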