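import Mathlib
import Vale.Agent.P150.Fast.Cavity.Core.MainParams
import Vale.Agent.P150.Fast.Cavity.Core.BlockModel

/-!
Choices of small constants, and a setting at zero disorder to read off the facts about tests that do
not depend on the disorder (P150, core of M4).
-/

open MeasureTheory Real Finset Filter
open scoped Matrix

namespace Vale.Agent.P150.Fast.Core

theorem exists_le_of_mul {c e : ℝ} (hc : 0 ≤ c) (he : 0 < e) : ∃ x : ℝ, 0 < x ∧ x ≤ 1 ∧ c * x ≤ e := by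
  refine ⟨min 1 (e / (c + 1)), lt_min one_pos (by positivity), min_le_left _ _, ?_⟩
  refine (mul_le_mul_of_nonneg_left (min_le_right _ _) hc).trans ?_
  rw [mul_div_assoc', div_le_iff₀ (by linarith)]
  linarith [mul_comm c e]

theorem exists_ge_of_div {c e : ℝ} (he : 0 < e) : ∃ k : ℕ, 1 ≤ k ∧ c / k ≤ e := by
  obtain ⟨k, hk⟩ := exists_nat_gt (c / e)
  refine ⟨k + 1, Nat.le_add_left 1 k, ?_⟩
  rw [div_le_iff₀ (by positivity)]
  have h1 : c < k * e := (div_lt_iff₀ he).1 hk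
  push_cast
  linarith

/-- The height of the cuts. -/
theorem exists_cut {c e : ℝ} (he : 0 < e) : ∃ R : ℝ, 0 < R ∧ c / R ^ 2 ≤ e := by
  refine ⟨√(|c| / e) + 1, by positivity, ?_⟩
  rw [div_le_iff₀ (by positivity)]
  have h := sq_sqrt (show 0 ≤ |c| / e by positivity)
  have h2 : |c| / e ≤ (√(|c| / e) + 1) ^ 2 := by nlinarith [sqrt_nonneg (|c| / e)]
  rw [div_le_iff₀ he] at h2
  linarith [le_abs_self c]

/-- The reconstruction error that a bridge tolerates. -/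
theorem exists_bridge {Cb Cl e : ℝ} (hb : 0 ≤ Cb) (hl : 0 ≤ Cl) (M : ℕ) (he : 0 < e) :
    ∃ l ε : ℝ, 0 < l ∧ 0 < ε ∧ Cl * M * l / 2 + (Cl / (2 * l) + Cb) * ε ≤ e := by
  obtain ⟨l, hl0, -, h1⟩ := exists_le_of_mul (c := Cl * M / 2) (by positivity) (half_pos he)
  obtain ⟨ε, hε, -, h2⟩ := exists_le_of_mul (c := Cl / (2 * l) + Cb) (by positivity) (half_pos he)
  exact ⟨l, ε, hl0, hε, by linarith [show Cl * M / 2 * l = Cl * M * l / 2 by ring]⟩

variable {n r : ℕ}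

theorem facB_pos (R m₀ : ℝ) : 0 < facB R m₀ := zero_lt_one.trans_le (le_max_left _ _)

/-- A setting at zero disorder with every site pinned. -/
theorem exists_ctx {Q : Par} (hβ0 : 0 ≤ Q.β) (hβ1 : Q.β < 1) (hn : 1 ≤ n) (hW : 0 < Q.W)
    (hκ : 0 < Q.κ) (hR : 0 < Q.R) {m₀ : ℝ} (h0 : 0 < m₀) (h1 : m₀ ≤ Q.m₁) (ro : Readout n r)
    (net : Finset (Coef (ncol r))) (hmem : ∀ d P, ro.cell d P ∈ net) (hro : ReadOK Q.β ro) {C : ℝ}
    (hC : ∀ θ ∈ net, NetOK C θ) :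
    ∃ (d : Dis n) (ν : Conf n → ℝ), Ctx Q d univ ro ν net C 6 (1 / 2) m₀ := by
  refine ⟨0, fun _ => ((Fintype.card (Conf n) : ℕ) : ℝ)⁻¹, ?_⟩
  have hK : kmat n Q.β (0 : Dis n) = 0 := by
    funext i j; simp [kmat]
  have hg : DisGood Q.β Q.W ((n : ℝ)⁻¹ * ∑ i, |(aop n Q.β (0 : Dis n))⁻¹ i i - Q.W|) (0 : Dis n) :=
    disGood_of hβ0 hβ1 (fun v => by
      simp [qform_eq_dot, hK]
      have := sum_nonneg fun i (_ : i ∈ (univ : Finset (Fin n))) => sq_nonneg (v i)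
      positivity) le_rfl
  exact ⟨⟨hg.pd, fun _ => by positivity, by simp⟩, hn, hg.norm, hmem 0, hro, hC, hW, hκ, hR, h0, h1,
    fun i hi => absurd (mem_univ i) hi⟩

end Vale.Agent.P150.Fast.Core
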