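import Mathlib
import Vale.Agent.P150.Fast.Cavity.Core.MainChoice
import Vale.Agent.P150.Fast.Cavity.Core.MainBudget
import Vale.Agent.P150.Fast.Cavity.Core.Gamma

/-!
The numbers of the core, chosen for a window length: first what does not see the net of the master
inequality, then the rest (P150, core of M4).
-/

open MeasureTheory Real Finset
open scoped Matrix

namespace Vale.Agent.P150.Fast.Core

/-- The numbers chosen before the net. -/
structure Num (β κ : ℝ) (K H : ℕ) (e : ℝ) where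
  /-- The cut of the fields. -/
  R : ℝ
  /-- The constant of past windows. -/
  C₀ : ℝ
  /-- The constant of long windows. -/
  C₂ : ℝ
  /-- The constant of free windows. -/
  CF : ℝ
  /-- The scale of smoothing. -/
  δ : ℝ
  /-- The bound of smooth tests. -/
  B : ℝ
  /-- The concentration constant of the next window. -/
  Cc : ℝ
  /-- The concentration constant of the spins. -/
  C₁ : ℝ
  /-- The concentration constant of the past window. -/
  Cp : ℝ
  /-- The size of the tests in the master inequality. -/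
  lam : ℝ
  /-- The number of blocks. -/
  J : ℕ
  /-- The accuracy of the master inequality. -/
  ε : ℝ
  R0 : 0 < R
  cut : ((K * H + H : ℕ) : ℝ) / Ladder.slLow κ * (168 / R ^ 2) ≤ e / 2
  cutF : (H : ℝ) * (168 / R ^ 2) ≤ e / 2
  win₀ : WinC (K * H) R (Ladder.slLow κ) C₀
  win₂ : WinC (K * H + H) R (Ladder.slLow κ) C₂
  winF : WinC H R 1 CF
  δ0 : 0 < δ
  δe : δ ≤ e
  hB : (1 + 4 / κ) / Ladder.slLow κ * (cutB R + cutL R) ≤ B
  hBδ : max 1 (2 / δ) ≤ B
  conc : ConcAt H 6 (1 / 2) B Cc ∧ 0 ≤ Cc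
  conc₁ : ConcAt H 6 (1 / 2) 1 C₁ ∧ 0 ≤ C₁
  concP : ConcAt (K * H) 6 (1 / 2) B Cp ∧ 0 ≤ Cp
  lam0 : 0 < lam
  J1 : 1 ≤ J
  tests : facB R (Ladder.slLow κ) ^ (K * H)
    * (4 / (J * lam) + 4 * (facB R (Ladder.slLow κ) ^ H) ^ 2 * lam) ≤ e
  testsF : 4 / (J * lam) + 4 * (facB R 1 ^ H) ^ 2 * lam ≤ e
  ε0 : 0 < ε
  ε1 : ε ≤ 1
  εe : ε ≤ e
  geo : 12 * geoC (ncol (J * ((K + 1) * H))) * √ε ≤ e
  bridge : ∃ l, 0 < l ∧ (⟨β, 0, κ, R, K, H⟩ : Par).brL (Ladder.slLow κ)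
      * ncol (J * ((K + 1) * H)) * l / 2
    + ((⟨β, 0, κ, R, K, H⟩ : Par).brL (Ladder.slLow κ) / (2 * l)
      + (⟨β, 0, κ, R, K, H⟩ : Par).brB (Ladder.slLow κ)) * ε ≤ e
  bridgeF : ∃ l, 0 < l ∧ (⟨β, 0, κ, R, K, H⟩ : Par).gaL * ncol (J * ((K + 1) * H)) * l / 2
    + ((⟨β, 0, κ, R, K, H⟩ : Par).gaL / (2 * l) + (⟨β, 0, κ, R, K, H⟩ : Par).gaB) * ε ≤ e

theorem par_br_nonneg (β : ℝ) {κ R : ℝ} (K H : ℕ) (hR : 0 < R) {m₀ : ℝ} (hm : 0 < m₀) :
    0 ≤ (⟨β, 0, κ, R, K, H⟩ : Par).brB m₀ ∧ 0 ≤ (⟨β, 0, κ, R, K, H⟩ : Par).brL m₀ := by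
  unfold Par.brB Par.brL Par.bw winLip facB cutL cutB
  constructor <;> positivity

/-- The first numbers exist. -/
theorem exists_num (β : ℝ) {κ : ℝ} (hκ : 0 < κ) (K H : ℕ) {e : ℝ} (he : 0 < e) :
    Nonempty (Num β κ K H e) := by
  set p := Ladder.slLow κ with hpd
  have hp : 0 < p := Ladder.slLow_pos hκ
  obtain ⟨R, hR, hcut⟩ := exists_cut (c := 168 * (((K * H + H : ℕ) : ℝ) / p + H)) (half_pos he)
  have hc0 : 0 ≤ ((K * H + H : ℕ) : ℝ) / p * (168 / R ^ 2) := by positivity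
  have hcF : 0 ≤ (H : ℝ) * (168 / R ^ 2) := by positivity
  have hsum : 168 * (((K * H + H : ℕ) : ℝ) / p + H) / R ^ 2
      = ((K * H + H : ℕ) : ℝ) / p * (168 / R ^ 2) + (H : ℝ) * (168 / R ^ 2) := by ring
  rw [hsum] at hcut
  obtain ⟨C₀, h0⟩ := exists_winC (K * H) hR hp
  obtain ⟨C₂, h2⟩ := exists_winC (K * H + H) hR hp
  obtain ⟨CF, hF⟩ := exists_winC H hR (one_pos (α := ℝ))
  set δ := min e 1
  have hδ : 0 < δ := lt_min he one_pos
  set B := max ((1 + 4 / κ) / p * (cutB R + cutL R)) (max 1 (2 / δ))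
  have hB : (0 : ℝ) ≤ B := zero_le_one.trans ((le_max_left _ _).trans (le_max_right _ _))
  obtain ⟨Cc, hc0', hc⟩ := exists_concAt H 6 (1 / 2) B (by norm_num) (by norm_num) hB
  obtain ⟨C₁, h10, h1⟩ := exists_concAt H 6 (1 / 2) 1 (by norm_num) (by norm_num) zero_le_one
  obtain ⟨Cp, hp0, hpc⟩ := exists_concAt (K * H) 6 (1 / 2) B (by norm_num) (by norm_num) hB
  set Bk := facB R p ^ (K * H) with hBkd
  set Bh := facB R p ^ H with hBhd
  set Bf := facB R 1 ^ H with hBfd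
  have hBk : 0 ≤ Bk := (pow_pos (facB_pos R p) _).le
  obtain ⟨lam, hl0, -, hl⟩ := exists_le_of_mul
    (c := 4 * (Bk * Bh ^ 2 + Bf ^ 2)) (by positivity) (half_pos he)
  obtain ⟨J, hJ1, hJ⟩ := exists_ge_of_div (c := 4 * (Bk + 1) / lam) (half_pos he)
  have hJl : 4 * (Bk + 1) / lam / J = Bk * (4 / (J * lam)) + 4 / (J * lam) := by ring
  rw [hJl] at hJ
  have hq : 0 ≤ 4 / ((J : ℝ) * lam) := by positivity
  have hx : 4 * (Bk * Bh ^ 2 + Bf ^ 2) * lam = Bk * (4 * Bh ^ 2 * lam) + 4 * Bf ^ 2 * lam := by ring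
  rw [hx] at hl
  have hy1 : 0 ≤ Bk * (4 * Bh ^ 2 * lam) := by positivity
  have hy2 : 0 ≤ 4 * Bf ^ 2 * lam := by positivity
  set r := J * ((K + 1) * H)
  obtain ⟨hbB, hbL⟩ := par_br_nonneg β (κ := κ) K H hR hp
  obtain ⟨hgB, hgL⟩ := gaL_nonneg (Q := ⟨β, 0, κ, R, K, H⟩) hR
  obtain ⟨l₁, ε₁, hl1, hε1, hb1⟩ := exists_bridge hbB hbL (ncol r) he
  obtain ⟨l₂, ε₂, hl2, hε2, hb2⟩ := exists_bridge hgB hgL (ncol r) he
  have hg : (0 : ℝ) ≤ 12 * geoC (ncol r) := by unfold geoC; positivity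
  obtain ⟨u, hu0, hu1, hu⟩ := exists_le_of_mul hg he
  set ε := min (min (u ^ 2) (min ε₁ ε₂)) (min 1 e)
  have hεu : √ε ≤ u := (sqrt_le_left hu0.le).2 ((min_le_left _ _).trans (min_le_left _ _))
  exact ⟨{
    R := R, C₀ := C₀, C₂ := C₂, CF := CF, δ := δ, B := B, Cc := Cc, C₁ := C₁, Cp := Cp, lam := lam,
    J := J, ε := ε
    R0 := hR
    cut := by linarith
    cutF := by linarith
    win₀ := h0, win₂ := h2, winF := hF
    δ0 := hδ
    δe := min_le_left _ _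
    hB := le_max_left _ _
    hBδ := le_max_right _ _
    conc := ⟨hc, hc0'⟩, conc₁ := ⟨h1, h10⟩, concP := ⟨hpc, hp0⟩
    lam0 := hl0, J1 := hJ1
    tests := by rw [← hBkd, ← hBhd, mul_add]; linarith
    testsF := by
      rw [← hBfd]
      linarith [mul_nonneg hBk hq]
    ε0 := lt_min (lt_min (by positivity) (lt_min hε1 hε2)) (lt_min one_pos he)
    ε1 := (min_le_right _ _).trans (min_le_left _ _)
    εe := (min_le_right _ _).trans (min_le_right _ _)
    geo := (mul_le_mul_of_nonneg_left hεu hg).trans hu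
    bridge := ⟨l₁, hl1, le_trans (add_le_add le_rfl (mul_le_mul_of_nonneg_left
      ((min_le_left _ _).trans ((min_le_right _ _).trans (min_le_left _ _)))
      (add_nonneg (div_nonneg hbL (by positivity)) hbB))) hb1⟩
    bridgeF := ⟨l₂, hl2, le_trans (add_le_add le_rfl (mul_le_mul_of_nonneg_left
      ((min_le_left _ _).trans ((min_le_right _ _).trans (min_le_right _ _)))
      (add_nonneg (div_nonneg hgL (by positivity)) hgB))) hb2⟩ }⟩

variable {β κ : ℝ} {K H : ℕ} {e : ℝ}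

/-- The length of the paths. -/
def Num.r (N : Num β κ K H e) : ℕ := N.J * ((K + 1) * H)

/-- The numbers chosen after the net. -/
structure Fine (N : Num β κ K H e) (card : ℕ) where
  /-- The tilt of the concentration. -/
  l : ℝ
  /-- The split of the heat-bath errors. -/
  t : ℝ
  /-- The flatness of the diagonal of the inverse. -/
  εA : ℝ
  /-- The entropy per site. -/
  η : ℝ
  l0 : 0 < l
  t0 : 0 < t
  εA0 : 0 < εA
  η0 : 0 < η
  rη : (N.r : ℝ) * η ≤ 1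
  conc : (card : ℝ) * facB N.R (Ladder.slLow κ) ^ (K * H)
    * (2 * ((N.r + 1) * η / l + (N.Cc + N.C₁ + N.Cp) * l)) ≤ e
  wins : (N.C₀ + N.C₂ + N.CF) * (2 * (t + η / (2 * t))
    + 2 * (4 / (κ * √(1 / (4 * β + 2)) * Ladder.slLow κ) * εA)) ≤ e / 2

/-- The last numbers exist. -/
theorem exists_fine (N : Num β κ K H e) (hκ : 0 < κ) (he : 0 < e) (card : ℕ) :
    Nonempty (Fine N card) := by
  have hp := Ladder.slLow_pos hκ
  set c := (card : ℝ) * facB N.R (Ladder.slLow κ) ^ (K * H) * 2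
  have hc : 0 ≤ c := by have := facB_pos N.R (Ladder.slLow κ); positivity
  have hC : 0 ≤ N.Cc + N.C₁ + N.Cp := by linarith [N.conc.2, N.conc₁.2, N.concP.2]
  set W := N.C₀ + N.C₂ + N.CF
  have hW : 0 ≤ W := by linarith [N.win₀.1, N.win₂.1, N.winF.1]
  set Lp := 4 / (κ * √(1 / (4 * β + 2)) * Ladder.slLow κ)
  have hLp : 0 ≤ Lp := by positivity
  obtain ⟨l, hl0, -, hl⟩ := exists_le_of_mul (c := c * (N.Cc + N.C₁ + N.Cp)) (by positivity) (half_pos he)
  obtain ⟨t, ht0, -, ht⟩ := exists_le_of_mul (c := 2 * W) (by positivity) (show 0 < e / 6 by positivity)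
  obtain ⟨εA, hA0, -, hA⟩ := exists_le_of_mul (c := 2 * W * Lp) (by positivity)
    (show 0 < e / 6 by positivity)
  obtain ⟨η₁, h10, -, h1⟩ := exists_le_of_mul (c := c * ((N.r + 1) / l)) (by positivity) (half_pos he)
  obtain ⟨η₂, h20, -, h2⟩ := exists_le_of_mul (c := W / t) (by positivity) (show 0 < e / 6 by positivity)
  obtain ⟨η₃, h30, -, h3⟩ := exists_le_of_mul (c := (N.r : ℝ)) N.r.cast_nonneg (one_pos (α := ℝ))
  set η := min η₁ (min η₂ η₃)
  have e1 : η ≤ η₁ := min_le_left _ _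
  have e2 : η ≤ η₂ := (min_le_right _ _).trans (min_le_left _ _)
  have e3 : η ≤ η₃ := (min_le_right _ _).trans (min_le_right _ _)
  have k1 := (mul_le_mul_of_nonneg_left e1 (show 0 ≤ c * ((N.r + 1) / l) by positivity)).trans h1
  have k2 := (mul_le_mul_of_nonneg_left e2 (show 0 ≤ W / t by positivity)).trans h2
  exact ⟨{
    l := l, t := t, εA := εA, η := η
    l0 := hl0, t0 := ht0, εA0 := hA0
    η0 := lt_min h10 (lt_min h20 h30)
    rη := (mul_le_mul_of_nonneg_left e3 N.r.cast_nonneg).trans h3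
    conc := by
      refine le_of_eq_of_le (by simp only [c]; ring :
        _ = c * ((N.r + 1) / l) * η + c * (N.Cc + N.C₁ + N.Cp) * l) ?_
      linarith
    wins := by
      refine le_of_eq_of_le (by simp only [W, Lp]; ring :
        _ = 2 * W * t + W / t * η + 2 * W * Lp * εA) ?_
      linarith }⟩

end Vale.Agent.P150.Fast.Core
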