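import Mathlib
import Vale.Agent.P150.Fast.Cavity.Core.MainNum
import Vale.Agent.P150.Fast.Cavity.Core.BlockCell
import Vale.Agent.P150.Fast.GoeNorm

/-!
The core of M4 from the master inequality: on a likely disorder, flat potentials force normal
windows (P150).
-/

open MeasureTheory Real Finset Filter
open scoped Matrix

namespace Vale.Agent.P150.Fast.Core

variable {n : ℕ} {β κ M : ℝ} {K H : ℕ} {e : ℝ} {N : Num β κ K H e}

/-- The numbers of a window of the core at noise variance `W`. -/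
noncomputable def Num.par (N : Num β κ K H e) (W : ℝ) : Par := ⟨β, W, κ, N.R, K, H⟩

/-- The bound of the tests. -/
noncomputable def Num.bnd (N : Num β κ K H e) : ℝ :=
  N.lam * (N.J * (2 * (facB N.R (Ladder.slLow κ) ^ H + facB N.R 1 ^ H)))
    + N.J * (2 * (facB N.R (Ladder.slLow κ) ^ H + facB N.R 1 ^ H) * N.lam) ^ 2

theorem martF_le_bnd {W B σ : ℝ} {net : Finset (Coef (ncol N.r))} {s t : ℕ → ℕ}
    {φ Z : Coef (ncol N.r) → ℕ → Site N.r → ℝ} {C : ℝ} (hT : WinTests N.r N.J B net s t φ Z)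
    (hC : ∀ θ ∈ net, NetOK C θ) (hσ : σ = N.lam ∨ σ = -N.lam)
    (hB : B ≤ facB N.R (Ladder.slLow κ) ^ H + facB N.R 1 ^ H) :
    (∀ b θ, Measurable (martF β W B σ N.J net s t φ Z b θ))
    ∧ ∀ b θ p, |martF β W B σ N.J net s t φ Z b θ p| ≤ N.bnd := by
  refine ⟨fun b θ => (martF_meas hT hC b θ).1, fun b θ p => ((martF_meas hT hC b θ).2 p).trans ?_⟩
  have hB0 := hT.Bnn
  have hl := N.lam0.le
  have ha : |σ| = N.lam := by rcases hσ with rfl | rfl <;> simp [abs_of_pos N.lam0]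
  rw [ha, show (2 * B * σ) ^ 2 = (2 * B * N.lam) ^ 2 by rcases hσ with rfl | rfl <;> ring, Num.bnd]
  gcongr

theorem dt_le {η ε : ℝ} {r : ℕ} {F : ℝ} (hn : 1 ≤ n) (hη : F ≤ η * n) (hr : (r : ℝ) * η ≤ 1)
    (hε : ε ≤ 1) : 2 * log 2 + r * F / n + ε ≤ 4 := by
  have h1 : (r : ℝ) * F / n ≤ r * η := by
    rw [mul_div_assoc]
    exact mul_le_mul_of_nonneg_left ((div_le_iff₀ (by exact_mod_cast hn)).2 hη) r.cast_nonneg
  have h2 := (log_le_sub_one_of_pos two_pos).trans (by norm_num : (2 : ℝ) - 1 ≤ 1)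
  linarith

/-- The path event of the master inequality for one family of tests. -/
def TestGood {r : ℕ} (β : ℝ) (ro : Readout n r) (f : Bool → Coef (ncol r) → Site r → ℝ) (ε : ℝ)
    (d : Dis n) : Prop :=
  ∀ (ν : Conf n → ℝ) (S : Finset (Fin n)), (∀ x, 0 < ν x) → ∑ x, ν x = 1 →
    trajE (aop n β d) 0 ν S (siteAvg β ro d S f)
      ≤ 2 * log 2 + trajD (aop n β d) 0 ν S r / n + ε

/-- The path event of the reconstruction. -/
def ReproGood {r : ℕ} (β : ℝ) (ro : Readout n r) (ε : ℝ) (d : Dis n) : Prop :=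
  ∀ (ν : Conf n → ℝ) (S : Finset (Fin n)), (∀ x, 0 < ν x) → ∑ x, ν x = 1 →
    trajE (aop n β d) 0 ν S (fun P => min 1 (reproErr β ro d P)) ≤ ε ∧
    trajE (aop n β d) 0 ν S ({P | ¬ Fits β ro d ε P}.indicator 1) ≤ ε

/-- The two signs of a test. -/
noncomputable def Num.sgn (N : Num β κ K H e) (σ : Bool) : ℝ := if σ then N.lam else -N.lam

/-- The tests of the identity of a block. -/
noncomputable def Num.fT (N : Num β κ K H e) (W : ℝ) (net : Finset (Coef (ncol N.r)))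
    (p : (ℝ → ℝ → ℝ) × Bool × Fin 3 × Bool) : Bool → Coef (ncol N.r) → Site N.r → ℝ :=
  martF β W ((N.par W).bw (Ladder.slLow κ) H) (N.sgn p.2.2.2) N.J net
    (fun j => (N.par W).blk j + K * H) (fun j => (N.par W).blk j + K * H + H)
    ((N.par W).phiT (Ladder.slLow κ) (fun u => p.1 u 0) p.2.1 p.2.2.1)
    ((N.par W).zT (fun u => p.1 u 0) p.2.1 p.2.2.1)

/-- The tests of the noise gain. -/
noncomputable def Num.fG (N : Num β κ K H e) (W M : ℝ) (net : Finset (Coef (ncol N.r)))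
    (p : Bool × Fin 2 × Bool) : Bool → Coef (ncol N.r) → Site N.r → ℝ :=
  martF β W (facB N.R 1 ^ H) (N.sgn p.2.2) N.J net
    (fun j => (N.par W).blk j + K * H) (fun j => (N.par W).blk j + K * H + H)
    ((N.par W).phiG p.1) ((N.par W).zG M p.1 p.2.1)

theorem test1_of {Φ : ℝ → ℝ → ℝ} (h : IsTest2 Φ) : IsTest1 fun u => Φ u 0 :=
  ⟨fun u => h.1 u 0, fun u v => by simpa using h.2 u 0 v 0⟩

/-- **On a good disorder the windows are normal.** -/
theorem good_core {Φs : Finset (ℝ → ℝ → ℝ)} (hΦs : ∀ Φ ∈ Φs, IsTest2 Φ) (hβ0 : 0 ≤ β) (hβ1 : β < 1)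
    (hκ : 0 < κ) (hκ1 : κ ≤ 1) (hM : 1 ≤ M) (hK : 1 ≤ K) (hH : 1 ≤ H) (he1 : e ≤ 1)
    (hKe : 1 / (K : ℝ) ≤ e) (hMe : 18 / M ^ 2 ≤ e) (hκe : κ * M * √(2 / (1 / (4 * β + 2))) ≤ e)
    {W : ℝ} (hW : 1 / (4 * β + 2) ≤ W) (hW2 : W ≤ 2)
    {C : ℝ} {net : Finset (Coef (ncol N.r))} (hC : ∀ θ ∈ net, NetOK C θ) (Fi : Fine N net.card)
    (hn : 1 ≤ n) (hlog : log 2 / n ≤ Fi.η) {ro : Readout n N.r}
    (hmem : ∀ d P, ro.cell d P ∈ net) (hro : ReadOK β ro) {d : Dis n}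
    (hd : DisGood β W Fi.εA d) (hrep : ReproGood β ro N.ε d)
    (hT : ∀ p ∈ Φs ×ˢ (univ : Finset (Bool × Fin 3 × Bool)),
      TestGood β ro (N.fT W net p) N.ε d)
    (hG : ∀ p : Bool × Fin 2 × Bool, TestGood β ro (N.fG W M net p) N.ε d)
    {s : ℝ} (hs0 : 0 < s) (hs1 : s ≤ 1)
    (ν : Conf n → ℝ) (S : Finset (Fin n)) (hν : ∀ x, 0 < ν x) (h1 : ∑ x, ν x = 1)
    (hfree : fieldE 0 ν (fun h => freeD (priorAt (aop n β d) 0 ν h) ⟨aop n β d, h, S⟩) ≤ Fi.η * n)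
    (hdrop : potDrop β d 0 κ ν S Φs H ((K + 2) * H) ≤ e) :
    coreErr β d 0 κ ν S Φs H ≤ (Φs.card + 1) * (1000 * (s + e / s)) := by
  have hp := Ladder.slLow_pos hκ
  set Q := N.par W with hQ
  set A := aop n β d
  set m₀ := Ladder.slLow κ
  have hw₀ : (0 : ℝ) < 1 / (4 * β + 2) := by positivity
  have hη : freeD ν (step0 A S) ≤ Fi.η * n := by
    rw [fieldE_zero' _ h1, priorAt_zero' _ h1] at hfree
    exact hfree
  have h : Ctx Q d S ro ν net C 6 (1 / 2) m₀ :=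
    ⟨⟨hd.pd, hν, h1⟩, hn, hd.norm, hmem d, hro, hC, hw₀.trans_le hW, hκ, N.R0, hp,
      Ladder.slLow_le hκ hW2, fun i _ => hp.trans_le (hd.mass hκ i)⟩
  have he : 0 ≤ e := N.δ0.le.trans N.δe
  have eR : Q.R = N.R := rfl
  have eκ : Q.κ = κ := rfl
  have hr : Q.blk N.J ≤ N.r := le_rfl
  -- the window errors
  have hwin : ∀ Cw m, 0 ≤ Cw → Cw ≤ N.C₀ + N.C₂ + N.CF → m ≤ K * H + H →
      Q.eWin d ν S Cw m ≤ e := fun Cw m h0 hle hm => by
    refine (eWin_le (w₀ := 1 / (4 * β + 2)) (Q := Q) hd h.law hκ hκ1 hw₀ hW hW2 h0 hn m Fi.t0 hη).trans ?_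
    have a1 := mul_le_mul_of_nonneg_right (div_le_div_of_nonneg_right
      (Nat.cast_le (α := ℝ).2 hm) hp.le) (show (0 : ℝ) ≤ 168 / N.R ^ 2 by positivity)
    have a2 := mul_le_mul_of_nonneg_right hle
      (show 0 ≤ 2 * (Fi.t + Fi.η / (2 * Fi.t))
        + 2 * (4 / (κ * √(1 / (4 * β + 2)) * Ladder.slLow κ) * Fi.εA) by
        have := Fi.t0; have := Fi.η0; have := Fi.εA0; positivity)
    have hc := N.cut
    have hF := Fi.wins
    simp only [eR, eκ, show Ladder.slLow κ = m₀ from rfl] at a1 a2 hc hF ⊢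
    linarith
  have hC0 := N.win₀.1
  have hC2 := N.win₂.1
  have hCF := N.winF.1
  have he₀ := hwin N.C₀ (K * H) hC0 (by linarith) (Nat.le_add_right _ _)
  have he₂ := hwin N.C₂ (K * H + H) hC2 (by linarith) le_rfl
  have heF : avgIB S (wErr A ν S (fun _ => 1) 1 N.R N.CF H) ≤ e := by
    refine (eFree_le hd h.law hn hCF H Fi.t0 hη).trans ?_
    have hx : 0 ≤ 2 * (4 / (κ * √(1 / (4 * β + 2)) * Ladder.slLow κ) * Fi.εA) := by
      have := Fi.εA0; positivity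
    have hy : 0 ≤ 2 * (Fi.t + Fi.η / (2 * Fi.t)) := by have := Fi.t0; have := Fi.η0; positivity
    have a1 := mul_nonneg (show (0 : ℝ) ≤ N.C₀ + N.C₂ + N.CF by linarith) hx
    have a2 := mul_le_mul_of_nonneg_right (show N.CF ≤ N.C₀ + N.C₂ + N.CF by linarith) hy
    linarith [N.cutF, Fi.wins]
  -- the concentration errors
  have hbw : 1 ≤ Q.bw m₀ (K * H) := one_le_bw _ _
  have hconc : ∀ Cw, Cw ≤ N.Cc + N.C₁ + N.Cp → 0 ≤ Cw → ∀ a m, a + m ≤ N.r →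
      Q.bw m₀ (K * H) * (net.card * concErr Cw Fi.l a m ν (step0 A S)) ≤ e
      ∧ net.card * concErr Cw Fi.l a m ν (step0 A S) ≤ e := fun Cw hle h0 a m ha => by
    have a1 := card_concErr_le (C := Cw) (N := net.card) (step0 A S) hn Fi.l0 ha Fi.η0.le hη
    have a2 : ((N.r : ℝ) * Fi.η + log 2 / n) / Fi.l ≤ (N.r + 1) * Fi.η / Fi.l :=
      div_le_div_of_nonneg_right (by linarith) Fi.l0.le
    set x := 2 * ((N.r + 1) * Fi.η / Fi.l + (N.Cc + N.C₁ + N.Cp) * Fi.l)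
    have a3 : (net.card : ℝ) * concErr Cw Fi.l a m ν (step0 A S) ≤ net.card * x :=
      a1.trans (mul_le_mul_of_nonneg_left (mul_le_mul_of_nonneg_left
        (add_le_add a2 (mul_le_mul_of_nonneg_right hle Fi.l0.le)) zero_le_two) (Nat.cast_nonneg _))
    have a5 : Q.bw m₀ (K * H) * (net.card * x) ≤ e := le_of_eq_of_le
      (by simp only [Par.bw, hQ, Num.par, x, m₀]; ring) Fi.conc
    have a6 : 0 ≤ (net.card : ℝ) * x := by
      have := Fi.l0; have := Fi.η0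
      have : 0 ≤ N.Cc + N.C₁ + N.Cp := h0.trans hle
      positivity
    exact ⟨(mul_le_mul_of_nonneg_left a3 (zero_le_one.trans hbw)).trans a5,
      a3.trans ((le_mul_of_one_le_left a6 hbw).trans a5)⟩
  have c0 := N.conc.2
  have c1 := N.conc₁.2
  have c2 := N.concP.2
  -- the reconstruction
  obtain ⟨hR1, hR2⟩ := hrep ν S hν h1
  have hbr : ∀ Cb Cl : ℝ, 0 ≤ Cb → 0 ≤ Cl → (∃ l, 0 < l ∧
      Cl * ncol N.r * l / 2 + (Cl / (2 * l) + Cb) * N.ε ≤ e) → eBr β d ν S ro Cb Cl ≤ e :=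
    fun Cb Cl hb hl ⟨l, hl0, hle⟩ => by
      refine (bridge_mean h.law hn (hmem d) hro (hro.2.2.2 d) hb hl hl0).trans (le_trans ?_ hle)
      exact add_le_add le_rfl (mul_le_mul_of_nonneg_left hR1 (by positivity))
  obtain ⟨hb1, hl1⟩ := par_br_nonneg β (κ := κ) K H N.R0 hp
  obtain ⟨hb2, hl2⟩ := gaL_nonneg (Q := Q) N.R0
  have hbr1 : eBr β d ν S ro (Q.brB m₀) (Q.brL m₀) ≤ e := hbr _ _ hb1 hl1 N.bridge
  have hbr2 : eBr β d ν S ro Q.gaB Q.gaL ≤ e := hbr _ _ hb2 hl2 N.bridgeF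
  -- the tests
  have hDt : 2 * log 2 + trajD A 0 ν S N.r / n + N.ε ≤ 4 := by
    rw [trajD_zero A h1]
    exact dt_le hn hη Fi.rη N.ε1
  have hl := N.lam0
  have hJ : (0 : ℝ) < N.J := by exact_mod_cast N.J1
  have hdiv : ∀ B : ℝ, (4 + N.J * (2 * B * N.lam) ^ 2) / N.lam
      = N.J * (4 / (N.J * N.lam) + 4 * B ^ 2 * N.lam) := fun B => by
    field_simp
    ring
  have htau : ∀ Φ ∈ Φs, ∀ b a,
      |∑ j ∈ range N.J, Q.tau d ν S ro m₀ (fun u => Φ u 0) b a j| ≤ e * N.J := fun Φ hΦ b a => by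
    have hmemT : ∀ σ, (Φ, b, a, σ) ∈ Φs ×ˢ (univ : Finset (Bool × Fin 3 × Bool)) := fun σ =>
      mem_product.2 ⟨hΦ, mem_univ _⟩
    refine (h.tau_total (test1_of (hΦs Φ hΦ)) b a hr hl
      (((hT _ (hmemT true)) ν S hν h1).trans hDt) (((hT _ (hmemT false)) ν S hν h1).trans hDt)).trans ?_
    rw [hdiv, mul_left_comm, mul_comm e]
    exact mul_le_mul_of_nonneg_left N.tests hJ.le
  have htauG : ∀ b a, |∑ j ∈ range N.J, Q.tauG d ν S ro M b a j| ≤ e * N.J := fun b a => by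
    rw [← h.tauG_sum hM b a hr]
    refine (test_bound h.law (hmem d) hro (h.gammaTests hM b hr a) hC hl
      ((hG (b, a, true) ν S hν h1).trans hDt) ((hG (b, a, false) ν S hν h1).trans hDt)).trans ?_
    rw [hdiv, mul_comm e]
    exact mul_le_mul_of_nonneg_left N.testsF hJ.le
  have hfits : trajE A 0 ν S ({P : Traj n N.r | ¬ Fits β ro d N.ε P}.indicator 1) ≤ e := hR2.trans N.εe
  have bu : Budget Q d S ro ν net 6 (1 / 2) m₀ Φs N.J N.C₀ N.C₂ N.Cc N.C₁ N.B N.δ Fi.l N.ε e :=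
    { hr := hr, J1 := N.J1, K1 := hK, H1 := hH, invK := hKe, e1 := he1, drop := hdrop
      win₀ := N.win₀, win₂ := N.win₂, e₀ := he₀, e₂ := he₂, conc := N.conc.1, conc₁ := N.conc₁.1
      hB := N.hB, hBδ := N.hBδ, δ0 := N.δ0, δe := N.δe, l0 := Fi.l0
      small := fun a ha => (hconc N.Cc (by linarith) c0 a _ ha).1
      small₁ := fun a ha => (hconc N.C₁ (by linarith) c1 a _ ha).2
      bridge := hbr1, eg0 := N.ε0.le, eg1 := N.ε1, geo := N.geo, fits := hfits, tau := htau }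
  have hmass : ∀ j < N.J, Q.eMass d ν S N.r j ≤ 3 * e := fun j hj => by
    have hs' := Q.blk_le hj hr
    have hs : Q.blk j + Q.K * Q.H ≤ N.r := by omega
    have := h.mass_conc (j := j) N.concP.1 N.hB ((le_max_left _ _).trans N.hBδ) Fi.l0 N.win₀ hs
    have e0 : Q.eWin d ν S N.C₀ (Q.K * Q.H) ≤ e := he₀
    have e1 : (net.card : ℝ) * concErr N.Cp Fi.l (Q.blk j) (Q.K * Q.H) ν (step0 (aop n Q.β d) S) ≤ e :=
      (hconc N.Cp (by linarith) c2 (Q.blk j) (Q.K * Q.H) hs).2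
    linarith
  refine bu.core_le h hΦs hβ0 hβ1.le
    (F := fun j => 8 * ∑ b : Bool, (Q.tauG d ν S ro M b 1 j - Q.tauG d ν S ro M b 0 j))
    hs0 hs1 (fun j hj => ?_) ?_ (fun j hj => ?_)
  · have hs' := Q.blk_le hj hr
    have hg := h.gamma_block hM hs' N.winF
    have e2 : samE (aop n Q.β d) ν S (fun P : Sam n N.r => (n : ℝ)⁻¹ * Sᶜ.card
        * (1 - exp (-(Q.W * winGam (cellAt ro d P) (Q.kEnd N.r (Q.blk j)) (Q.blk j + Q.K * Q.H)
          (Q.blk j + Q.K * Q.H + Q.H) / (2 * M ^ 2))))) = Q.eGam d ν S ro M j := by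
      simp only [Par.eGam, Par.gam, neg_div]
    have hgl := h.gain_le (j := j) hM hw₀ hW
    rw [e2] at hgl
    have e3 : avgIB S (wErr (aop n Q.β d) ν S (fun _ => 1) 1 Q.R N.CF Q.H) ≤ e := heF
    have e4 : eBr Q.β d ν S ro Q.gaB Q.gaL ≤ e := hbr2
    have e5 : Q.κ * M * √(2 / (1 / (4 * β + 2))) ≤ e := hκe
    have e6 : (6 : ℝ) ^ 2 / (2 * M ^ 2) = 18 / M ^ 2 := by ring
    linarith [hmass j hj]
  · simp only [Fintype.sum_bool, ← mul_sum, sum_add_distrib, sum_sub_distrib]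
    have hb := fun b a => abs_le.1 (htauG b a)
    linarith [(hb true 0).1, (hb true 1).2, (hb false 0).1, (hb false 1).2, mul_nonneg he hJ.le]
  · have hs' := Q.blk_le hj hr
    refine (h.cell_block Φs hΦs hs0 N.win₀ (show Q.blk j + Q.K * Q.H ≤ N.r by omega)).trans ?_
    simp only [sum_add_distrib, sum_const, nsmul_eq_mul]
    have h0 : 0 ≤ (Φs.card : ℝ) := Φs.card.cast_nonneg
    have e0 : Q.eWin d ν S N.C₀ (Q.K * Q.H) ≤ e := he₀
    have b1 := mul_le_mul_of_nonneg_left (hmass j hj) h0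
    have b2 := mul_le_mul_of_nonneg_left e0 (mul_nonneg h0 hs0.le)
    have b3 := mul_le_mul_of_nonneg_left e0 (show 0 ≤ 2 * (Φs.card : ℝ) + 1 by linarith)
    have b4 := mul_le_mul_of_nonneg_left (mul_le_of_le_one_left he hs1) h0
    nlinarith [mul_nonneg h0 he, mul_nonneg h0 hs0.le]

end Vale.Agent.P150.Fast.Core
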