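import Mathlib
import Vale.Agent.P150.Fast.Cavity.Core.Main
import Vale.Agent.P150.Fast.Dom.Thm

/-!
The core of M4: constants, events and the union bound (P150).
-/

open MeasureTheory Real Finset Filter
open scoped Matrix

namespace Vale.Agent.P150.Fast.Core

variable {n : ℕ} {β κ M : ℝ} {K H : ℕ} {e : ℝ}

/-- Every test of the core is bounded and normalised in the model. -/
theorem tests_ok (N : Num β κ K H e) (hβ0 : 0 ≤ β) (hβ1 : β < 1) (hκ : 0 < κ) (hn : 1 ≤ n)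
    (hM : 1 ≤ M) {W : ℝ} (hW : 0 < W) (hW2 : W ≤ 2) {C : ℝ} {net : Finset (Coef (ncol N.r))}
    (hC : ∀ θ ∈ net, NetOK C θ) {ro : Readout n N.r} (hmem : ∀ d P, ro.cell d P ∈ net)
    (hro : ReadOK β ro) {Φs : Finset (ℝ → ℝ → ℝ)} (hΦs : ∀ Φ ∈ Φs, IsTest2 Φ)
    {f : Bool → Coef (ncol N.r) → Site N.r → ℝ}
    (hf : (∃ p ∈ Φs ×ˢ (univ : Finset (Bool × Fin 3 × Bool)), f = N.fT W net p)
      ∨ ∃ p : Bool × Fin 2 × Bool, f = N.fG W M net p) :
    (∀ b θ, Measurable (f b θ)) ∧ (∀ b θ p, |f b θ p| ≤ N.bnd) ∧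
      ∀ b, ∀ θ ∈ net, modE β (shift β) W 0 θ b (fun p => exp (f b θ p)) ≤ 1 := by
  obtain ⟨d, ν, h⟩ := exists_ctx (Q := N.par W) hβ0 hβ1 hn hW hκ N.R0 (Ladder.slLow_pos hκ)
    (Ladder.slLow_le hκ hW2) ro net hmem hro hC
  have hsgn : ∀ σ, N.sgn σ = N.lam ∨ N.sgn σ = -N.lam := fun σ => by cases σ <;> simp [Num.sgn]
  have h1 : 0 ≤ facB N.R (Ladder.slLow κ) ^ H := (pow_pos (facB_pos _ _) _).le
  have h2 : 0 ≤ facB N.R 1 ^ H := (pow_pos (facB_pos _ _) _).le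
  rcases hf with ⟨p, hp, rfl⟩ | ⟨p, rfl⟩
  · have hT := h.tests (test1_of (hΦs _ (mem_product.1 hp).1)) p.2.1 (J := N.J) le_rfl p.2.2.1
    obtain ⟨m1, m2⟩ := martF_le_bnd (W := W) hT hC (hsgn p.2.2.2)
      (show (N.par W).bw (Ladder.slLow κ) H ≤ _ from le_add_of_nonneg_right h2)
    exact ⟨m1, m2, fun b θ hθ => martF_norm hT hC b θ hθ⟩
  · have hT := h.gammaTests hM p.1 (J := N.J) le_rfl p.2.1
    obtain ⟨m1, m2⟩ := martF_le_bnd (W := W) hT hC (hsgn p.2.2)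
      (show facB N.R 1 ^ H ≤ _ from le_add_of_nonneg_left h1)
    exact ⟨m1, m2, fun b θ hθ => martF_norm hT hC b θ hθ⟩

/-- **The core of the cavity picture from the master inequality.** -/
theorem coreThm_of {β : ℝ} (hβ0 : 0 ≤ β) (hβ1 : β < 1) (hD : DomStmt β) : CoreStmt β := by
  obtain ⟨W, hW, hflat, hdom⟩ := hD
  intro θ hθ Φs hΦs
  set c := ((Φs.card : ℝ) + 1) * 1000 with hc
  have hc0 : 0 ≤ c := by positivity
  obtain ⟨s, hs0, hs1, hs⟩ := exists_le_of_mul hc0 (half_pos hθ)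
  obtain ⟨e, he, he1, hes⟩ := exists_le_of_mul (c := c / s) (by positivity) (half_pos hθ)
  set M := max 1 (18 / e) with hMd
  have hM : 1 ≤ M := le_max_left _ _
  have hMe : 18 / M ^ 2 ≤ e := by
    have h2 : 18 / e ≤ M := le_max_right _ _
    rw [div_le_iff₀ he] at h2
    rw [div_le_iff₀ (by positivity)]
    nlinarith [mul_le_mul_of_nonneg_left hM (mul_nonneg (zero_le_one.trans hM) he.le)]
  obtain ⟨κ, hκ, hκ1, hκe⟩ := exists_le_of_mul (c := M * √(2 / (1 / (4 * β + 2)))) (by positivity) he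
  obtain ⟨K, hK, hKe⟩ := exists_ge_of_div (c := (1 : ℝ)) he
  refine ⟨κ, e, K, hκ, hκ1, he, fun H hH => ?_⟩
  obtain ⟨N⟩ := exists_num β hκ K H he
  obtain ⟨C, net, hC, hev⟩ := hdom N.r N.ε N.ε0
  obtain ⟨Fi⟩ := exists_fine N hκ he net.card
  refine ⟨Fi.η, Fi.η0, fun δ hδ => ?_⟩
  set T := Φs ×ˢ (univ : Finset (Bool × Fin 3 × Bool))
  set δ' := δ / ((T.card : ℝ) + (univ : Finset (Bool × Fin 2 × Bool)).card + 3) with hδ'd
  have hδ' : 0 < δ' := by positivity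
  obtain ⟨cN, hcN, hNev⟩ := normEvent β (1 / 2) hβ0 (by norm_num)
  have hexp : ∀ᶠ n : ℕ in atTop, exp (-(cN * n)) ≤ δ' :=
    (tendsto_exp_atBot.comp (tendsto_neg_atTop_atBot.comp
      (tendsto_natCast_atTop_atTop.const_mul_atTop hcN))).eventually (eventually_le_nhds hδ')
  filter_upwards [hNev, hexp, hflat Fi.εA δ' Fi.εA0 hδ', hev N.bnd δ' hδ',
    Ladder.eventually_small (c := log 2) Fi.η0, eventually_ge_atTop 1] with n hN hx hA hro' hlog hn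
  obtain ⟨hW0, hW2, hWlo⟩ := hW n
  obtain ⟨ro, hmem, hro, hrep, htest⟩ := hro' 0 le_rfl
  have hok := fun {f} hf => tests_ok (f := f) (M := M) N hβ0 hβ1 hκ hn hM hW0 hW2 hC hmem hro hΦs hf
  set U := disX n
  set b1 : Set (Dis n) := {d | ¬ ∀ v, |Ent.qform (kmat n β d) v| ≤ (2 * β + 1 / 2) * ∑ i, v i ^ 2}
  set b2 : Set (Dis n) := {d | Fi.εA < (n : ℝ)⁻¹ * ∑ i, |(aop n β d)⁻¹ i i - W n|}
  set b3 : Set (Dis n) := {d | ¬ ReproGood β ro N.ε d}
  set b4 : Set (Dis n) := ⋃ p ∈ T, {d | ¬ TestGood β ro (N.fT (W n) net p) N.ε d}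
  set b5 : Set (Dis n) := ⋃ p ∈ (univ : Finset (Bool × Fin 2 × Bool)),
    {d | ¬ TestGood β ro (N.fG (W n) M net p) N.ε d}
  have h4 : U.real b4 ≤ T.card * δ' :=
    (measureReal_biUnion_finset_le _ _).trans ((sum_le_card_nsmul _ _ δ' fun p hp => by
      obtain ⟨m1, m2, m3⟩ := hok (Or.inl ⟨p, hp, rfl⟩)
      exact htest _ m1 m2 m3).trans_eq (nsmul_eq_mul _ _))
  have h5 : U.real b5 ≤ (univ : Finset (Bool × Fin 2 × Bool)).card * δ' :=
    (measureReal_biUnion_finset_le _ _).trans ((sum_le_card_nsmul _ _ δ' fun p _ => by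
      obtain ⟨m1, m2, m3⟩ := hok (Or.inr ⟨p, rfl⟩)
      exact htest _ m1 m2 m3).trans_eq (nsmul_eq_mul _ _))
  refine (measureReal_mono (s₂ := b1 ∪ b2 ∪ b3 ∪ b4 ∪ b5) (fun d hd => ?_) (measure_ne_top _ _)).trans ?_
  · by_contra hu
    simp only [Set.mem_union, Set.mem_iUnion, not_or, not_exists, b1, b2, b3, b4, b5,
      Set.mem_ofPred_eq, not_not, not_lt] at hu
    obtain ⟨⟨⟨⟨u1, u2⟩, u3⟩, u4⟩, u5⟩ := hu
    refine hd fun ν S hν h1 hfree hdrop => ?_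
    have hK2 : potDrop β d 0 κ ν S Φs H ((K + 2) * H) ≤ e := hdrop
    have hgc := good_core hΦs hβ0 hβ1 hκ hκ1 hM hK hH he1 hKe hMe
      (le_of_eq_of_le (by ring) hκe) hWlo hW2 hC Fi hn hlog hmem hro
      (disGood_of hβ0 hβ1 u1 u2) u3 (fun p hp => u4 p hp) (fun p => u5 p (mem_univ p)) hs0 hs1 ν S hν h1
      hfree hK2
    refine hgc.trans ?_
    rw [← mul_assoc, ← hc, mul_add, mul_div_assoc', mul_div_right_comm]
    linarith
  · have hsum : δ' * ((T.card : ℝ) + (univ : Finset (Bool × Fin 2 × Bool)).card + 3) = δ := by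
      rw [hδ'd, div_mul_cancel₀]
      positivity
    linarith [measureReal_union_le (μ := U) (b1 ∪ b2 ∪ b3 ∪ b4) b5,
      measureReal_union_le (μ := U) (b1 ∪ b2 ∪ b3) b4, measureReal_union_le (μ := U) (b1 ∪ b2) b3,
      measureReal_union_le (μ := U) b1 b2, hN.trans hx, hA, (show U.real b3 ≤ δ' from hrep)]

/-- **The core of the cavity picture.** -/
theorem coreThm {β : ℝ} (hβ0 : 0 ≤ β) (hβ1 : β < 1) : CoreStmt β :=
  coreThm_of hβ0 hβ1 (Dom.domThm hβ0 hβ1)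

end Vale.Agent.P150.Fast.Core
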